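import Mathlib

/-! Smooth functions on `[-1,1] x [0,T)` as a differential algebra, and first-touch lemmas. -/

open Set Topology Filter
open scoped ContDiff

namespace Vale.Agent.P244.BB

/-- space-time domain -/
def dom (T : ℝ) : Set (ℝ × ℝ) := Icc (-1) 1 ×ˢ Ico 0 T

lemma dom_uniqueDiff (T : ℝ) : UniqueDiffOn ℝ (dom T) :=
  (uniqueDiffOn_Icc (by norm_num)).prod (uniqueDiffOn_Ico 0 T)

lemma mem_dom {T z t : ℝ} (hz : z ∈ Icc (-1 : ℝ) 1) (ht : t ∈ Ico 0 T) : (z, t) ∈ dom T :=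
  ⟨hz, ht⟩

/-- smooth functions on the domain -/
def smoothAlg (T : ℝ) : Subalgebra ℝ (dom T → ℝ) where
  carrier := {f | ∃ F : ℝ × ℝ → ℝ, ContDiffOn ℝ ∞ F (dom T) ∧ ∀ p : dom T, f p = F p}
  mul_mem' := by
    rintro f g ⟨F, hF, hfF⟩ ⟨G, hG, hgG⟩
    exact ⟨fun p => F p * G p, hF.mul hG, fun p => by simp [hfF p, hgG p]⟩
  add_mem' := by
    rintro f g ⟨F, hF, hfF⟩ ⟨G, hG, hgG⟩
    exact ⟨fun p => F p + G p, hF.add hG, fun p => by simp [hfF p, hgG p]⟩
  algebraMap_mem' := by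
    intro r
    exact ⟨fun _ => r, contDiffOn_const, fun p => by simp⟩

variable {T : ℝ}

/-- extension by zero -/
noncomputable def ext (f : smoothAlg T) : ℝ × ℝ → ℝ :=
  open Classical in fun p => if h : p ∈ dom T then f.1 ⟨p, h⟩ else 0

lemma ext_apply (f : smoothAlg T) {p : ℝ × ℝ} (h : p ∈ dom T) : ext f p = f.1 ⟨p, h⟩ := by
  simp [ext, h]

lemma ext_contDiffOn (f : smoothAlg T) : ContDiffOn ℝ ∞ (ext f) (dom T) := by
  obtain ⟨F, hF, hfF⟩ := f.2
  refine hF.congr fun p hp => ?_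
  rw [ext_apply f hp, hfF]

lemma ext_diff (f : smoothAlg T) {p : ℝ × ℝ} (hp : p ∈ dom T) :
    DifferentiableWithinAt ℝ (ext f) (dom T) p :=
  ((ext_contDiffOn f).differentiableOn (by simp)) p hp

lemma ext_add (f g : smoothAlg T) (p : ℝ × ℝ) : ext (f + g) p = ext f p + ext g p := by
  by_cases h : p ∈ dom T <;> simp [ext, h]

lemma ext_mul (f g : smoothAlg T) (p : ℝ × ℝ) : ext (f * g) p = ext f p * ext g p := by
  by_cases h : p ∈ dom T <;> simp [ext, h]

lemma ext_smul (c : ℝ) (f : smoothAlg T) (p : ℝ × ℝ) : ext (c • f) p = c * ext f p := by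
  by_cases h : p ∈ dom T <;> simp [ext, h]

lemma ext_sub (f g : smoothAlg T) (p : ℝ × ℝ) : ext (f - g) p = ext f p - ext g p := by
  by_cases h : p ∈ dom T <;> simp [ext, h]

lemma ext_neg (f : smoothAlg T) (p : ℝ × ℝ) : ext (-f) p = -ext f p := by
  by_cases h : p ∈ dom T <;> simp [ext, h]

lemma smooth_ext {f g : smoothAlg T} (h : ∀ p ∈ dom T, ext f p = ext g p) : f = g := by
  apply Subtype.ext
  funext p
  have := h p.1 p.2
  rwa [ext_apply f p.2, ext_apply g p.2] at this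

/-- element of the algebra from a smooth function -/
def mkS (F : ℝ × ℝ → ℝ) (hF : ContDiffOn ℝ ∞ F (dom T)) : smoothAlg T :=
  ⟨fun p => F p, F, hF, fun _ => rfl⟩

lemma ext_mkS {F : ℝ × ℝ → ℝ} (hF : ContDiffOn ℝ ∞ F (dom T)) {p : ℝ × ℝ} (hp : p ∈ dom T) :
    ext (mkS F hF) p = F p := by
  rw [ext_apply _ hp]; rfl

/-- partial derivative in direction `v` -/
noncomputable def pd (v : ℝ × ℝ) (f : smoothAlg T) : smoothAlg T :=
  mkS (fun p => fderivWithin ℝ (ext f) (dom T) p v)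
    (((ext_contDiffOn f).fderivWithin (dom_uniqueDiff T) (by simp)).clm_apply contDiffOn_const)

lemma ext_pd (v : ℝ × ℝ) (f : smoothAlg T) {p : ℝ × ℝ} (hp : p ∈ dom T) :
    ext (pd v f) p = fderivWithin ℝ (ext f) (dom T) p v := ext_mkS _ hp

/-- partial derivative as a derivation -/
noncomputable def pdD (v : ℝ × ℝ) : Derivation ℝ (smoothAlg T) (smoothAlg T) :=
  Derivation.mk'
    { toFun := pd v
      map_add' := by
        intro f g
        apply smooth_ext
        intro p hp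
        rw [ext_pd v _ hp, ext_add, ext_pd v _ hp, ext_pd v _ hp]
        have : ext (f + g) = fun p => ext f p + ext g p := by funext p; exact ext_add f g p
        rw [this, fderivWithin_fun_add (dom_uniqueDiff T p hp) (ext_diff f hp) (ext_diff g hp)]
        simp
      map_smul' := by
        intro c f
        apply smooth_ext
        intro p hp
        rw [ext_pd v _ hp, RingHom.id_apply, ext_smul, ext_pd v _ hp]
        have : ext (c • f) = fun p => c * ext f p := by funext p; exact ext_smul c f p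
        rw [this, fderivWithin_const_mul (dom_uniqueDiff T p hp) (ext_diff f hp) c]
        simp }
    (by
      intro f g
      apply smooth_ext
      intro p hp
      simp only [LinearMap.coe_mk, AddHom.coe_mk, smul_eq_mul]
      rw [ext_pd v _ hp, ext_add, ext_mul, ext_mul, ext_pd v _ hp, ext_pd v _ hp]
      have : ext (f * g) = fun p => ext f p * ext g p := by funext p; exact ext_mul f g p
      rw [this, fderivWithin_fun_mul (dom_uniqueDiff T p hp) (ext_diff f hp) (ext_diff g hp)]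
      simp)

lemma pdD_apply (v : ℝ × ℝ) (f : smoothAlg T) : pdD v f = pd v f := rfl

lemma dom_subset_closure : dom T ⊆ closure (interior (dom T)) := by
  intro p hp
  have hT : 0 < T := lt_of_le_of_lt hp.2.1 hp.2.2
  have h1 : interior (dom T) = Ioo (-1) 1 ×ˢ Ioo 0 T := by
    rw [dom, interior_prod_eq, interior_Icc, interior_Ico]
  rw [h1, closure_prod_eq, closure_Ioo (by norm_num), closure_Ioo hT.ne]
  exact ⟨hp.1, ⟨hp.2.1, hp.2.2.le⟩⟩

lemma pd_comm (v w : ℝ × ℝ) (f : smoothAlg T) : pd v (pd w f) = pd w (pd v f) := by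
  apply smooth_ext
  intro p hp
  have hU := dom_uniqueDiff T
  have key : ∀ v w : ℝ × ℝ, ext (pd v (pd w f)) p =
      fderivWithin ℝ (fderivWithin ℝ (ext f) (dom T)) (dom T) p v w := by
    intro v w
    rw [ext_pd v _ hp]
    have e : EqOn (ext (pd w f)) (fun p => fderivWithin ℝ (ext f) (dom T) p w) (dom T) :=
      fun p hp => ext_pd w f hp
    rw [fderivWithin_congr e (e hp)]
    have hd : DifferentiableWithinAt ℝ (fderivWithin ℝ (ext f) (dom T)) (dom T) p :=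
      (((ext_contDiffOn f).fderivWithin (m := ∞) hU (by simp)).differentiableOn (by simp)) p hp
    rw [fderivWithin_clm_apply (hU p hp) hd (differentiableWithinAt_const w)]
    simp
  rw [key, key]
  have hs : IsSymmSndFDerivWithinAt ℝ (ext f) (dom T) p :=
    ((ext_contDiffOn f) p hp).isSymmSndFDerivWithinAt
      (by rw [minSmoothness_of_isRCLikeNormedField]; exact WithTop.coe_le_coe.2 le_top) hU (dom_subset_closure hp) hp
  exact hs v w

/-- x-derivative -/
noncomputable def dz (f : smoothAlg T) : smoothAlg T := pd (1, 0) f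

/-- t-derivative -/
noncomputable def dt (f : smoothAlg T) : smoothAlg T := pd (0, 1) f

lemma hasDerivWithinAt_z (f : smoothAlg T) {z t : ℝ} (hz : z ∈ Icc (-1 : ℝ) 1)
    (ht : t ∈ Ico 0 T) :
    HasDerivWithinAt (fun z => ext f (z, t)) (ext (dz f) (z, t)) (Icc (-1) 1) z := by
  have hp := mem_dom hz ht
  have h1 := (ext_diff f hp).hasFDerivWithinAt
  have h2 : HasDerivWithinAt (fun z : ℝ => (z, t)) ((1 : ℝ), (0 : ℝ)) (Icc (-1) 1) z :=
    (hasDerivWithinAt_id z _).prodMk (hasDerivWithinAt_const z _ t)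
  have h3 := h1.comp_hasDerivWithinAt z h2 (fun w hw => mem_dom hw ht)
  rw [dz, ext_pd _ _ hp]
  exact h3

lemma hasDerivWithinAt_t (f : smoothAlg T) {z t : ℝ} (hz : z ∈ Icc (-1 : ℝ) 1)
    (ht : t ∈ Ico 0 T) :
    HasDerivWithinAt (fun s => ext f (z, s)) (ext (dt f) (z, t)) (Ico 0 T) t := by
  have hp := mem_dom hz ht
  have h1 := (ext_diff f hp).hasFDerivWithinAt
  have h2 : HasDerivWithinAt (fun s : ℝ => (z, s)) ((0 : ℝ), (1 : ℝ)) (Ico 0 T) t :=
    (hasDerivWithinAt_const t _ z).prodMk (hasDerivWithinAt_id t _)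
  have h3 := h1.comp_hasDerivWithinAt t h2 (fun w hw => mem_dom hz hw)
  rw [dt, ext_pd _ _ hp]
  exact h3

lemma hasDerivAt_t (f : smoothAlg T) {z t : ℝ} (hz : z ∈ Icc (-1 : ℝ) 1)
    (ht : t ∈ Ioo 0 T) :
    HasDerivAt (fun s => ext f (z, s)) (ext (dt f) (z, t)) t :=
  (hasDerivWithinAt_t f hz ⟨ht.1.le, ht.2⟩).hasDerivAt (Ico_mem_nhds ht.1 ht.2)

lemma hasDerivAt_z (f : smoothAlg T) {z t : ℝ} (hz : z ∈ Ioo (-1 : ℝ) 1)
    (ht : t ∈ Ico 0 T) :
    HasDerivAt (fun z => ext f (z, t)) (ext (dz f) (z, t)) z :=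
  (hasDerivWithinAt_z f (Ioo_subset_Icc_self hz) ht).hasDerivAt (Icc_mem_nhds hz.1 hz.2)

lemma ext_continuousOn (f : smoothAlg T) : ContinuousOn (ext f) (dom T) :=
  (ext_contDiffOn f).continuousOn

/-- First touch: if `u < φ` at time zero but not always, there is a first contact point. -/
lemma first_touch {u : ℝ × ℝ → ℝ} {φ : ℝ → ℝ} (hu : ContinuousOn u (dom T))
    (hφ : ContinuousOn φ (Ico 0 T)) (h0 : ∀ z ∈ Icc (-1 : ℝ) 1, u (z, 0) < φ 0)
    {z₁ t₁ : ℝ} (hz₁ : z₁ ∈ Icc (-1 : ℝ) 1) (ht₁ : t₁ ∈ Ico 0 T) (h1 : φ t₁ ≤ u (z₁, t₁)) :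
    ∃ z₀ ∈ Icc (-1 : ℝ) 1, ∃ t₀ ∈ Ioc 0 t₁, u (z₀, t₀) = φ t₀ ∧
      (∀ z ∈ Icc (-1 : ℝ) 1, ∀ s ∈ Icc 0 t₀, u (z, s) ≤ φ s) ∧
      (∀ z ∈ Icc (-1 : ℝ) 1, ∀ s ∈ Ico 0 t₀, u (z, s) < φ s) := by
  classical
  set K : Set (ℝ × ℝ) := Icc (-1) 1 ×ˢ Icc 0 t₁ with hK
  have hKd : K ⊆ dom T := fun p hp => ⟨hp.1, ⟨hp.2.1, lt_of_le_of_lt hp.2.2 ht₁.2⟩⟩
  have hKc : IsCompact K := isCompact_Icc.prod isCompact_Icc
  set w : ℝ × ℝ → ℝ := fun p => u p - φ p.2 with hw
  have hwc : ContinuousOn w K := by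
    refine (hu.mono hKd).sub (hφ.comp continuousOn_snd ?_)
    intro p hp; exact (hKd hp).2
  set B : Set (ℝ × ℝ) := K ∩ w ⁻¹' (Ici 0) with hB
  have hBc : IsCompact B := by
    have : IsClosed B := hwc.preimage_isClosed_of_isClosed hKc.isClosed isClosed_Ici
    exact hKc.of_isClosed_subset this inter_subset_left
  have hBn : B.Nonempty := ⟨(z₁, t₁), ⟨⟨hz₁, ⟨ht₁.1, le_rfl⟩⟩, by simp [hw]; linarith only [h1]⟩⟩
  obtain ⟨p₀, hp₀, hmin⟩ := hBc.exists_isMinOn hBn continuous_snd.continuousOn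
  have hlt : ∀ z ∈ Icc (-1 : ℝ) 1, ∀ s ∈ Ico 0 p₀.2, u (z, s) < φ s := by
    intro z hz s hs
    by_contra hcon
    push Not at hcon
    have hin : (z, s) ∈ B := by
      refine ⟨⟨hz, ⟨hs.1, (hs.2.trans_le hp₀.1.2.2).le⟩⟩, ?_⟩
      simp [hw]; linarith only [hcon]
    have := hmin hin
    simp at this
    exact absurd hs.2 (not_lt.2 this)
  have hpos : 0 < p₀.2 := by
    rcases hp₀.1.2.1.eq_or_lt with h | h
    · exfalso
      have h2 := h0 p₀.1 hp₀.1.1
      have h3 : 0 ≤ w p₀ := hp₀.2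
      simp only [hw] at h3
      have h4 : p₀ = (p₀.1, 0) := by rw [h]
      rw [← h] at h3
      rw [← h4] at h2
      linarith only [h2, h3]
    · exact h
  have hT0 : p₀.2 < T := lt_of_le_of_lt hp₀.1.2.2 ht₁.2
  have hle : ∀ z ∈ Icc (-1 : ℝ) 1, u (z, p₀.2) ≤ φ p₀.2 := by
    intro z hz
    by_contra hcon
    push Not at hcon
    have hc1 : ContinuousWithinAt (fun s => u (z, s) - φ s) (Icc 0 t₁) p₀.2 := by
      have h5 : ContinuousOn (fun s => w (z, s)) (Icc 0 t₁) := by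
        refine hwc.comp (by fun_prop) ?_
        intro s hs; exact ⟨hz, hs⟩
      exact h5 p₀.2 hp₀.1.2
    have hc2 : ContinuousWithinAt (fun s => u (z, s) - φ s) (Ico 0 p₀.2) p₀.2 :=
      hc1.mono (fun s hs => ⟨hs.1, (hs.2.trans_le hp₀.1.2.2).le⟩)
    have hcl : p₀.2 ∈ closure (Ico 0 p₀.2) := by
      rw [closure_Ico hpos.ne]; exact ⟨hpos.le, le_rfl⟩
    have : (𝓝[Ico 0 p₀.2] p₀.2).NeBot := mem_closure_iff_nhdsWithin_neBot.1 hcl
    have h6 : u (z, p₀.2) - φ p₀.2 ≤ 0 := by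
      refine le_of_tendsto hc2.tendsto ?_
      filter_upwards [self_mem_nhdsWithin] with s hs
      linarith only [hlt, hz, hs, hlt z hz s hs]
    linarith
  refine ⟨p₀.1, hp₀.1.1, p₀.2, ⟨hpos, hp₀.1.2.2⟩, ?_, ?_, hlt⟩
  · have h3 : 0 ≤ w p₀ := hp₀.2
    simp only [hw] at h3
    exact le_antisymm (hle _ hp₀.1.1) (by linarith only [h3])
  · intro z hz s hs
    rcases hs.2.eq_or_lt with h | h
    · rw [h]; exact hle z hz
    · exact (hlt z hz s ⟨hs.1, h⟩).le

/-- time derivative at a touching point -/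
lemma time_ineq (f : smoothAlg T) {φ : ℝ → ℝ} {φ' z t : ℝ} (hz : z ∈ Icc (-1 : ℝ) 1)
    (ht : t ∈ Ioo 0 T) (hφ : HasDerivAt φ φ' t) (h1 : ext f (z, t) = φ t)
    (h2 : ∀ᶠ s in 𝓝[<] t, ext f (z, s) ≤ φ s) : φ' ≤ ext (dt f) (z, t) := by
  have hd : HasDerivAt (fun s => φ s - ext f (z, s)) (φ' - ext (dt f) (z, t)) t :=
    hφ.sub (hasDerivAt_t f hz ht)
  have hd2 : HasDerivWithinAt (fun s => φ s - ext f (z, s)) (φ' - ext (dt f) (z, t)) (Iio t) t :=
    hd.hasDerivWithinAt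
  rw [hasDerivWithinAt_iff_tendsto_slope] at hd2
  have hne : (Iio t \ {t} : Set ℝ) = Iio t := by ext x; simp
  rw [hne] at hd2
  have : φ' - ext (dt f) (z, t) ≤ 0 := by
    refine le_of_tendsto hd2 ?_
    filter_upwards [h2, self_mem_nhdsWithin] with s hs hst
    rw [slope_def_field]
    have h3 : s - t < 0 := by have : s < t := hst; linarith only [this]
    apply div_nonpos_of_nonneg_of_nonpos
    · rw [h1]; linarith only [hs]
    · exact h3.le
  linarith only [this]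

/-- space derivatives at a local maximum -/
lemma space_ineq (f : smoothAlg T) {z t : ℝ} (hz : z ∈ Icc (-1 : ℝ) 1) (ht : t ∈ Ico 0 T)
    (h2 : ∀ᶠ w in 𝓝[Icc (-1) 1] z, ext f (w, t) ≤ ext f (z, t)) :
    (z = -1 ∧ ext (dz f) (z, t) ≤ 0) ∨ (z = 1 ∧ 0 ≤ ext (dz f) (z, t)) ∨
    (z ∈ Ioo (-1 : ℝ) 1 ∧ ext (dz f) (z, t) = 0 ∧ ext (dz (dz f)) (z, t) ≤ 0) := by
  have hd := hasDerivWithinAt_z f hz ht
  rcases hz.1.eq_or_lt with hl | hl
  · left
    refine ⟨hl.symm, ?_⟩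
    rw [hasDerivWithinAt_iff_tendsto_slope] at hd
    have hm : z ∈ closure (Icc (-1 : ℝ) 1 \ {z}) := by
      have h3 : Ioc z 1 ⊆ Icc (-1 : ℝ) 1 \ {z} := by
        intro x hx; exact ⟨⟨by linarith only [hl, hx, hx.1], hx.2⟩, by simp; exact (ne_of_gt hx.1)⟩
      refine closure_mono h3 ?_
      rw [closure_Ioc (by linarith only [hl])]; exact ⟨le_rfl, by linarith only [hl]⟩
    have : (𝓝[Icc (-1 : ℝ) 1 \ {z}] z).NeBot := mem_closure_iff_nhdsWithin_neBot.1 hm
    refine le_of_tendsto hd ?_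
    have h4 : ∀ᶠ w in 𝓝[Icc (-1) 1 \ {z}] z, ext f (w, t) ≤ ext f (z, t) :=
      h2.filter_mono (nhdsWithin_mono z sdiff_subset)
    filter_upwards [h4, self_mem_nhdsWithin] with w hw hwz
    rw [slope_def_field]
    have h5 : z < w := by
      rcases lt_or_eq_of_le (hl ▸ hwz.1.1 : z ≤ w) with h | h
      · exact h
      · exact absurd h.symm hwz.2
    apply div_nonpos_of_nonpos_of_nonneg <;> linarith only [hw, h5]
  rcases hz.2.eq_or_lt with hr | hr
  · right; left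
    refine ⟨hr, ?_⟩
    rw [hasDerivWithinAt_iff_tendsto_slope] at hd
    have hm : z ∈ closure (Icc (-1 : ℝ) 1 \ {z}) := by
      have h3 : Ico (-1) z ⊆ Icc (-1 : ℝ) 1 \ {z} := by
        intro x hx; exact ⟨⟨hx.1, by linarith only [hr, hx, hx.2]⟩, by simp; exact (ne_of_lt hx.2)⟩
      refine closure_mono h3 ?_
      rw [closure_Ico (by linarith only [hr])]; exact ⟨by linarith only [hr], le_rfl⟩
    have : (𝓝[Icc (-1 : ℝ) 1 \ {z}] z).NeBot := mem_closure_iff_nhdsWithin_neBot.1 hm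
    refine ge_of_tendsto hd ?_
    have h4 : ∀ᶠ w in 𝓝[Icc (-1) 1 \ {z}] z, ext f (w, t) ≤ ext f (z, t) :=
      h2.filter_mono (nhdsWithin_mono z sdiff_subset)
    filter_upwards [h4, self_mem_nhdsWithin] with w hw hwz
    rw [slope_def_field]
    have h5 : w < z := by
      rcases lt_or_eq_of_le (hr ▸ hwz.1.2 : w ≤ z) with h | h
      · exact h
      · exact absurd h hwz.2
    apply div_nonneg_of_nonpos <;> linarith only [hw, h5]
  · right; right
    have hzo : z ∈ Ioo (-1 : ℝ) 1 := ⟨hl, hr⟩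
    have hnh : Icc (-1 : ℝ) 1 ∈ 𝓝 z := Icc_mem_nhds hl hr
    have hmax : IsLocalMax (fun w => ext f (w, t)) z := by
      have : 𝓝[Icc (-1) 1] z = 𝓝 z := nhdsWithin_eq_nhds.2 hnh
      rw [this] at h2
      exact h2
    have h0 : ext (dz f) (z, t) = 0 := hmax.hasDerivAt_eq_zero (hasDerivAt_z f hzo ht)
    refine ⟨hzo, h0, ?_⟩
    by_contra hcon
    push Not at hcon
    have hev : deriv (fun w => ext f (w, t)) =ᶠ[𝓝 z] fun w => ext (dz f) (w, t) := by
      filter_upwards [Ioo_mem_nhds hl hr] with w hw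
      exact (hasDerivAt_z f hw ht).deriv
    have hdd : deriv (deriv (fun w => ext f (w, t))) z = ext (dz (dz f)) (z, t) := by
      rw [hev.deriv_eq]
      exact (hasDerivAt_z (dz f) hzo ht).deriv
    have hmin : IsLocalMin (fun w => ext f (w, t)) z := by
      refine isLocalMin_of_deriv_deriv_pos (by rw [hdd]; exact hcon) ?_
        (hasDerivAt_z f hzo ht).continuousAt
      rw [hev.eq_of_nhds]; exact h0
    have hconst : (fun w => ext f (w, t)) =ᶠ[𝓝 z] fun _ => ext f (z, t) := by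
      filter_upwards [hmax, hmin] with w h3 h4
      exact le_antisymm h3 h4
    have h5 : deriv (fun w => ext f (w, t)) =ᶠ[𝓝 z] fun _ => 0 := by
      have := hconst.deriv
      simpa using this
    have h6 : deriv (deriv (fun w => ext f (w, t))) z = 0 := by
      rw [h5.deriv_eq]; simp
    rw [hdd] at h6
    linarith only [hcon, h6]

/-- inverse of a nonvanishing element -/
noncomputable def invS (f : smoothAlg T) (hf : ∀ p ∈ dom T, ext f p ≠ 0) : smoothAlg T :=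
  mkS (fun p => (ext f p)⁻¹) ((ext_contDiffOn f).inv hf)

lemma ext_invS (f : smoothAlg T) (hf : ∀ p ∈ dom T, ext f p ≠ 0) {p : ℝ × ℝ} (hp : p ∈ dom T) :
    ext (invS f hf) p = (ext f p)⁻¹ := ext_mkS _ hp

lemma ext_one {p : ℝ × ℝ} (hp : p ∈ dom T) : ext (1 : smoothAlg T) p = 1 := by
  rw [ext_apply _ hp]; rfl

lemma ext_zero (p : ℝ × ℝ) : ext (0 : smoothAlg T) p = 0 := by
  by_cases h : p ∈ dom T <;> simp [ext, h]

lemma mul_invS (f : smoothAlg T) (hf : ∀ p ∈ dom T, ext f p ≠ 0) : f * invS f hf = 1 := by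
  apply smooth_ext
  intro p hp
  rw [ext_mul, ext_invS f hf hp, ext_one hp, mul_inv_cancel₀ (hf p hp)]

lemma dz_mul (f g : smoothAlg T) : dz (f * g) = f * dz g + g * dz f :=
  (pdD (T := T) (1, 0)).leibniz f g

lemma dt_mul (f g : smoothAlg T) : dt (f * g) = f * dt g + g * dt f :=
  (pdD (T := T) (0, 1)).leibniz f g

lemma dt_one : dt (1 : smoothAlg T) = 0 := (pdD (T := T) (0, 1)).map_one_eq_zero

/-- evaluation at a point of the domain, as a ring homomorphism -/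
def ev {p : ℝ × ℝ} (hp : p ∈ dom T) : smoothAlg T →+* ℝ where
  toFun f := f.1 ⟨p, hp⟩
  map_one' := rfl
  map_mul' _ _ := rfl
  map_zero' := rfl
  map_add' _ _ := rfl

lemma ev_eq {p : ℝ × ℝ} (hp : p ∈ dom T) (f : smoothAlg T) : ev hp f = ext f p := by
  rw [ext_apply f hp]; rfl

/-- the constant function -/
def cst (c : ℝ) : smoothAlg T := algebraMap ℝ (smoothAlg T) c

lemma ext_cst (c : ℝ) {p : ℝ × ℝ} (hp : p ∈ dom T) : ext (cst c : smoothAlg T) p = c := by
  rw [ext_apply _ hp]; rfl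

end Vale.Agent.P244.BB
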