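import Vale.Agent.P244.MathlibUsed

/-! Ricci flows of the form `g(t) = w^2 dz^2 + b^2 η^2 + a^2 g_B` on `CP^1`-bundles. -/

open Set
open scoped ContDiff

namespace Vale.Agent.P244.Bolt

/-- The three functions of `(z, t)` describing the metrics
`g(t) = (E^2 / β) dz^2 + β η^2 + A g_B`, for `-1 < z < 1`. -/
structure Profile where
  E : ℝ × ℝ → ℝ
  β : ℝ × ℝ → ℝ
  A : ℝ × ℝ → ℝ

namespace Profile

variable (g : Profile)

/-- scale of the base: the restriction of the metric to the base directions is `a^2 g_B` -/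
noncomputable def a (p : ℝ × ℝ) : ℝ := √(g.A p)

/-- scale of the circle fibre -/
noncomputable def b (p : ℝ × ℝ) : ℝ := √(g.β p)

/-- the metric is `w^2 dz^2` in the direction orthogonal to the orbits -/
noncomputable def w (p : ℝ × ℝ) : ℝ := g.E p / g.b p

/-- derivative with respect to arclength `ds = w dz`, at fixed time -/
noncomputable def ds (f : ℝ × ℝ → ℝ) (p : ℝ × ℝ) : ℝ :=
  deriv (fun z => f (z, p.2)) p.1 / g.w p

/-- sectional curvature of the plane spanned by `∂_s` and the fibre direction -/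
noncomputable def K1 (p : ℝ × ℝ) : ℝ := -(g.ds (g.ds g.b) p / g.b p)

/-- sectional curvature of a plane spanned by `∂_s` and a base direction -/
noncomputable def K2 (p : ℝ × ℝ) : ℝ := -(g.ds (g.ds g.a) p / g.a p)

/-- sectional curvature of a plane spanned by the fibre direction and a base direction -/
noncomputable def K3 (p : ℝ × ℝ) : ℝ :=
  g.b p ^ 2 / g.a p ^ 4 - g.ds g.a p * g.ds g.b p / (g.a p * g.b p)

/-- Ricci curvature in the direction `∂_s`; `m` is the complex dimension of the base -/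
noncomputable def ricS (m : ℕ) (p : ℝ × ℝ) : ℝ := g.K1 p + 2 * m * g.K2 p

/-- Ricci curvature in the fibre direction -/
noncomputable def ricF (m : ℕ) (p : ℝ × ℝ) : ℝ := g.K1 p + 2 * m * g.K3 p

/-- Ricci curvature in the base directions, where `Ric(g_B) = 2(m+1) g_B` and `d η = 2 ω_B` -/
noncomputable def ricB (m : ℕ) (p : ℝ × ℝ) : ℝ :=
  g.K2 p + g.K3 p + (2 * (m + 1) - (2 * m - 1) * g.ds g.a p ^ 2) / g.a p ^ 2
    - 3 * g.b p ^ 2 / g.a p ^ 4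

/-- scalar curvature -/
noncomputable def scal (m : ℕ) (p : ℝ × ℝ) : ℝ := g.ricS m p + g.ricF m p + 2 * m * g.ricB m p

/-- `g(t)`, `0 ≤ t < T`, are smooth metrics on the closed manifold: `E, β, A` are smooth on
`[-1,1] x [0,T)`, `E, A > 0`, `β > 0` inside, `β = 0` and `β_z = ± 2 κ E` at `z = ∓ 1`
(that is, `b_s = κ` at the two exceptional orbits). -/
structure IsMetricFamily (κ T : ℝ) : Prop where
  smoothE : ContDiffOn ℝ ∞ g.E (Icc (-1) 1 ×ˢ Ico 0 T)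
  smoothβ : ContDiffOn ℝ ∞ g.β (Icc (-1) 1 ×ˢ Ico 0 T)
  smoothA : ContDiffOn ℝ ∞ g.A (Icc (-1) 1 ×ˢ Ico 0 T)
  Epos : ∀ p ∈ Icc (-1 : ℝ) 1 ×ˢ Ico 0 T, 0 < g.E p
  Apos : ∀ p ∈ Icc (-1 : ℝ) 1 ×ˢ Ico 0 T, 0 < g.A p
  βpos : ∀ p ∈ Ioo (-1 : ℝ) 1 ×ˢ Ico 0 T, 0 < g.β p
  βleft : ∀ t ∈ Ico 0 T, g.β (-1, t) = 0
  βright : ∀ t ∈ Ico 0 T, g.β (1, t) = 0
  slopeLeft : ∀ t ∈ Ico 0 T,
    derivWithin (fun z => g.β (z, t)) (Icc (-1) 1) (-1) = 2 * κ * g.E (-1, t)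
  slopeRight : ∀ t ∈ Ico 0 T,
    derivWithin (fun z => g.β (z, t)) (Icc (-1) 1) 1 = -(2 * κ * g.E (1, t))

/-- The Ricci flow equation `∂_t g = -2 Ric(g)` for `0 < t < T`, `-1 < z < 1`. -/
structure IsRicciFlow (m : ℕ) (κ T : ℝ) : Prop extends g.IsMetricFamily κ T where
  flow_w : ∀ z ∈ Ioo (-1 : ℝ) 1, ∀ t ∈ Ioo 0 T,
    HasDerivAt (fun s => g.w (z, s) ^ 2) (-2 * g.ricS m (z, t) * g.w (z, t) ^ 2) t
  flow_b : ∀ z ∈ Ioo (-1 : ℝ) 1, ∀ t ∈ Ioo 0 T,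
    HasDerivAt (fun s => g.b (z, s) ^ 2) (-2 * g.ricF m (z, t) * g.b (z, t) ^ 2) t
  flow_a : ∀ z ∈ Ioo (-1 : ℝ) 1, ∀ t ∈ Ioo 0 T,
    HasDerivAt (fun s => g.a (z, s) ^ 2) (-2 * g.ricB m (z, t) * g.a (z, t) ^ 2) t

/-- Every component of the curvature tensor is bounded by `C`. -/
def CurvatureBound (T C : ℝ) : Prop :=
  ∀ p ∈ Ioo (-1 : ℝ) 1 ×ˢ Ico 0 T, |g.K1 p| ≤ C ∧ |g.K2 p| ≤ C ∧ |g.K3 p| ≤ C ∧
    1 / g.a p ^ 2 ≤ C ∧ g.b p ^ 2 / g.a p ^ 4 ≤ C ∧ (g.ds g.a p / g.a p) ^ 2 ≤ C ∧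
    |g.ds (fun q => g.b q / g.a q) p / g.a p| ≤ C

end Profile

end Vale.Agent.P244.Bolt
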