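import Mathlib

open scoped Manifold ContDiff
open Set

namespace Vale.Agent.P244.Flow

section Charts

variable {V : Type*} [NormedAddCommGroup V] [NormedSpace ℝ V] {n : ℕ}
  {M : Type*} [TopologicalSpace M] [ChartedSpace V M]

variable (V M) in
/-- Fields of bilinear forms on the tangent spaces of a manifold `M` modelled on `V`. -/
abbrev Tensor := (x : M) → (TangentSpace 𝓘(ℝ, V) x →L[ℝ] TangentSpace 𝓘(ℝ, V) x →L[ℝ] ℝ)

/-- The value `h_x(u, w)` of the tensor field `h` on two tangent vectors at `x`. -/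
noncomputable def val (h : Tensor V M) (x : M) (u w : TangentSpace 𝓘(ℝ, V) x) : ℝ := h x u w

/-- The matrix of components `h(∂_i, ∂_j)` of the tensor field `h` at the point with coordinates
`y` in the chart `e`, where `∂_i` is the image of the basis vector `v i` of the model space. -/
noncomputable def comp (v : Fin n → V) (h : Tensor V M) (e : OpenPartialHomeomorph M V) (y : V) :
    Matrix (Fin n) (Fin n) ℝ :=
  fun i j => val h (e.symm y) (mfderiv 𝓘(ℝ, V) 𝓘(ℝ, V) e.symm y (v i))
    (mfderiv 𝓘(ℝ, V) 𝓘(ℝ, V) e.symm y (v j))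

/-- The partial derivative `∂_i f` at `y`. -/
noncomputable def pd (v : Fin n → V) (i : Fin n) (f : V → ℝ) (y : V) : ℝ := fderiv ℝ f y (v i)

/-- The Christoffel symbols `Γ^k_ij` of the metric components `g`. -/
noncomputable def christoffel (v : Fin n → V) (g : V → Matrix (Fin n) (Fin n) ℝ) (k i j : Fin n)
    (y : V) : ℝ :=
  (1 / 2) * ∑ l, (g y)⁻¹ k l *
    (pd v i (fun z => g z j l) y + pd v j (fun z => g z i l) y - pd v l (fun z => g z i j) y)

/-- The Ricci tensor `R_ij` of the metric components `g`. -/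
noncomputable def ricci (v : Fin n → V) (g : V → Matrix (Fin n) (Fin n) ℝ) (i j : Fin n)
    (y : V) : ℝ :=
  ∑ k, (pd v k (christoffel v g k i j) y - pd v j (christoffel v g k i k) y) +
    ∑ k, ∑ l, (christoffel v g k k l y * christoffel v g l i j y -
      christoffel v g k j l y * christoffel v g l i k y)

/-- The scalar curvature of `h` at the point `x`, computed in the preferred chart at `x`. -/
noncomputable def scalarCurvature (v : Fin n → V) (h : Tensor V M) (x : M) : ℝ :=
  ∑ i, ∑ j, (comp v h (chartAt V x) (chartAt V x x))⁻¹ i j *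
    ricci v (comp v h (chartAt V x)) i j (chartAt V x x)

/-- `g` is a smooth Ricci flow on `M` for times `0 ≤ t < T`. -/
structure IsRicciFlow (v : Fin n → V) (g : ℝ → Tensor V M) (T : ℝ) : Prop where
  symm : ∀ t ∈ Ico 0 T, ∀ x u w, val (g t) x u w = val (g t) x w u
  pos : ∀ t ∈ Ico 0 T, ∀ x w, w ≠ 0 → 0 < val (g t) x w w
  smooth : ∀ e ∈ atlas V M, ∀ i j,
    ContDiffOn ℝ ∞ (fun p : ℝ × V => comp v (g p.1) e p.2 i j) (Ico 0 T ×ˢ e.target)
  flow : ∀ e ∈ atlas V M, ∀ y ∈ e.target, ∀ i j, ∀ t ∈ Ico 0 T,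
    HasDerivWithinAt (fun s => comp v (g s) e y i j) (-2 * ricci v (comp v (g t) e) i j y)
      (Ico 0 T) t

/-- The flow `g`, given for `0 ≤ t < T`, extends past `T` as a smooth Ricci flow on `M`. -/
def ExtendsPast (v : Fin n → V) (g : ℝ → Tensor V M) (T : ℝ) : Prop :=
  ∃ ε > 0, ∃ g' : ℝ → Tensor V M, IsRicciFlow v g' (T + ε) ∧ ∀ t ∈ Ico 0 T, g' t = g t

/-- The metrics `g(t)`, `0 ≤ t < T`, all lie in the linear span of finitely many tensor fields
`b_1, …, b_N`: `g(t) = ∑ f_k(t) b_k`. -/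
def SpansFiniteDim (g : ℝ → Tensor V M) (T : ℝ) : Prop :=
  ∃ (N : ℕ) (b : Fin N → Tensor V M) (f : Fin N → ℝ → ℝ),
    ∀ t ∈ Ico 0 T, ∀ x u w, val (g t) x u w = ∑ k, f k t * val (b k) x u w

end Charts

/-- The standard basis of `ℝ^n`. -/
noncomputable def std (n : ℕ) : Fin n → EuclideanSpace ℝ (Fin n) :=
  fun i => EuclideanSpace.single i 1

end Vale.Agent.P244.Flow
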