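import Mathlib

namespace Vale.Agent.P244.GeoM

/-! Ricci curvature of `V dh^2 + U g_{S^(m-1)} + C g_{S^p}` (`U, V, C` functions of `h`):
`RU g_{S^(m-1)} + RV dh^2 + RC g_{S^p}`. -/

noncomputable def RU (m p : ℝ) (U U1 U2 V V1 C C1 : ℝ) : ℝ :=
  (m - 2) - ((U2 / V - U1 * V1 / (2 * V ^ 2)) / 2 + (m - 3) * U1 ^ 2 / (4 * U * V)
    + p * U1 * C1 / (4 * C * V))

noncomputable def RC (m p : ℝ) (U U1 V V1 C C1 C2 : ℝ) : ℝ :=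
  (p - 1) - ((C2 / V - C1 * V1 / (2 * V ^ 2)) / 2 + (p - 2) * C1 ^ 2 / (4 * C * V)
    + (m - 1) * U1 * C1 / (4 * U * V))

noncomputable def RV (m p : ℝ) (U U1 U2 V V1 C C1 C2 : ℝ) : ℝ :=
  -((m - 1) * ((U2 - U1 * V1 / (2 * V)) / (2 * U) - U1 ^ 2 / (4 * U ^ 2))
    + p * ((C2 - C1 * V1 / (2 * V)) / (2 * C) - C1 ^ 2 / (4 * C ^ 2)))

/-- covariance under a change of the variable `h` with derivatives `e1, e2` -/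
theorem RU_cov (m p : ℝ) {U U1 U2 V V1 C C1 e1 e2 : ℝ} (hU : U ≠ 0) (hV : V ≠ 0) (hC : C ≠ 0)
    (he : e1 ≠ 0) :
    RU m p U (U1 * e1) (U2 * e1 ^ 2 + U1 * e2) (V * e1 ^ 2) (V1 * e1 ^ 3 + 2 * V * e1 * e2)
      C (C1 * e1) = RU m p U U1 U2 V V1 C C1 := by
  unfold RU
  field_simp
  ring

theorem RC_cov (m p : ℝ) {U U1 V V1 C C1 C2 e1 e2 : ℝ} (hU : U ≠ 0) (hV : V ≠ 0) (hC : C ≠ 0)
    (he : e1 ≠ 0) :
    RC m p U (U1 * e1) (V * e1 ^ 2) (V1 * e1 ^ 3 + 2 * V * e1 * e2)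
      C (C1 * e1) (C2 * e1 ^ 2 + C1 * e2) = RC m p U U1 V V1 C C1 C2 := by
  unfold RC
  field_simp
  ring

theorem RV_cov (m p : ℝ) {U U1 U2 V V1 C C1 C2 e1 e2 : ℝ} (hU : U ≠ 0) (hV : V ≠ 0) (hC : C ≠ 0)
    (he : e1 ≠ 0) :
    RV m p U (U1 * e1) (U2 * e1 ^ 2 + U1 * e2) (V * e1 ^ 2) (V1 * e1 ^ 3 + 2 * V * e1 * e2)
      C (C1 * e1) (C2 * e1 ^ 2 + C1 * e2) = RV m p U U1 U2 V V1 C C1 C2 * e1 ^ 2 := by
  unfold RV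
  field_simp
  ring

/-- the curvatures of the conformal metric, `q = 1 - x^2`, `E = e^{2w}`, `K = e^{2f}` -/
theorem RU_conf (p : ℝ) {x q E K w1 w2 f1 : ℝ} (hq : q = 1 - x ^ 2) (hq0 : q ≠ 0) (hE : E ≠ 0)
    (hK : K ≠ 0) :
    RU (p + 1) p (E * q) (E * (2 * w1 * q - 2 * x))
      (E * (2 * w1 * (2 * w1 * q - 2 * x) + 2 * w2 * q - 4 * x * w1 - 2)) (E / q)
      (E * (2 * w1 / q + 2 * x / q ^ 2)) K (2 * f1 * K) =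
    -(E⁻¹ * (q * w2 - (p + 1) * x * w1 - p - x * ((p - 1) * w1 + p * f1)
      + q * w1 * ((p - 1) * w1 + p * f1))) * (E * q) := by
  unfold RU
  subst hq
  field_simp
  ring

theorem RC_conf (p : ℝ) {x q E K w1 f1 f2 : ℝ} (hq : q = 1 - x ^ 2) (hq0 : q ≠ 0) (hE : E ≠ 0)
    (hK : K ≠ 0) :
    RC (p + 1) p (E * q) (E * (2 * w1 * q - 2 * x)) (E / q)
      (E * (2 * w1 / q + 2 * x / q ^ 2)) K (2 * f1 * K) ((2 * f2 + 4 * f1 ^ 2) * K) =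
    (-(E⁻¹ * (q * f2 - (p + 1) * x * f1 + q * f1 * ((p - 1) * w1 + p * f1))) + (p - 1) * K⁻¹) *
      K := by
  unfold RC
  subst hq
  field_simp
  ring

theorem RV_conf (p : ℝ) {x q E K w1 w2 f1 f2 : ℝ} (hq : q = 1 - x ^ 2) (hq0 : q ≠ 0) (hE : E ≠ 0)
    (hK : K ≠ 0) :
    RV (p + 1) p (E * q) (E * (2 * w1 * q - 2 * x))
      (E * (2 * w1 * (2 * w1 * q - 2 * x) + 2 * w2 * q - 4 * x * w1 - 2)) (E / q)
      (E * (2 * w1 / q + 2 * x / q ^ 2)) K (2 * f1 * K) ((2 * f2 + 4 * f1 ^ 2) * K) =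
    (-(E⁻¹ * (q * w2 - (p + 1) * x * w1 - p - x * ((p - 1) * w1 + p * f1)
      + q * w1 * ((p - 1) * w1 + p * f1)))
      - E⁻¹ * q * ((p - 1) * (w2 - w1 ^ 2) + p * (f2 + f1 ^ 2 - 2 * w1 * f1))) * (E / q) := by
  unfold RV
  subst hq
  field_simp
  ring

/-- evolution of `U`, `C`, `V` along the gauge field -/
theorem evo_U (p : ℝ) {x q E K w1 w2 f1 J : ℝ} (hq : q = 1 - x ^ 2) (hq0 : q ≠ 0) (hE : E ≠ 0)
    (hK : K ≠ 0) :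
    2 * (E⁻¹ * (q * w2 - (p + 1) * x * w1 - p) + (x - q * w1) * J) * (E * q) +
      (E * (2 * w1 * q - 2 * x)) * (q * (J + E⁻¹ * ((p - 1) * w1 + p * f1))) =
    -2 * RU (p + 1) p (E * q) (E * (2 * w1 * q - 2 * x))
      (E * (2 * w1 * (2 * w1 * q - 2 * x) + 2 * w2 * q - 4 * x * w1 - 2)) (E / q)
      (E * (2 * w1 / q + 2 * x / q ^ 2)) K (2 * f1 * K) := by
  rw [RU_conf p hq hq0 hE hK]
  field_simp
  ring

theorem evo_C (p : ℝ) {x q E K w1 f1 f2 J : ℝ} (hq : q = 1 - x ^ 2) (hq0 : q ≠ 0) (hE : E ≠ 0)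
    (hK : K ≠ 0) :
    2 * (E⁻¹ * (q * f2 - (p + 1) * x * f1) - (p - 1) * K⁻¹ - q * f1 * J) * K +
      (2 * f1 * K) * (q * (J + E⁻¹ * ((p - 1) * w1 + p * f1))) =
    -2 * RC (p + 1) p (E * q) (E * (2 * w1 * q - 2 * x)) (E / q)
      (E * (2 * w1 / q + 2 * x / q ^ 2)) K (2 * f1 * K) ((2 * f2 + 4 * f1 ^ 2) * K) := by
  rw [RC_conf p hq hq0 hE hK]
  field_simp
  ring

theorem evo_V (p : ℝ) {x q E K w1 w2 f1 f2 J : ℝ} (hq : q = 1 - x ^ 2) (hq0 : q ≠ 0) (hE : E ≠ 0)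
    (hK : K ≠ 0) :
    2 * (E⁻¹ * (q * w2 - (p + 1) * x * w1 - p) + (x - q * w1) * J) * (E / q) +
      (E * (2 * w1 / q + 2 * x / q ^ 2)) * (q * (J + E⁻¹ * ((p - 1) * w1 + p * f1))) +
      2 * (E / q) * (-2 * x * (J + E⁻¹ * ((p - 1) * w1 + p * f1)) +
        q * (E⁻¹ * ((p - 1) * (w2 - w1 ^ 2) + p * (f2 + f1 ^ 2 - 2 * w1 * f1)))) =
    -2 * RV (p + 1) p (E * q) (E * (2 * w1 * q - 2 * x))
      (E * (2 * w1 * (2 * w1 * q - 2 * x) + 2 * w2 * q - 4 * x * w1 - 2)) (E / q)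
      (E * (2 * w1 / q + 2 * x / q ^ 2)) K (2 * f1 * K) ((2 * f2 + 4 * f1 ^ 2) * K) := by
  rw [RV_conf p hq hq0 hE hK]
  field_simp
  ring

end Vale.Agent.P244.GeoM
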