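import Vale.Agent.P244.GeoRicciE

set_option linter.all false

/-! # P244: smoothness in space-time and the Ricci flow equation for the doubly warped metrics -/

open scoped ContDiff
open Set
open Vale.Agent.P244.Flow (pd christoffel ricci)

namespace Vale.Agent.P244.Geo

variable {m p : ℕ}

lemma contDiff_N : ContDiff ℝ ∞ (fun y : EE m => ‖y‖ ^ 2 + 4) :=
  (contDiff_norm_sq ℝ).add contDiff_const

lemma contDiff_rho : ContDiff ℝ ∞ (rho (m := m)) :=
  contDiff_const.div contDiff_N fun y => (N_pos y).ne'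

lemma contDiff_coord (i : Fin m) : ContDiff ℝ ∞ (fun y : EE m => y i) :=
  (EuclideanSpace.proj i : EE m →L[ℝ] ℝ).contDiff

lemma contDiff_uu (i : Fin m) : ContDiff ℝ ∞ (uu (m := m) i) :=
  (contDiff_const.mul (contDiff_coord i)).div contDiff_N fun y => (N_pos y).ne'

lemma contDiff_hh (b : EE m) (c : ℝ) : ContDiff ℝ ∞ (hh b c) :=
  ((contDiff_const.mul (innerSL ℝ b).contDiff).add
    (((contDiff_norm_sq ℝ).sub contDiff_const).mul contDiff_const)).div contDiff_N
      fun y => (N_pos y).ne'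

lemma contDiff_hi (b : EE m) (c : ℝ) (i : Fin m) : ContDiff ℝ ∞ (hi b c i) :=
  (contDiff_const.add ((contDiff_const.mul (contDiff_const.sub (contDiff_hh b c))).mul
    (contDiff_coord i))).div contDiff_N fun y => (N_pos y).ne'

/-- composition of a smooth function on the strip with the height function -/
lemma strip_comp {S : Set ℝ} {F : ℝ → ℝ → ℝ} {b : EE m} {c : ℝ} (hb : ‖b‖ ^ 2 + c ^ 2 = 1)
    (hF : ContDiffOn ℝ ∞ (fun z : ℝ × ℝ => F z.1 z.2) (S ×ˢ Icc (-1) 1)) :
    ContDiffOn ℝ ∞ (fun z : ℝ × (EE m × EE p) => F z.1 (hh b c z.2.1)) (S ×ˢ univ) := by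
  have h1 : ContDiff ℝ ∞ (fun z : ℝ × (EE m × EE p) => (z.1, hh b c z.2.1)) :=
    contDiff_fst.prodMk ((contDiff_hh b c).comp (contDiff_fst.comp contDiff_snd))
  exact hF.comp h1.contDiffOn fun z hz => ⟨hz.1, hh_mem hb _⟩

/-- smoothness of the components in space-time -/
theorem G_contDiffOn {S : Set ℝ} {A B C : ℝ → ℝ → ℝ} {b : EE m} {c : ℝ}
    (hb : ‖b‖ ^ 2 + c ^ 2 = 1)
    (hA : ContDiffOn ℝ ∞ (fun z : ℝ × ℝ => A z.1 z.2) (S ×ˢ Icc (-1) 1))
    (hB : ContDiffOn ℝ ∞ (fun z : ℝ × ℝ => B z.1 z.2) (S ×ˢ Icc (-1) 1))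
    (hC : ContDiffOn ℝ ∞ (fun z : ℝ × ℝ => C z.1 z.2) (S ×ˢ Icc (-1) 1)) (I J : Fin (m + p)) :
    ContDiffOn ℝ ∞ (fun z : ℝ × (EE m × EE p) => G m p b c (A z.1) (B z.1) (C z.1) z.2 I J)
      (S ×ˢ univ) := by
  have hA' := strip_comp (p := p) hb hA
  have hB' := strip_comp (p := p) hb hB
  have hC' := strip_comp (p := p) hb hC
  refine Fin.addCases (fun i => ?_) (fun i => ?_) I <;>
  refine Fin.addCases (fun j => ?_) (fun j => ?_) J
  · have h1 : ContDiff ℝ ∞ (fun z : ℝ × (EE m × EE p) => rho z.2.1 ^ 2 * dl i j) :=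
      ((contDiff_rho.comp (contDiff_fst.comp contDiff_snd)).pow 2).mul contDiff_const
    have h2 : ContDiff ℝ ∞ (fun z : ℝ × (EE m × EE p) => hi b c i z.2.1 * hi b c j z.2.1) :=
      ((contDiff_hi b c i).comp (contDiff_fst.comp contDiff_snd)).mul
        ((contDiff_hi b c j).comp (contDiff_fst.comp contDiff_snd))
    refine ((hA'.mul h1.contDiffOn).add (hB'.mul h2.contDiffOn)).congr fun z _ => ?_
    unfold G; rw [blk_ll]
  · refine (contDiffOn_const (c := (0 : ℝ))).congr fun z _ => ?_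
    unfold G; rw [blk_lr]
  · refine (contDiffOn_const (c := (0 : ℝ))).congr fun z _ => ?_
    unfold G; rw [blk_rl]
  · have h1 : ContDiff ℝ ∞ (fun z : ℝ × (EE m × EE p) => rho z.2.2 ^ 2 * dl i j) :=
      ((contDiff_rho.comp (contDiff_snd.comp contDiff_snd)).pow 2).mul contDiff_const
    refine (hC'.mul h1.contDiffOn).congr fun z _ => ?_
    unfold G; rw [blk_rr]

/-- the Ricci flow equation from the three scalar evolution equations -/
theorem G_flow {S : Set ℝ} {A B C : ℝ → ℝ → ℝ} {b : EE m} {c : ℝ} (hb : ‖b‖ ^ 2 + c ^ 2 = 1)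
    {t : ℝ} {P : Prof} (hP : P.Good) (eA : P.A = A t) (eB : P.B = B t) (eC : P.C = C t)
    (hA : ∀ x ∈ Icc (-1 : ℝ) 1, HasDerivWithinAt (fun s => A s x) (-2 * P.F1 m p x) S t)
    (hB : ∀ x ∈ Icc (-1 : ℝ) 1, HasDerivWithinAt (fun s => B s x) (-2 * P.F2 m p x) S t)
    (hC : ∀ x ∈ Icc (-1 : ℝ) 1, HasDerivWithinAt (fun s => C s x) (-2 * P.F3 m p x) S t)
    (I J : Fin (m + p)) (y : EE m × EE p) :
    HasDerivWithinAt (fun s => G m p b c (A s) (B s) (C s) y I J)
      (-2 * ricci (frame m p) (G m p b c (A t) (B t) (C t)) I J y) S t := by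
  have hx := hh_mem hb y.1
  rw [← eA, ← eB, ← eC]
  refine Fin.addCases (fun i => ?_) (fun i => ?_) I <;>
  refine Fin.addCases (fun j => ?_) (fun j => ?_) J
  · have e : (fun s => G m p b c (A s) (B s) (C s) y (Fin.castAdd p i) (Fin.castAdd p j)) =
        fun s => A s (hh b c y.1) * (rho y.1 ^ 2 * dl i j) +
          B s (hh b c y.1) * (hi b c i y.1 * hi b c j y.1) := by
      funext s; unfold G; rw [blk_ll]
    rw [ricci_ll hP hb, e]
    have h1 := ((hA _ hx).mul_const (rho y.1 ^ 2 * dl i j)).add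
      ((hB _ hx).mul_const (hi b c i y.1 * hi b c j y.1))
    exact h1.congr_deriv (by ring)
  · have e : (fun s => G m p b c (A s) (B s) (C s) y (Fin.castAdd p i) (Fin.natAdd m j)) =
        fun s => 0 := by
      funext s; unfold G; rw [blk_lr]
    rw [ricci_lr hP hb, e]
    exact (hasDerivWithinAt_const t S (0 : ℝ)).congr_deriv (by ring)
  · have e : (fun s => G m p b c (A s) (B s) (C s) y (Fin.natAdd m i) (Fin.castAdd p j)) =
        fun s => 0 := by
      funext s; unfold G; rw [blk_rl]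
    rw [ricci_rl hP hb, e]
    exact (hasDerivWithinAt_const t S (0 : ℝ)).congr_deriv (by ring)
  · have e : (fun s => G m p b c (A s) (B s) (C s) y (Fin.natAdd m i) (Fin.natAdd m j)) =
        fun s => C s (hh b c y.1) * (rho y.2 ^ 2 * dl i j) := by
      funext s; unfold G; rw [blk_rr]
    rw [ricci_rr hP hb, e]
    have h1 := (hC _ hx).mul_const (rho y.2 ^ 2 * dl i j)
    exact h1.congr_deriv (by ring)

end Vale.Agent.P244.Geo
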