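import Vale.Agent.P244.GeoRicciC

set_option linter.all false

/-! # P244, block G1, part D: derivatives of the Christoffel symbols, algebra of the Ricci sums. -/

open scoped ContDiff
open Set
open Vale.Agent.P244.Flow (pd christoffel ricci)

namespace Vale.Agent.P244.Geo

variable {m p : ℕ}

/-! ### sums -/

lemma sum_dlkk : ∑ k : Fin m, dl k k = m := by
  simp [dl]

/-- generic contraction -/
lemma sum_gen (u h X Y : Fin m → ℝ) (i j : Fin m) (a b c d : ℝ) :
    ∑ k, (dl j k * X k + dl i k * Y k + a * (u k * u k) + b * (u k * h k) + c * (h k * h k) +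
      d * dl k k) = X j + Y i + a * ∑ k, u k * u k + b * ∑ k, u k * h k + c * ∑ k, h k * h k +
      d * m := by
  rw [Finset.sum_add_distrib, Finset.sum_add_distrib, Finset.sum_add_distrib,
    Finset.sum_add_distrib, Finset.sum_add_distrib, ← Finset.mul_sum, ← Finset.mul_sum,
    ← Finset.mul_sum, ← Finset.mul_sum, sum_dl, sum_dl, sum_dlkk]

lemma sum_gen2 (P R h X Y Z : Fin m → ℝ) (i j k : Fin m) (a b c d : ℝ) :
    ∑ l, (dl k l * X l + dl i l * Y l + dl j l * Z l + a * (P l * R l) + b * (P l * h l) +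
      c * (R l * h l) + d * (h l * h l)) = X k + Y i + Z j + a * ∑ l, P l * R l +
      b * ∑ l, P l * h l + c * ∑ l, R l * h l + d * ∑ l, h l * h l := by
  rw [Finset.sum_add_distrib, Finset.sum_add_distrib, Finset.sum_add_distrib,
    Finset.sum_add_distrib, Finset.sum_add_distrib, Finset.sum_add_distrib, ← Finset.mul_sum,
    ← Finset.mul_sum, ← Finset.mul_sum, ← Finset.mul_sum, sum_dl, sum_dl, sum_dl]

lemma sum_gen3 (P R h X Y : Fin m → ℝ) (i j : Fin m) (a b c d e : ℝ) :
    ∑ l, (dl i l * X l + dl j l * Y l + e * dl l l + a * (P l * R l) + b * (P l * h l) +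
      c * (R l * h l) + d * (h l * h l)) = X i + Y j + e * m + a * ∑ l, P l * R l +
      b * ∑ l, P l * h l + c * ∑ l, R l * h l + d * ∑ l, h l * h l := by
  rw [Finset.sum_add_distrib, Finset.sum_add_distrib, Finset.sum_add_distrib,
    Finset.sum_add_distrib, Finset.sum_add_distrib, Finset.sum_add_distrib, ← Finset.mul_sum,
    ← Finset.mul_sum, ← Finset.mul_sum, ← Finset.mul_sum, ← Finset.mul_sum, sum_dl, sum_dl,
    sum_dlkk]

/-- the quadratic Christoffel term -/
lemma sum_GG (P R h : Fin m → ℝ) (w : ℝ) (i j : Fin m) :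
    ∑ k, ∑ l, (dl l k * P j + dl j k * P l + dl j l * R k + w * (h j * h l * h k)) *
      (dl k l * P i + dl i l * P k + dl i k * R l + w * (h i * h k * h l)) =
    (m + 3) * (P i * P j) + 2 * dl i j * ∑ k, P k * R k + 2 * w * (h i * h j) * ∑ k, P k * h k +
      w * (P j * h i + P i * h j) * ∑ k, h k * h k + (P j * R i + P i * R j) + R i * R j +
      2 * w * (h i * h j) * ∑ k, R k * h k + w ^ 2 * (h i * h j) * (∑ k, h k * h k) ^ 2 := by
  have h1 : ∀ k l, (dl l k * P j + dl j k * P l + dl j l * R k + w * (h j * h l * h k)) *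
      (dl k l * P i + dl i l * P k + dl i k * R l + w * (h i * h k * h l)) =
      dl k l * (P j * (P i + dl i l * P k + dl i k * R l + w * (h i * h k * h l)) +
        dl j k * P l * P i + w * (h j * h l * h k) * P i) +
      dl i l * (dl j k * P l * P k + w * (h j * h l * h k) * P k) +
      dl j l * (R k * (dl k l * P i + dl i l * P k + dl i k * R l + w * (h i * h k * h l))) +
      (dl j k * dl i k) * (P l * R l) + (dl j k * w * h i * h k) * (P l * h l) +
      (w * h j * h k * dl i k) * (R l * h l) + (w ^ 2 * h i * h j * h k * h k) * (h l * h l) := by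
    intro k l
    have e2 : dl k l * dl k l = dl k l := dl_mul_self k l
    rw [dl_comm l k]
    linear_combination (P i * P j) * e2
  have h2 : ∀ k, ∑ l, (dl l k * P j + dl j k * P l + dl j l * R k + w * (h j * h l * h k)) *
      (dl k l * P i + dl i l * P k + dl i k * R l + w * (h i * h k * h l)) =
      dl i k * (P j * P k + P j * R k + R j * R k + dl j k * ∑ l, P l * R l +
        w * h j * h k * ∑ l, R l * h l) +
      dl j k * (2 * P i * P k + R k * P i + w * h i * h k * ∑ l, P l * h l) +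
      (P j * P i) * dl k k + (dl i j) * (P k * R k) + (w * h i * h j) * (P k * h k) +
      (w * h i * h j) * (R k * h k) +
      (w * (P j * h i + P i * h j) + w ^ 2 * h i * h j * ∑ l, h l * h l) * (h k * h k) := by
    intro k
    rw [Finset.sum_congr rfl fun l _ => h1 k l, sum_gen2 P R h
      (fun l => P j * (P i + dl i l * P k + dl i k * R l + w * (h i * h k * h l)) +
        dl j k * P l * P i + w * (h j * h l * h k) * P i)
      (fun l => dl j k * P l * P k + w * (h j * h l * h k) * P k)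
      (fun l => R k * (dl k l * P i + dl i l * P k + dl i k * R l + w * (h i * h k * h l))) i j k,
      dl_self, dl_comm k j]
    ring
  rw [Finset.sum_congr rfl fun k _ => h2 k, sum_gen3 P R h
    (fun k => P j * P k + P j * R k + R j * R k + dl j k * ∑ l, P l * R l +
        w * h j * h k * ∑ l, R l * h l)
    (fun k => 2 * P i * P k + R k * P i + w * h i * h k * ∑ l, P l * h l), dl_comm j i]
  ring

/-! ### derivatives of the Christoffel symbols -/

section der

variable {P : Prof} {b : EE m} {c : ℝ}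

/-- `∂_k ∂_i log ρ` -/
noncomputable def du (i k : Fin m) (y : EE m) : ℝ := uu i y * uu k y - rho y / 2 * dl i k

/-- `∂_k ∂_i h` -/
noncomputable def dh (b : EE m) (c : ℝ) (i k : Fin m) (y : EE m) : ℝ :=
  uu i y * hi b c k y + uu k y * hi b c i y + ss b c y * dl i k

lemma HD_pp (hP : P.Good) (hb : ‖b‖ ^ 2 + c ^ 2 = 1) (i : Fin m) (y : EE m) :
    HD (pp P b c i) (fun k => du i k y + (P.al1 (hh b c y) * hi b c k y * hi b c i y +
      P.al (hh b c y) * dh b c i k y)) y := by
  have hx := hh_mem hb y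
  exact (HD_uu i y).add ((HD.compW (hP.der_al hx) (HD_hh b c y) (hh_mem hb)).mul (HD_hi b c i y))

lemma HD_rr (hP : P.Good) (hb : ‖b‖ ^ 2 + c ^ 2 = 1) (i : Fin m) (y : EE m) :
    HD (rr P b c i) (fun k => -du i k y + (P.ga1 (hh b c y) * hi b c k y * hi b c i y +
      P.ga (hh b c y) * dh b c i k y)) y := by
  have hx := hh_mem hb y
  exact (HD_uu i y).neg.add ((HD.compW (hP.der_ga hx) (HD_hh b c y) (hh_mem hb)).mul (HD_hi b c i y))

lemma HD_om (hP : P.Good) (hb : ‖b‖ ^ 2 + c ^ 2 = 1) (y : EE m) :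
    HD (om P b c) (fun k => P.be1 (hh b c y) * hi b c k y / rho y ^ 2 -
      2 * om P b c y * uu k y) y := by
  have hx := hh_mem hb y
  have hr := (rho_pos y).ne'
  refine ((HD.compW (hP.der_be hx) (HD_hh b c y) (hh_mem hb)).div (HD_rho2 y)
    (by positivity)).congr fun k => ?_
  unfold om
  field_simp

/-- derivative of `chF` -/
noncomputable def dchF (P : Prof) (b : EE m) (c : ℝ) (k i j l : Fin m) (y : EE m) : ℝ :=
  dl j k * (du i l y + (P.al1 (hh b c y) * hi b c l y * hi b c i y + P.al (hh b c y) * dh b c i l y))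
  + dl i k * (du j l y + (P.al1 (hh b c y) * hi b c l y * hi b c j y +
      P.al (hh b c y) * dh b c j l y))
  + dl i j * (-du k l y + (P.ga1 (hh b c y) * hi b c l y * hi b c k y +
      P.ga (hh b c y) * dh b c k l y))
  + ((P.be1 (hh b c y) * hi b c l y / rho y ^ 2 - 2 * om P b c y * uu l y) *
      (hi b c i y * hi b c j y * hi b c k y) +
    om P b c y * ((dh b c i l y * hi b c j y + hi b c i y * dh b c j l y) * hi b c k y +
      hi b c i y * hi b c j y * dh b c k l y))

lemma HD_chF (hP : P.Good) (hb : ‖b‖ ^ 2 + c ^ 2 = 1) (k i j : Fin m) (y : EE m) :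
    HD (chF P b c k i j) (fun l => dchF P b c k i j l y) y :=
  ((((HD_pp hP hb i y).const_mul (dl j k)).add ((HD_pp hP hb j y).const_mul (dl i k))).add
    ((HD_rr hP hb k y).const_mul (dl i j))).add ((HD_om hP hb y).mul
      (((HD_hi b c i y).mul (HD_hi b c j y)).mul (HD_hi b c k y)))

lemma HD_chS (k i j : Fin p) (y : EE p) :
    HD (chS k i j) (fun l => dl j k * du i l y + dl i k * du j l y - dl i j * du k l y) y :=
  (((HD_uu i y).const_mul (dl j k)).add ((HD_uu j y).const_mul (dl i k))).sub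
    ((HD_uu k y).const_mul (dl i j))

lemma HD_chM (hP : P.Good) (hb : ‖b‖ ^ 2 + c ^ 2 = 1) (k : Fin m) (y : EE m) :
    HD (chM P b c k) (fun l => -((P.la1 (hh b c y) * hi b c l y / rho y ^ 2 -
      2 * (P.la (hh b c y) / rho y ^ 2) * uu l y) * hi b c k y +
      P.la (hh b c y) / rho y ^ 2 * dh b c k l y)) y := by
  have hx := hh_mem hb y
  have hr := (rho_pos y).ne'
  refine (((HD.compW (hP.der_la hx) (HD_hh b c y) (hh_mem hb)).div (HD_rho2 y)
    (by positivity)).mul (HD_hi b c k y)).neg.congr fun l => ?_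
  unfold dh dl
  field_simp

lemma HD_kh (hP : P.Good) (hb : ‖b‖ ^ 2 + c ^ 2 = 1) (i : Fin m) (y : EE m) :
    HD (fun y => P.ka (hh b c y) * hi b c i y) (fun l => P.ka1 (hh b c y) * hi b c l y * hi b c i y +
      P.ka (hh b c y) * dh b c i l y) y := by
  have hx := hh_mem hb y
  exact (HD.compW (hP.der_ka hx) (HD_hh b c y) (hh_mem hb)).mul (HD_hi b c i y)

/-! ### partial derivatives on the product -/

lemma PDc_lll (hP : P.Good) (hb : ‖b‖ ^ 2 + c ^ 2 = 1) (k i j : Fin m) (y : EE m × EE p) :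
    PD (christoffel (frame m p) (G m p b c P.A P.B P.C) (Fin.castAdd p k) (Fin.castAdd p i)
      (Fin.castAdd p j)) (fun l => dchF P b c k i j l y.1) (fun _ => 0) y :=
  (PD.fst (HD_chF hP hb k i j y.1)).of_eq (ch_lll hP hb k i j)

lemma PDc_llr (hP : P.Good) (hb : ‖b‖ ^ 2 + c ^ 2 = 1) (k i : Fin m) (a : Fin p)
    (y : EE m × EE p) :
    PD (christoffel (frame m p) (G m p b c P.A P.B P.C) (Fin.castAdd p k) (Fin.castAdd p i)
      (Fin.natAdd m a)) (fun _ => 0) (fun _ => 0) y :=
  (PD.const 0).of_eq (ch_llr hP hb k i a)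

lemma PDc_lrl (hP : P.Good) (hb : ‖b‖ ^ 2 + c ^ 2 = 1) (k i : Fin m) (a : Fin p)
    (y : EE m × EE p) :
    PD (christoffel (frame m p) (G m p b c P.A P.B P.C) (Fin.castAdd p k) (Fin.natAdd m a)
      (Fin.castAdd p i)) (fun _ => 0) (fun _ => 0) y :=
  (PD.const 0).of_eq (ch_lrl hP hb k i a)

lemma PDc_lrr (hP : P.Good) (hb : ‖b‖ ^ 2 + c ^ 2 = 1) (k : Fin m) (a a' : Fin p)
    (y : EE m × EE p) :
    PD (christoffel (frame m p) (G m p b c P.A P.B P.C) (Fin.castAdd p k) (Fin.natAdd m a)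
      (Fin.natAdd m a')) (fun l => -((P.la1 (hh b c y.1) * hi b c l y.1 / rho y.1 ^ 2 -
      2 * (P.la (hh b c y.1) / rho y.1 ^ 2) * uu l y.1) * hi b c k y.1 +
      P.la (hh b c y.1) / rho y.1 ^ 2 * dh b c k l y.1) * (rho y.2 ^ 2 * dl a a'))
      (fun l => chM P b c k y.1 * (2 * rho y.2 * (rho y.2 * uu l y.2) * dl a a')) y := by
  refine (((PD.fst (HD_chM hP hb k y.1)).mul ((PD.snd (HD_rho2 y.2)).mul
    (PD.const (dl a a')))).of_eq (ch_lrr hP hb k a a')).congr (fun l => ?_) (fun l => ?_)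
  · ring
  · ring

lemma PDc_rll (hP : P.Good) (hb : ‖b‖ ^ 2 + c ^ 2 = 1) (a : Fin p) (i j : Fin m)
    (y : EE m × EE p) :
    PD (christoffel (frame m p) (G m p b c P.A P.B P.C) (Fin.natAdd m a) (Fin.castAdd p i)
      (Fin.castAdd p j)) (fun _ => 0) (fun _ => 0) y :=
  (PD.const 0).of_eq (ch_rll hP hb a i j)

lemma PDc_rlr (hP : P.Good) (hb : ‖b‖ ^ 2 + c ^ 2 = 1) (a a' : Fin p) (i : Fin m)
    (y : EE m × EE p) :
    PD (christoffel (frame m p) (G m p b c P.A P.B P.C) (Fin.natAdd m a) (Fin.castAdd p i)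
      (Fin.natAdd m a')) (fun l => (P.ka1 (hh b c y.1) * hi b c l y.1 * hi b c i y.1 +
      P.ka (hh b c y.1) * dh b c i l y.1) * dl a a') (fun _ => 0) y := by
  refine (((PD.fst (HD_kh hP hb i y.1)).mul (PD.const (dl a a'))).of_eq
    (ch_rlr hP hb a a' i)).congr (fun l => ?_) (fun l => ?_)
  · ring
  · ring

lemma PDc_rrl (hP : P.Good) (hb : ‖b‖ ^ 2 + c ^ 2 = 1) (a a' : Fin p) (i : Fin m)
    (y : EE m × EE p) :
    PD (christoffel (frame m p) (G m p b c P.A P.B P.C) (Fin.natAdd m a) (Fin.natAdd m a')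
      (Fin.castAdd p i)) (fun l => (P.ka1 (hh b c y.1) * hi b c l y.1 * hi b c i y.1 +
      P.ka (hh b c y.1) * dh b c i l y.1) * dl a a') (fun _ => 0) y := by
  refine (((PD.fst (HD_kh hP hb i y.1)).mul (PD.const (dl a a'))).of_eq
    (ch_rrl hP hb a a' i)).congr (fun l => ?_) (fun l => ?_)
  · ring
  · ring

lemma PDc_rrr (hP : P.Good) (hb : ‖b‖ ^ 2 + c ^ 2 = 1) (k i j : Fin p) (y : EE m × EE p) :
    PD (christoffel (frame m p) (G m p b c P.A P.B P.C) (Fin.natAdd m k) (Fin.natAdd m i)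
      (Fin.natAdd m j)) (fun _ => 0)
      (fun l => dl j k * du i l y.2 + dl i k * du j l y.2 - dl i j * du k l y.2) y :=
  (PD.snd (HD_chS k i j y.2)).of_eq (ch_rrr hP hb k i j)

lemma chr_diff (hP : P.Good) (hb : ‖b‖ ^ 2 + c ^ 2 = 1) (K I J : Fin (m + p))
    (y : EE m × EE p) :
    DifferentiableAt ℝ (christoffel (frame m p) (G m p b c P.A P.B P.C) K I J) y := by
  refine Fin.addCases (fun k => ?_) (fun k => ?_) K <;>
  refine Fin.addCases (fun i => ?_) (fun i => ?_) I <;>
  refine Fin.addCases (fun j => ?_) (fun j => ?_) J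
  · exact (PDc_lll hP hb _ _ _ y).1
  · exact (PDc_llr hP hb _ _ _ y).1
  · exact (PDc_lrl hP hb _ _ _ y).1
  · exact (PDc_lrr hP hb _ _ _ y).1
  · exact (PDc_rll hP hb _ _ _ y).1
  · exact (PDc_rlr hP hb _ _ _ y).1
  · exact (PDc_rrl hP hb _ _ _ y).1
  · exact (PDc_rrr hP hb _ _ _ y).1

lemma chF_symm (k i j : Fin m) (y : EE m) : chF P b c k i j y = chF P b c k j i y := by
  unfold chF
  rw [dl_comm i j]
  ring

lemma chS_symm (k i j : Fin p) (y : EE p) : chS k i j y = chS k j i y := by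
  unfold chS
  rw [dl_comm i j]
  ring

lemma chr_symm (hP : P.Good) (hb : ‖b‖ ^ 2 + c ^ 2 = 1) (K I J : Fin (m + p))
    (y : EE m × EE p) :
    christoffel (frame m p) (G m p b c P.A P.B P.C) K I J y =
      christoffel (frame m p) (G m p b c P.A P.B P.C) K J I y := by
  refine Fin.addCases (fun k => ?_) (fun k => ?_) K <;>
  refine Fin.addCases (fun i => ?_) (fun i => ?_) I <;>
  refine Fin.addCases (fun j => ?_) (fun j => ?_) J
  · rw [ch_lll hP hb, ch_lll hP hb, chF_symm]
  · rw [ch_llr hP hb, ch_lrl hP hb]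
  · rw [ch_llr hP hb, ch_lrl hP hb]
  · rw [ch_lrr hP hb, ch_lrr hP hb, dl_comm]
  · rw [ch_rll hP hb, ch_rll hP hb]
  · rw [ch_rlr hP hb, ch_rrl hP hb]
  · rw [ch_rlr hP hb, ch_rrl hP hb]
  · rw [ch_rrr hP hb, ch_rrr hP hb, chS_symm]

end der

/-! ### the profile functions of the Ricci tensor -/

namespace Prof

variable (P : Prof) (m p : ℕ)

noncomputable def T (x : ℝ) : ℝ :=
  (m + 1) * P.al x + P.ga x + P.be x * (1 - x ^ 2) + p * P.ka x

noncomputable def T1 (x : ℝ) : ℝ :=
  (m + 1) * P.al1 x + P.ga1 x + (P.be1 x * (1 - x ^ 2) - 2 * x * P.be x) + p * P.ka1 x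

/-- coefficient of `g_{S^m}` in the Ricci tensor -/
noncomputable def F1 (x : ℝ) : ℝ :=
  (m - 1) - 2 * P.al x * x + P.ga1 x * (1 - x ^ 2) - m * P.ga x * x + P.T m p x * x +
    P.T m p x * P.ga x * (1 - x ^ 2) - 2 * P.al x * P.ga x * (1 - x ^ 2)

/-- coefficient of `dh ⊗ dh` in the Ricci tensor -/
noncomputable def F2 (x : ℝ) : ℝ :=
  -(m - 1) * P.al1 x - P.ga1 x - p * P.ka1 x - m * x * P.be x +
    (2 * P.al x + P.be x * (1 - x ^ 2)) * P.T m p x -
    ((m + 3) * P.al x ^ 2 + 2 * P.al x * P.ga x + 4 * P.al x * P.be x * (1 - x ^ 2) + P.ga x ^ 2 +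
      2 * P.ga x * P.be x * (1 - x ^ 2) + (P.be x * (1 - x ^ 2)) ^ 2) - p * P.ka x ^ 2

/-- coefficient of `g_{S^p}` in the Ricci tensor -/
noncomputable def F3 (x : ℝ) : ℝ :=
  (p - 1) - P.la1 x * (1 - x ^ 2) + m * x * P.la x - P.T m p x * P.la x * (1 - x ^ 2) +
    2 * P.ka x * P.la x * (1 - x ^ 2)

variable {P} (hP : P.Good) {x : ℝ} (hx : x ∈ Icc (-1 : ℝ) 1)
include hP hx

lemma Good.der_T : HasDerivWithinAt (P.T m p) (P.T1 m p x) (Icc (-1) 1) x := by
  have hq : HasDerivWithinAt (fun x : ℝ => 1 - x ^ 2) (-(2 * x)) (Icc (-1) 1) x := by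
    have := ((hasDerivAt_const x (1 : ℝ)).sub (hasDerivAt_pow 2 x)).hasDerivWithinAt (s := Icc (-1) 1)
    refine this.congr_deriv ?_
    simp
  have h1 := ((((hP.der_al hx).const_mul ((m : ℝ) + 1)).add (hP.der_ga hx)).add
    ((hP.der_be hx).mul hq)).add ((hP.der_ka hx).const_mul (p : ℝ))
  refine h1.congr_deriv ?_
  unfold T1
  ring

end Prof

/-! ### splitting of the Ricci tensor -/

lemma ricci_split {n : ℕ} {V : Type*} [NormedAddCommGroup V] [NormedSpace ℝ V] (v : Fin n → V)
    (g : V → Matrix (Fin n) (Fin n) ℝ) (I J : Fin n) (y : V)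
    (hd : ∀ K I J, DifferentiableAt ℝ (christoffel v g K I J) y)
    (hs : ∀ K I J, christoffel v g K I J y = christoffel v g K J I y) (tau : Fin n → V → ℝ)
    (ht : ∀ I z, ∑ K, christoffel v g K I K z = tau I z) :
    ricci v g I J y = ∑ K, pd v K (christoffel v g K I J) y - pd v J (tau I) y +
      ∑ L, tau L y * christoffel v g L I J y -
      ∑ K, ∑ L, christoffel v g K J L y * christoffel v g L I K y := by
  have h1 : tau I = fun z => ∑ K, christoffel v g K I K z := by
    funext z; rw [ht]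
  have h2 : pd v J (tau I) y = ∑ K, pd v J (christoffel v g K I K) y := by
    unfold pd
    rw [h1]
    have := fderiv_fun_sum (𝕜 := ℝ) (u := Finset.univ) (A := fun K z => christoffel v g K I K z)
      (x := y) (fun K _ => hd K I K)
    rw [this, ContinuousLinearMap.sum_apply]
  unfold ricci
  rw [h2, Finset.sum_sub_distrib]
  have h3 : ∑ K, ∑ L, (christoffel v g K K L y * christoffel v g L I J y -
      christoffel v g K J L y * christoffel v g L I K y) =
      ∑ L, tau L y * christoffel v g L I J y -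
      ∑ K, ∑ L, christoffel v g K J L y * christoffel v g L I K y := by
    simp only [Finset.sum_sub_distrib]
    congr 1
    rw [Finset.sum_comm]
    refine Finset.sum_congr rfl fun L _ => ?_
    rw [← ht, Finset.sum_mul]
    exact Finset.sum_congr rfl fun K _ => by rw [hs K K L]
  rw [h3]
  ring

end Vale.Agent.P244.Geo
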