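import Mathlib
import Vale.Agent.P244.GeoAlg

open Set

namespace Vale.Agent.P244.GeoM

/-- two representations of a function on `(-1,1)` have the same derivative -/
theorem deriv_eq_of_eqOn {F G : ℝ → ℝ} {F1 G1 h : ℝ} (hh : h ∈ Ioo (-1 : ℝ) 1)
    (hFG : ∀ x ∈ Ioo (-1 : ℝ) 1, F x = G x) (hF : HasDerivAt F F1 h) (hG : HasDerivAt G G1 h) :
    F1 = G1 := by
  have h1 : F =ᶠ[nhds h] G := by
    filter_upwards [Ioo_mem_nhds hh.1 hh.2] with x hx using hFG x hx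
  exact (h1.hasDerivAt_iff.mp hF).unique hG

/-- The spatial data: the profile `A, B, C` is the pull back by `e0` of the conformal metric. -/
structure Spat (A A1 A2 B B1 C C1 C2 e0 e1 e2 w0 w1 w2 f0 f1 f2 : ℝ → ℝ) : Prop where
  hA : ∀ x ∈ Ioo (-1 : ℝ) 1, HasDerivAt A (A1 x) x
  hA1 : ∀ x ∈ Ioo (-1 : ℝ) 1, HasDerivAt A1 (A2 x) x
  hB : ∀ x ∈ Ioo (-1 : ℝ) 1, HasDerivAt B (B1 x) x
  hC : ∀ x ∈ Ioo (-1 : ℝ) 1, HasDerivAt C (C1 x) x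
  hC1 : ∀ x ∈ Ioo (-1 : ℝ) 1, HasDerivAt C1 (C2 x) x
  he : ∀ x ∈ Ioo (-1 : ℝ) 1, HasDerivAt e0 (e1 x) x
  he1 : ∀ x ∈ Ioo (-1 : ℝ) 1, HasDerivAt e1 (e2 x) x
  hw : ∀ x ∈ Ioo (-1 : ℝ) 1, HasDerivAt w0 (w1 x) x
  hw1 : ∀ x ∈ Ioo (-1 : ℝ) 1, HasDerivAt w1 (w2 x) x
  hf : ∀ x ∈ Ioo (-1 : ℝ) 1, HasDerivAt f0 (f1 x) x
  hf1 : ∀ x ∈ Ioo (-1 : ℝ) 1, HasDerivAt f1 (f2 x) x
  mem : ∀ x ∈ Ioo (-1 : ℝ) 1, e0 x ∈ Ioo (-1 : ℝ) 1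
  e1pos : ∀ x ∈ Ioo (-1 : ℝ) 1, 0 < e1 x
  relA : ∀ x ∈ Ioo (-1 : ℝ) 1, A x * (1 - x ^ 2) = Real.exp (2 * w0 (e0 x)) * (1 - e0 x ^ 2)
  relB : ∀ x ∈ Ioo (-1 : ℝ) 1, (A x + B x * (1 - x ^ 2)) / (1 - x ^ 2) =
    Real.exp (2 * w0 (e0 x)) / (1 - e0 x ^ 2) * e1 x ^ 2
  relC : ∀ x ∈ Ioo (-1 : ℝ) 1, C x = Real.exp (2 * f0 (e0 x))

variable {A A1 A2 B B1 C C1 C2 e0 e1 e2 w0 w1 w2 f0 f1 f2 : ℝ → ℝ}

theorem q_ne {x : ℝ} (hx : x ∈ Ioo (-1 : ℝ) 1) : 1 - x ^ 2 ≠ 0 := by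
  have h1 := hx.1
  have h2 := hx.2
  nlinarith only [h1, h2]

theorem hasDerivAt_q (x : ℝ) : HasDerivAt (fun x : ℝ => 1 - x ^ 2) (-(2 * x)) x := by
  simpa using (hasDerivAt_pow 2 x).const_sub 1

/-- derivatives of the conformal quantities -/
theorem hasDerivAt_Ux {x : ℝ} (hw : HasDerivAt w0 (w1 x) x) :
    HasDerivAt (fun x => Real.exp (2 * w0 x) * (1 - x ^ 2))
      (Real.exp (2 * w0 x) * (2 * w1 x * (1 - x ^ 2) - 2 * x)) x := by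
  have h1 := (hw.const_mul 2).exp.mul (hasDerivAt_q x)
  refine h1.congr_deriv ?_
  ring

theorem hasDerivAt_Ux1 {x : ℝ} (hw : HasDerivAt w0 (w1 x) x) (hw1 : HasDerivAt w1 (w2 x) x) :
    HasDerivAt (fun x => Real.exp (2 * w0 x) * (2 * w1 x * (1 - x ^ 2) - 2 * x))
      (Real.exp (2 * w0 x) * (2 * w1 x * (2 * w1 x * (1 - x ^ 2) - 2 * x) +
        2 * w2 x * (1 - x ^ 2) - 4 * x * w1 x - 2)) x := by
  have h1 := (hw.const_mul 2).exp.mul (((hw1.const_mul 2).mul (hasDerivAt_q x)).sub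
    ((hasDerivAt_id x).const_mul 2))
  refine h1.congr_deriv ?_
  simp only [id, Pi.sub_apply, Pi.mul_apply]
  ring

theorem hasDerivAt_Vx {x : ℝ} (hx : x ∈ Ioo (-1 : ℝ) 1) (hw : HasDerivAt w0 (w1 x) x) :
    HasDerivAt (fun x => Real.exp (2 * w0 x) / (1 - x ^ 2))
      (Real.exp (2 * w0 x) * (2 * w1 x / (1 - x ^ 2) + 2 * x / (1 - x ^ 2) ^ 2)) x := by
  have hq := q_ne hx
  have h1 := (hw.const_mul 2).exp.div (hasDerivAt_q x) hq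
  refine h1.congr_deriv ?_
  field_simp
  ring

theorem hasDerivAt_Cx {x : ℝ} (hf : HasDerivAt f0 (f1 x) x) :
    HasDerivAt (fun x => Real.exp (2 * f0 x)) (2 * f1 x * Real.exp (2 * f0 x)) x := by
  have h1 := (hf.const_mul 2).exp
  refine h1.congr_deriv ?_
  ring

theorem hasDerivAt_Cx1 {x : ℝ} (hf : HasDerivAt f0 (f1 x) x) (hf1 : HasDerivAt f1 (f2 x) x) :
    HasDerivAt (fun x => 2 * f1 x * Real.exp (2 * f0 x))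
      ((2 * f2 x + 4 * f1 x ^ 2) * Real.exp (2 * f0 x)) x := by
  have h1 := (hf1.const_mul 2).mul (hf.const_mul 2).exp
  refine h1.congr_deriv ?_
  ring

namespace Spat

variable (S : Spat A A1 A2 B B1 C C1 C2 e0 e1 e2 w0 w1 w2 f0 f1 f2)
include S

theorem U1 {h : ℝ} (hh : h ∈ Ioo (-1 : ℝ) 1) : A1 h * (1 - h ^ 2) - 2 * h * A h =
    (Real.exp (2 * w0 (e0 h)) * (2 * w1 (e0 h) * (1 - e0 h ^ 2) - 2 * e0 h)) * e1 h := by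
  have h1 := (S.hA h hh).mul (hasDerivAt_q h)
  have h2 := (hasDerivAt_Ux (S.hw _ (S.mem h hh))).comp h (S.he h hh)
  have h3 := deriv_eq_of_eqOn hh S.relA h1 h2
  linear_combination h3

theorem U2 {h : ℝ} (hh : h ∈ Ioo (-1 : ℝ) 1) :
    A2 h * (1 - h ^ 2) - 4 * h * A1 h - 2 * A h =
    (Real.exp (2 * w0 (e0 h)) * (2 * w1 (e0 h) * (2 * w1 (e0 h) * (1 - e0 h ^ 2) - 2 * e0 h) +
        2 * w2 (e0 h) * (1 - e0 h ^ 2) - 4 * e0 h * w1 (e0 h) - 2)) * e1 h ^ 2 +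
    (Real.exp (2 * w0 (e0 h)) * (2 * w1 (e0 h) * (1 - e0 h ^ 2) - 2 * e0 h)) * e2 h := by
  have h1 := ((S.hA1 h hh).mul (hasDerivAt_q h)).sub
    (((hasDerivAt_id h).const_mul 2).mul (S.hA h hh))
  have h2 := ((hasDerivAt_Ux1 (S.hw _ (S.mem h hh)) (S.hw1 _ (S.mem h hh))).comp h
    (S.he h hh)).mul (S.he1 h hh)
  have h3 := deriv_eq_of_eqOn hh (fun x hx => S.U1 hx) h1 h2
  simp only [id, Function.comp] at h3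
  linear_combination h3

theorem V1 {h : ℝ} (hh : h ∈ Ioo (-1 : ℝ) 1) :
    (A1 h + B1 h * (1 - h ^ 2) - 2 * h * B h) / (1 - h ^ 2) +
      2 * h * (A h + B h * (1 - h ^ 2)) / (1 - h ^ 2) ^ 2 =
    (Real.exp (2 * w0 (e0 h)) * (2 * w1 (e0 h) / (1 - e0 h ^ 2) +
      2 * e0 h / (1 - e0 h ^ 2) ^ 2)) * e1 h ^ 3 +
    2 * (Real.exp (2 * w0 (e0 h)) / (1 - e0 h ^ 2)) * e1 h * e2 h := by
  have hq := q_ne hh
  have h1 := ((S.hA h hh).add ((S.hB h hh).mul (hasDerivAt_q h))).div (hasDerivAt_q h) hq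
  have h2 := ((hasDerivAt_Vx (S.mem h hh) (S.hw _ (S.mem h hh))).comp h
    (S.he h hh)).mul ((S.he1 h hh).pow 2)
  have h3 := deriv_eq_of_eqOn hh (fun x hx => S.relB x hx) h1 h2
  have h4 : (A1 h + B1 h * (1 - h ^ 2) - 2 * h * B h) / (1 - h ^ 2) +
      2 * h * (A h + B h * (1 - h ^ 2)) / (1 - h ^ 2) ^ 2 =
      ((A1 h + (B1 h * (1 - h ^ 2) + B h * -(2 * h))) * (1 - h ^ 2) -
        (A h + B h * (1 - h ^ 2)) * -(2 * h)) / (1 - h ^ 2) ^ 2 := by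
    field_simp
    ring
  rw [h4]
  refine h3.trans ?_
  simp only [Function.comp, Pi.pow_apply]
  push_cast
  ring

theorem C1' {h : ℝ} (hh : h ∈ Ioo (-1 : ℝ) 1) : C1 h =
    (2 * f1 (e0 h) * Real.exp (2 * f0 (e0 h))) * e1 h := by
  have h2 := (hasDerivAt_Cx (S.hf _ (S.mem h hh))).comp h (S.he h hh)
  exact deriv_eq_of_eqOn hh S.relC (S.hC h hh) h2

theorem C2' {h : ℝ} (hh : h ∈ Ioo (-1 : ℝ) 1) : C2 h =
    ((2 * f2 (e0 h) + 4 * f1 (e0 h) ^ 2) * Real.exp (2 * f0 (e0 h))) * e1 h ^ 2 +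
    (2 * f1 (e0 h) * Real.exp (2 * f0 (e0 h))) * e2 h := by
  have h2 := ((hasDerivAt_Cx1 (S.hf _ (S.mem h hh)) (S.hf1 _ (S.mem h hh))).comp h
    (S.he h hh)).mul (S.he1 h hh)
  have h3 := deriv_eq_of_eqOn hh (fun x hx => S.C1' hx) (S.hC1 h hh) h2
  rw [h3]
  simp only [Function.comp]
  ring

/-- `RU`, `RC`, `RV` of the profile are those of the conformal metric. -/
theorem RU_eq (m p : ℝ) {h : ℝ} (hh : h ∈ Ioo (-1 : ℝ) 1) :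
    RU m p (A h * (1 - h ^ 2)) (A1 h * (1 - h ^ 2) - 2 * h * A h)
      (A2 h * (1 - h ^ 2) - 4 * h * A1 h - 2 * A h) ((A h + B h * (1 - h ^ 2)) / (1 - h ^ 2))
      ((A1 h + B1 h * (1 - h ^ 2) - 2 * h * B h) / (1 - h ^ 2) +
      2 * h * (A h + B h * (1 - h ^ 2)) / (1 - h ^ 2) ^ 2) (C h) (C1 h) =
    RU m p (Real.exp (2 * w0 (e0 h)) * (1 - e0 h ^ 2))
      (Real.exp (2 * w0 (e0 h)) * (2 * w1 (e0 h) * (1 - e0 h ^ 2) - 2 * e0 h))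
      (Real.exp (2 * w0 (e0 h)) * (2 * w1 (e0 h) * (2 * w1 (e0 h) * (1 - e0 h ^ 2) - 2 * e0 h) +
        2 * w2 (e0 h) * (1 - e0 h ^ 2) - 4 * e0 h * w1 (e0 h) - 2))
      (Real.exp (2 * w0 (e0 h)) / (1 - e0 h ^ 2))
      (Real.exp (2 * w0 (e0 h)) * (2 * w1 (e0 h) / (1 - e0 h ^ 2) +
        2 * e0 h / (1 - e0 h ^ 2) ^ 2))
      (Real.exp (2 * f0 (e0 h))) (2 * f1 (e0 h) * Real.exp (2 * f0 (e0 h))) := by
  rw [S.U1 hh, S.U2 hh, S.V1 hh, S.relA h hh, S.relB h hh, S.relC h hh, S.C1' hh]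
  have hq := q_ne (S.mem h hh)
  have hE := (Real.exp_pos (2 * w0 (e0 h))).ne'
  exact RU_cov m p (mul_ne_zero hE hq) (div_ne_zero hE hq) (Real.exp_pos _).ne'
    (S.e1pos h hh).ne'

theorem RC_eq (m p : ℝ) {h : ℝ} (hh : h ∈ Ioo (-1 : ℝ) 1) :
    RC m p (A h * (1 - h ^ 2)) (A1 h * (1 - h ^ 2) - 2 * h * A h)
      ((A h + B h * (1 - h ^ 2)) / (1 - h ^ 2))
      ((A1 h + B1 h * (1 - h ^ 2) - 2 * h * B h) / (1 - h ^ 2) +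
      2 * h * (A h + B h * (1 - h ^ 2)) / (1 - h ^ 2) ^ 2) (C h) (C1 h) (C2 h) =
    RC m p (Real.exp (2 * w0 (e0 h)) * (1 - e0 h ^ 2))
      (Real.exp (2 * w0 (e0 h)) * (2 * w1 (e0 h) * (1 - e0 h ^ 2) - 2 * e0 h))
      (Real.exp (2 * w0 (e0 h)) / (1 - e0 h ^ 2))
      (Real.exp (2 * w0 (e0 h)) * (2 * w1 (e0 h) / (1 - e0 h ^ 2) +
        2 * e0 h / (1 - e0 h ^ 2) ^ 2))
      (Real.exp (2 * f0 (e0 h))) (2 * f1 (e0 h) * Real.exp (2 * f0 (e0 h)))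
      ((2 * f2 (e0 h) + 4 * f1 (e0 h) ^ 2) * Real.exp (2 * f0 (e0 h))) := by
  rw [S.U1 hh, S.V1 hh, S.relA h hh, S.relB h hh, S.relC h hh, S.C1' hh, S.C2' hh]
  have hq := q_ne (S.mem h hh)
  have hE := (Real.exp_pos (2 * w0 (e0 h))).ne'
  exact RC_cov m p (mul_ne_zero hE hq) (div_ne_zero hE hq) (Real.exp_pos _).ne'
    (S.e1pos h hh).ne'

theorem RV_eq (m p : ℝ) {h : ℝ} (hh : h ∈ Ioo (-1 : ℝ) 1) :
    RV m p (A h * (1 - h ^ 2)) (A1 h * (1 - h ^ 2) - 2 * h * A h)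
      (A2 h * (1 - h ^ 2) - 4 * h * A1 h - 2 * A h) ((A h + B h * (1 - h ^ 2)) / (1 - h ^ 2))
      ((A1 h + B1 h * (1 - h ^ 2) - 2 * h * B h) / (1 - h ^ 2) +
      2 * h * (A h + B h * (1 - h ^ 2)) / (1 - h ^ 2) ^ 2) (C h) (C1 h) (C2 h) =
    RV m p (Real.exp (2 * w0 (e0 h)) * (1 - e0 h ^ 2))
      (Real.exp (2 * w0 (e0 h)) * (2 * w1 (e0 h) * (1 - e0 h ^ 2) - 2 * e0 h))
      (Real.exp (2 * w0 (e0 h)) * (2 * w1 (e0 h) * (2 * w1 (e0 h) * (1 - e0 h ^ 2) - 2 * e0 h) +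
        2 * w2 (e0 h) * (1 - e0 h ^ 2) - 4 * e0 h * w1 (e0 h) - 2))
      (Real.exp (2 * w0 (e0 h)) / (1 - e0 h ^ 2))
      (Real.exp (2 * w0 (e0 h)) * (2 * w1 (e0 h) / (1 - e0 h ^ 2) +
        2 * e0 h / (1 - e0 h ^ 2) ^ 2))
      (Real.exp (2 * f0 (e0 h))) (2 * f1 (e0 h) * Real.exp (2 * f0 (e0 h)))
      ((2 * f2 (e0 h) + 4 * f1 (e0 h) ^ 2) * Real.exp (2 * f0 (e0 h))) * e1 h ^ 2 := by
  rw [S.U1 hh, S.U2 hh, S.V1 hh, S.relA h hh, S.relB h hh, S.relC h hh, S.C1' hh, S.C2' hh]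
  have hq := q_ne (S.mem h hh)
  have hE := (Real.exp_pos (2 * w0 (e0 h))).ne'
  exact RV_cov m p (mul_ne_zero hE hq) (div_ne_zero hE hq) (Real.exp_pos _).ne'
    (S.e1pos h hh).ne'

end Spat

end Vale.Agent.P244.GeoM
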