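import Vale.Agent.P244.GeoStrip

/-!
# P244-G3 : the flow of a vector field `(1-x^2) J(t,x)` on the strip
-/

open Set Filter Topology MeasureTheory
open scoped ContDiff NNReal

namespace Vale.Agent.P244.Geo

/-- Scalar linear differential equation. -/
theorem lin_ode {T : ℝ} {u c : ℝ → ℝ} (hc : ContinuousOn c (Ico 0 T))
    (hu : ∀ t ∈ Ico 0 T, HasDerivWithinAt u (c t * u t) (Ico 0 T) t) {t : ℝ} (ht : t ∈ Ico 0 T) :
    u t = u 0 * Real.exp (∫ s in (0 : ℝ)..t, c s) := by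
  have h := const_of_deriv_zero (u := fun t => u t * Real.exp (-∫ s in (0 : ℝ)..t, c s))
    (fun t ht => by
      have h1 := (hu t ht).mul (hasDerivWithinAt_integral_t hc ht).neg.exp
      have e : c t * u t * Real.exp (-∫ s in (0 : ℝ)..t, c s) +
        u t * (Real.exp (-∫ s in (0 : ℝ)..t, c s) * -c t) = 0 := by ring
      have h2 : HasDerivWithinAt (fun t => u t * Real.exp (-∫ s in (0 : ℝ)..t, c s))
        (c t * u t * Real.exp (-∫ s in (0 : ℝ)..t, c s) +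
        u t * (Real.exp (-∫ s in (0 : ℝ)..t, c s) * -c t)) (Ico 0 T) t := h1
      rwa [e] at h2) ht
  simp only [intervalIntegral.integral_same, neg_zero, Real.exp_zero, mul_one] at h
  rw [← h, mul_assoc, ← Real.exp_add]
  simp

/-- Uniform bound on a compact part of the strip. -/
theorem exists_bound_strip {T T' : ℝ} (h1 : T' < T) {F : ℝ → ℝ → ℝ}
    (hF : ContinuousOn (fun z : ℝ × ℝ => F z.1 z.2) (strip T)) :
    ∃ K : ℝ≥0, ∀ t ∈ Icc 0 T', ∀ x ∈ Icc (-1 : ℝ) 1, |F t x| ≤ K := by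
  have hsub : Icc 0 T' ×ˢ Icc (-1 : ℝ) 1 ⊆ strip T :=
    prod_mono (fun s hs => ⟨hs.1, hs.2.trans_lt h1⟩) le_rfl
  obtain ⟨C, hC⟩ := (isCompact_Icc.prod isCompact_Icc).exists_bound_of_continuousOn (hF.mono hsub)
  refine ⟨C.toNNReal, fun t ht x hx => ?_⟩
  exact (hC (t, x) ⟨ht, hx⟩).trans (Real.le_coe_toNNReal C)

/-- Uniform Lipschitz bound on a compact part of the strip. -/
theorem exists_lip_strip {T T' : ℝ} (h1 : T' < T) {Y Yx : ℝ → ℝ → ℝ}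
    (hYx : ContinuousOn (fun z : ℝ × ℝ => Yx z.1 z.2) (strip T))
    (hd : ∀ t ∈ Ico 0 T, ∀ x ∈ Icc (-1 : ℝ) 1, HasDerivWithinAt (Y t) (Yx t x) (Icc (-1) 1) x) :
    ∃ K : ℝ≥0, ∀ t ∈ Icc 0 T', LipschitzOnWith K (Y t) (Icc (-1) 1) := by
  obtain ⟨K, hK⟩ := exists_bound_strip h1 hYx
  refine ⟨K, fun t ht => ?_⟩
  refine (convex_Icc (-1 : ℝ) 1).lipschitzOnWith_of_nnnorm_hasDerivWithin_le
    (fun x hx => hd t ⟨ht.1, ht.2.trans_lt h1⟩ x hx) fun x hx => ?_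
  have := hK t ht x hx
  rw [← Real.norm_eq_abs] at this
  exact_mod_cast this

theorem cl_lip (a b x y : ℝ) : |cl a b x - cl a b y| ≤ |x - y| := by
  unfold cl
  exact (abs_max_sub_max_le_max _ _ _ _).trans (max_le (by simp)
    ((abs_min_sub_min_le_max _ _ _ _).trans (max_le (by simp) le_rfl)))

/-- A solution of the clamped equation does not cross the level `1`. -/
theorem stay_below {T' : ℝ} {α v : ℝ → ℝ} (hα : ∀ t ∈ Icc 0 T', HasDerivWithinAt α (v t)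
    (Icc 0 T') t) (h0 : α 0 ≤ 1) (hv : ∀ t ∈ Icc 0 T', 1 < α t → v t = 0) {t : ℝ}
    (ht : t ∈ Icc 0 T') : α t ≤ 1 := by
  have key : ∀ ε > 0, α t ≤ 1 + ε + ε * t := by
    intro ε hε
    refine image_le_of_deriv_right_lt_deriv_boundary (f := α) (f' := v) (a := 0) (b := T')
      (B := fun t => 1 + ε + ε * t) (B' := fun _ => ε)
      (fun s hs => (hα s hs).continuousWithinAt) (fun s hs => ?_) (by simpa using by linarith only [h0, hε])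
      (fun s => ?_) (fun s hs e => ?_) ht
    · exact ((hα s ⟨hs.1, hs.2.le⟩).mono_of_mem_nhdsWithin
        (Icc_mem_nhdsGE_of_mem hs))
    · simpa using ((hasDerivAt_id s).const_mul ε).const_add (1 + ε)
    · rw [hv s ⟨hs.1, hs.2.le⟩ (by rw [e]; nlinarith only [hε, hs, hs.1, mul_nonneg hε.le hs.1])]
      exact hε
  by_contra hcon
  push Not at hcon
  have ht0 := ht.1
  have h2 := key ((α t - 1) / (2 * (1 + t))) (by apply div_pos <;> linarith only [hcon, ht0])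
  have h3 : (α t - 1) / (2 * (1 + t)) * (1 + t) = (α t - 1) / 2 := by
    field_simp
  nlinarith only [hcon, h2, h3]

/-- Existence on compact time intervals. -/
theorem exists_sol {T T' : ℝ} (h0 : 0 ≤ T') (h1 : T' < T) {Y Yx : ℝ → ℝ → ℝ}
    (hY : ContinuousOn (fun z : ℝ × ℝ => Y z.1 z.2) (strip T))
    (hYx : ContinuousOn (fun z : ℝ × ℝ => Yx z.1 z.2) (strip T))
    (hd : ∀ t ∈ Ico 0 T, ∀ x ∈ Icc (-1 : ℝ) 1, HasDerivWithinAt (Y t) (Yx t x) (Icc (-1) 1) x)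
    (hp : ∀ t ∈ Ico 0 T, Y t 1 = 0) (hm : ∀ t ∈ Ico 0 T, Y t (-1) = 0)
    {h : ℝ} (hh : h ∈ Icc (-1 : ℝ) 1) :
    ∃ α : ℝ → ℝ, α 0 = h ∧ ∀ t ∈ Icc 0 T', α t ∈ Icc (-1 : ℝ) 1 ∧
      HasDerivWithinAt α (Y t (α t)) (Icc 0 T') t := by
  obtain ⟨L, hL⟩ := exists_bound_strip h1 hY
  obtain ⟨K, hK⟩ := exists_lip_strip h1 hYx hd
  have hmem : ∀ x, cl (-1) 1 x ∈ Icc (-1 : ℝ) 1 := fun x => cl_mem (by norm_num) x
  have hP : IsPicardLindelof (fun t x => Y t (cl (-1) 1 x)) (tmin := 0) (tmax := T')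
      ⟨0, ⟨le_rfl, h0⟩⟩ h (L * T'.toNNReal) 0 L K := by
    refine ⟨fun t ht => ?_, fun x _ => ?_, fun t ht x _ => ?_, ?_⟩
    · refine LipschitzOnWith.of_dist_le_mul fun x _ y _ => ?_
      have := (hK t ht).dist_le_mul _ (hmem x) _ (hmem y)
      refine this.trans ?_
      gcongr
      rw [Real.dist_eq, Real.dist_eq]
      exact cl_lip _ _ _ _
    · exact (slice_t hY (hmem x)).mono fun s hs => ⟨hs.1, hs.2.trans_lt h1⟩
    · exact hL t ht _ (hmem x)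
    · simp [h0]
  obtain ⟨α, hα0, hα⟩ := hP.exists_eq_forall_mem_Icc_hasDerivWithinAt₀
  have hsub : ∀ t ∈ Icc 0 T', t ∈ Ico 0 T := fun s hs => ⟨hs.1, hs.2.trans_lt h1⟩
  have up : ∀ t ∈ Icc 0 T', α t ≤ 1 := fun t ht => by
    refine stay_below hα (by rw [hα0]; exact hh.2) (fun s hs hs1 => ?_) ht
    rw [cl, min_eq_left hs1.le, max_eq_right (by norm_num)]
    exact hp s (hsub s hs)
  have dn : ∀ t ∈ Icc 0 T', -α t ≤ 1 := fun t ht => by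
    refine stay_below (α := fun t => -α t) (v := fun t => -Y t (cl (-1) 1 (α t)))
      (fun s hs => (hα s hs).neg) (by rw [hα0]; linarith only [hh, hh.1]) (fun s hs hs1 => ?_) ht
    rw [cl, min_eq_right (by linarith only [hs1]), max_eq_left (by linarith only [hs1]), hm s (hsub s hs), neg_zero]
  refine ⟨α, hα0, fun t ht => ?_⟩
  have hI : α t ∈ Icc (-1 : ℝ) 1 := ⟨by linarith only [dn, ht, dn t ht], up t ht⟩
  refine ⟨hI, ?_⟩
  have := hα t ht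
  rwa [cl_of_mem hI] at this

/-- Uniqueness. -/
theorem unique_sol {T T' : ℝ} (h1 : T' < T) {Y Yx : ℝ → ℝ → ℝ}
    (hYx : ContinuousOn (fun z : ℝ × ℝ => Yx z.1 z.2) (strip T))
    (hd : ∀ t ∈ Ico 0 T, ∀ x ∈ Icc (-1 : ℝ) 1, HasDerivWithinAt (Y t) (Yx t x) (Icc (-1) 1) x)
    {α β : ℝ → ℝ} (h0 : α 0 = β 0)
    (hα : ∀ t ∈ Icc 0 T', α t ∈ Icc (-1 : ℝ) 1 ∧ HasDerivWithinAt α (Y t (α t)) (Icc 0 T') t)
    (hβ : ∀ t ∈ Icc 0 T', β t ∈ Icc (-1 : ℝ) 1 ∧ HasDerivWithinAt β (Y t (β t)) (Icc 0 T') t) :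
    ∀ t ∈ Icc 0 T', α t = β t := by
  obtain ⟨K, hK⟩ := exists_lip_strip h1 hYx hd
  exact ODE_solution_unique_of_mem_Icc_right (v := Y) (s := fun _ => Icc (-1) 1) (K := K)
    (fun t ht => hK t ⟨ht.1, ht.2.le⟩)
    (fun t ht => (hα t ht).2.continuousWithinAt)
    (fun t ht => (hα t ⟨ht.1, ht.2.le⟩).2.mono_of_mem_nhdsWithin (Icc_mem_nhdsGE_of_mem ht))
    (fun t ht => (hα t ⟨ht.1, ht.2.le⟩).1)
    (fun t ht => (hβ t ht).2.continuousWithinAt)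
    (fun t ht => (hβ t ⟨ht.1, ht.2.le⟩).2.mono_of_mem_nhdsWithin (Icc_mem_nhdsGE_of_mem ht))
    (fun t ht => (hβ t ⟨ht.1, ht.2.le⟩).1) h0

/-- The flow on `[0,T)`. -/
theorem exists_flow {T : ℝ} {Y Yx : ℝ → ℝ → ℝ}
    (hY : ContinuousOn (fun z : ℝ × ℝ => Y z.1 z.2) (strip T))
    (hYx : ContinuousOn (fun z : ℝ × ℝ => Yx z.1 z.2) (strip T))
    (hd : ∀ t ∈ Ico 0 T, ∀ x ∈ Icc (-1 : ℝ) 1, HasDerivWithinAt (Y t) (Yx t x) (Icc (-1) 1) x)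
    (hp : ∀ t ∈ Ico 0 T, Y t 1 = 0) (hm : ∀ t ∈ Ico 0 T, Y t (-1) = 0) (hT : 0 < T) :
    ∃ η : ℝ → ℝ → ℝ, (∀ h ∈ Icc (-1 : ℝ) 1, η 0 h = h) ∧
      (∀ t ∈ Ico 0 T, ∀ h ∈ Icc (-1 : ℝ) 1, η t h ∈ Icc (-1 : ℝ) 1) ∧
      (∀ t ∈ Ico 0 T, ∀ h ∈ Icc (-1 : ℝ) 1, HasDerivWithinAt (fun s => η s h)
        (Y t (η t h)) (Ico 0 T) t) := by
  have hex : ∀ T' h : ℝ, 0 ≤ T' ∧ T' < T ∧ h ∈ Icc (-1 : ℝ) 1 →
      ∃ α : ℝ → ℝ, α 0 = h ∧ ∀ t ∈ Icc 0 T', α t ∈ Icc (-1 : ℝ) 1 ∧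
        HasDerivWithinAt α (Y t (α t)) (Icc 0 T') t :=
    fun T' h hh => exists_sol hh.1 hh.2.1 hY hYx hd hp hm hh.2.2
  choose! α hα0 hα using hex
  have huni : ∀ T' h, 0 ≤ T' ∧ T' < T ∧ h ∈ Icc (-1 : ℝ) 1 → ∀ T'', 0 ≤ T'' → T'' ≤ T' →
      ∀ t ∈ Icc 0 T'', α T'' h t = α T' h t := by
    intro T' h hh T'' h0 hle t ht
    have hh2 : 0 ≤ T'' ∧ T'' < T ∧ h ∈ Icc (-1 : ℝ) 1 := ⟨h0, hle.trans_lt hh.2.1, hh.2.2⟩
    refine unique_sol hh2.2.1 hYx hd ((hα0 T'' h hh2).trans (hα0 T' h hh).symm)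
      (hα T'' h hh2) (fun s hs => ?_) t ht
    have := hα T' h hh s ⟨hs.1, hs.2.trans hle⟩
    exact ⟨this.1, this.2.mono (Icc_subset_Icc le_rfl hle)⟩
  have key : ∀ T' h, 0 ≤ T' ∧ T' < T ∧ h ∈ Icc (-1 : ℝ) 1 → ∀ t ∈ Icc 0 T',
      α t h t = α T' h t := fun T' h hh t ht => huni T' h hh t ht.1 ht.2 t ⟨ht.1, le_rfl⟩
  refine ⟨fun t h => α t h t, fun h hh => hα0 0 h ⟨le_rfl, hT, hh⟩, fun t ht h hh =>
    (hα t h ⟨ht.1, ht.2, hh⟩ t ⟨ht.1, le_rfl⟩).1, fun t ht h hh => ?_⟩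
  obtain ⟨T', h0, h1, h2⟩ := exists_mid ht
  have hT' : 0 ≤ T' ∧ T' < T ∧ h ∈ Icc (-1 : ℝ) 1 := ⟨h0, h1, hh⟩
  have e : ∀ s ∈ Iio T' ∩ Ico 0 T, α s h s = α T' h s :=
    fun s hs => key T' h hT' s ⟨hs.2.1, le_of_lt hs.1⟩
  have h3 := (hα T' h hT' t ⟨ht.1, h2.le⟩).2
  have h4 : HasDerivWithinAt (α T' h) (Y t (α T' h t)) (Ico 0 T) t := by
    refine h3.mono_of_mem_nhdsWithin ?_
    exact mem_of_superset (Ico_mem_nhdsWithin (T := T) h2) fun s hs => ⟨hs.2.1, le_of_lt hs.1⟩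
  rw [← e t ⟨h2, ht⟩] at h4
  exact h4.congr_of_eventuallyEq
    (mem_of_superset (Ico_mem_nhdsWithin (T := T) h2) fun s hs => e s hs) (e t ⟨h2, ht⟩)

/-! ### Difference quotients -/

/-- Integral form of the difference quotient. -/
noncomputable def quo (Yx : ℝ → ℝ → ℝ) (s x x' : ℝ) : ℝ :=
  ∫ θ in (0 : ℝ)..1, Yx s (x + θ * (x' - x))

theorem quo_self (Yx : ℝ → ℝ → ℝ) (s x : ℝ) : quo Yx s x x = Yx s x := by
  simp [quo]

theorem seg_mem {x x' θ : ℝ} (hx : x ∈ Icc (-1 : ℝ) 1) (hx' : x' ∈ Icc (-1 : ℝ) 1)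
    (hθ : θ ∈ Icc (0 : ℝ) 1) : x + θ * (x' - x) ∈ Icc (-1 : ℝ) 1 := by
  have := (convex_Icc (-1 : ℝ) 1).add_smul_sub_mem hx hx' hθ
  simpa using this

theorem quo_mul {T : ℝ} {Y Yx : ℝ → ℝ → ℝ}
    (hYx : ContinuousOn (fun z : ℝ × ℝ => Yx z.1 z.2) (strip T))
    (hd : ∀ t ∈ Ico 0 T, ∀ x ∈ Icc (-1 : ℝ) 1, HasDerivWithinAt (Y t) (Yx t x) (Icc (-1) 1) x)
    {t x x' : ℝ} (ht : t ∈ Ico 0 T) (hx : x ∈ Icc (-1 : ℝ) 1) (hx' : x' ∈ Icc (-1 : ℝ) 1) :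
    Y t x' - Y t x = quo Yx t x x' * (x' - x) := by
  have hg : ∀ θ ∈ Icc (0 : ℝ) 1, HasDerivWithinAt (fun θ => Y t (x + θ * (x' - x)))
      (Yx t (x + θ * (x' - x)) * (x' - x)) (Icc 0 1) θ := by
    intro θ hθ
    have h1 : HasDerivWithinAt (fun θ : ℝ => x + θ * (x' - x)) (x' - x) (Icc 0 1) θ := by
      simpa using ((hasDerivWithinAt_id θ (Icc (0 : ℝ) 1)).mul_const (x' - x)).const_add x
    exact (hd t ht _ (seg_mem hx hx' hθ)).comp θ h1 fun s hs => seg_mem hx hx' hs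
  have hcont : ContinuousOn (fun θ : ℝ => Yx t (x + θ * (x' - x)) * (x' - x)) (Icc 0 1) := by
    refine ContinuousOn.mul ?_ continuousOn_const
    exact (slice_x hYx ht).comp (f := fun θ : ℝ => x + θ * (x' - x)) (by fun_prop)
      fun s hs => seg_mem hx hx' hs
  have := intervalIntegral.integral_eq_sub_of_hasDerivAt_of_le (a := 0) (b := 1) zero_le_one
    (fun θ hθ => (hg θ hθ).continuousWithinAt)
    (fun θ hθ => (hg θ ⟨hθ.1.le, hθ.2.le⟩).hasDerivAt (Icc_mem_nhds hθ.1 hθ.2))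
    (hcont.intervalIntegrable_of_Icc zero_le_one)
  rw [quo, ← intervalIntegral.integral_mul_const, this]
  simp

theorem quo_cont {T : ℝ} {Yx : ℝ → ℝ → ℝ}
    (hYx : ContinuousOn (fun z : ℝ × ℝ => Yx z.1 z.2) (strip T)) {a b : ℝ × ℝ → ℝ}
    (ha : ContinuousOn a (strip T)) (hb : ContinuousOn b (strip T))
    (ha1 : ∀ z ∈ strip T, a z ∈ Icc (-1 : ℝ) 1) (hb1 : ∀ z ∈ strip T, b z ∈ Icc (-1 : ℝ) 1) :
    ContinuousOn (fun z : ℝ × ℝ => quo Yx z.1 (a z) (b z)) (strip T) := by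
  intro z hz
  obtain ⟨T', h0, h1, h2⟩ := exists_mid hz.1
  have hc := continuous_clamp h0 h1 hYx
  have hc2 : Continuous fun w : ℝ × ℝ × ℝ =>
      ∫ θ in (0 : ℝ)..1, Yx (cl 0 T' w.1) (cl (-1) 1 (w.2.1 + θ * (w.2.2 - w.2.1))) := by
    refine intervalIntegral.continuous_parametric_intervalIntegral_of_continuous'
      (f := fun (w : ℝ × ℝ × ℝ) (θ : ℝ) =>
        Yx (cl 0 T' w.1) (cl (-1) 1 (w.2.1 + θ * (w.2.2 - w.2.1)))) ?_ 0 1
    exact hc.comp (f := fun p : (ℝ × ℝ × ℝ) × ℝ =>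
      ((p.1.1, p.1.2.1 + p.2 * (p.1.2.2 - p.1.2.1)) : ℝ × ℝ)) (by fun_prop)
  have e : ∀ w ∈ strip T, w.1 < T' → quo Yx w.1 (a w) (b w) =
      ∫ θ in (0 : ℝ)..1, Yx (cl 0 T' w.1) (cl (-1) 1 (a w + θ * (b w - a w))) := by
    intro w hw hw1
    rw [cl_of_mem ⟨hw.1.1, hw1.le⟩, quo]
    refine intervalIntegral.integral_congr fun θ hθ => ?_
    rw [uIcc_of_le zero_le_one] at hθ
    simp only [cl_of_mem (seg_mem (ha1 w hw) (hb1 w hw) hθ)]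
  have h3 : ContinuousWithinAt (fun z : ℝ × ℝ =>
      ∫ θ in (0 : ℝ)..1, Yx (cl 0 T' z.1) (cl (-1) 1 (a z + θ * (b z - a z)))) (strip T) z :=
    hc2.continuousAt.comp_continuousWithinAt (f := fun z : ℝ × ℝ => (z.1, a z, b z))
      (continuous_fst.continuousWithinAt.prodMk ((ha z hz).prodMk (hb z hz)))
  refine h3.congr_of_eventuallyEq ?_ (e z hz h2)
  have : ∀ᶠ w in 𝓝[strip T] z, w.1 < T' :=
    nhdsWithin_le_nhds (continuous_fst.continuousAt (Iio_mem_nhds h2))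
  filter_upwards [this, self_mem_nhdsWithin] with w hw1 hw2 using e w hw2 hw1

/-- The hypotheses on the vector field and the flow. -/
structure IsFlow (T : ℝ) (Y Yx η : ℝ → ℝ → ℝ) : Prop where
  hY : ContinuousOn (fun z : ℝ × ℝ => Y z.1 z.2) (strip T)
  hYx : ContinuousOn (fun z : ℝ × ℝ => Yx z.1 z.2) (strip T)
  hd : ∀ t ∈ Ico 0 T, ∀ x ∈ Icc (-1 : ℝ) 1, HasDerivWithinAt (Y t) (Yx t x) (Icc (-1) 1) x
  h0 : ∀ h ∈ Icc (-1 : ℝ) 1, η 0 h = h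
  mem : ∀ t ∈ Ico 0 T, ∀ h ∈ Icc (-1 : ℝ) 1, η t h ∈ Icc (-1 : ℝ) 1
  ode : ∀ t ∈ Ico 0 T, ∀ h ∈ Icc (-1 : ℝ) 1, HasDerivWithinAt (fun s => η s h)
        (Y t (η t h)) (Ico 0 T) t

namespace IsFlow

variable {T : ℝ} {Y Yx η : ℝ → ℝ → ℝ}

theorem cont_t (H : IsFlow T Y Yx η) {h : ℝ} (hh : h ∈ Icc (-1 : ℝ) 1) :
    ContinuousOn (fun t => η t h) (Ico 0 T) :=
  fun t ht => (H.ode t ht h hh).continuousWithinAt

theorem diff (H : IsFlow T Y Yx η) {h h' : ℝ} (hh : h ∈ Icc (-1 : ℝ) 1)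
    (hh' : h' ∈ Icc (-1 : ℝ) 1) {t : ℝ} (ht : t ∈ Ico 0 T) :
    η t h' - η t h = (h' - h) * Real.exp (∫ s in (0 : ℝ)..t, quo Yx s (η s h) (η s h')) := by
  have hc : ContinuousOn (fun s => quo Yx s (η s h) (η s h')) (Ico 0 T) := by
    have h1 : ContinuousOn (fun z : ℝ × ℝ => quo Yx z.1 (η z.1 h) (η z.1 h')) (strip T) :=
      quo_cont H.hYx ((H.cont_t hh).comp continuousOn_fst fun z hz => hz.1)
        ((H.cont_t hh').comp continuousOn_fst fun z hz => hz.1)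
        (fun z hz => H.mem _ hz.1 _ hh) (fun z hz => H.mem _ hz.1 _ hh')
    exact slice_t (F := fun s _ => quo Yx s (η s h) (η s h')) h1 zero_mem_space
  have := lin_ode (u := fun t => η t h' - η t h) hc (fun t ht => by
    have h2 := (H.ode t ht h' hh').sub (H.ode t ht h hh)
    rw [quo_mul H.hYx H.hd ht (H.mem t ht h hh) (H.mem t ht h' hh')] at h2
    exact h2) ht
  rw [this, H.h0 h hh, H.h0 h' hh']

theorem lip (H : IsFlow T Y Yx η) {T' : ℝ} (h1 : T' < T) :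
    ∃ C : ℝ, 0 ≤ C ∧ ∀ t ∈ Icc 0 T', ∀ h ∈ Icc (-1 : ℝ) 1, ∀ h' ∈ Icc (-1 : ℝ) 1,
      |η t h' - η t h| ≤ C * |h' - h| := by
  obtain ⟨K, hK⟩ := exists_bound_strip h1 H.hYx
  refine ⟨Real.exp (K * T'), (Real.exp_pos _).le, fun t ht h hh h' hh' => ?_⟩
  have ht' : t ∈ Ico 0 T := ⟨ht.1, ht.2.trans_lt h1⟩
  rw [H.diff hh hh' ht', abs_mul, Real.abs_exp, mul_comm]
  gcongr
  have hq : ∀ s ∈ uIoc 0 t, ‖quo Yx s (η s h) (η s h')‖ ≤ K := by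
    intro s hs
    rw [uIoc_of_le ht.1] at hs
    have hs' : s ∈ Ico 0 T := ⟨hs.1.le, hs.2.trans_lt ht'.2⟩
    have := intervalIntegral.norm_integral_le_of_norm_le_const (a := 0) (b := 1)
      (f := fun θ => Yx s (η s h + θ * (η s h' - η s h))) (C := K) (fun θ hθ => by
        rw [uIoc_of_le zero_le_one] at hθ
        exact hK s ⟨hs.1.le, hs.2.trans ht.2⟩ _
          (seg_mem (H.mem s hs' h hh) (H.mem s hs' h' hh') ⟨hθ.1.le, hθ.2⟩))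
    simpa [quo] using this
  have := intervalIntegral.norm_integral_le_of_norm_le_const hq
  rw [sub_zero, abs_of_nonneg ht.1] at this
  calc ∫ s in (0 : ℝ)..t, quo Yx s (η s h) (η s h')
      ≤ ‖∫ s in (0 : ℝ)..t, quo Yx s (η s h) (η s h')‖ := le_abs_self _
    _ ≤ K * t := this
    _ ≤ K * T' := by gcongr; exact ht.2

theorem cont (H : IsFlow T Y Yx η) : ContinuousOn (fun z : ℝ × ℝ => η z.1 z.2) (strip T) := by
  intro z hz
  obtain ⟨T', h0, h1, h2⟩ := exists_mid hz.1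
  obtain ⟨C, hC0, hC⟩ := H.lip h1
  have e1 : ∀ᶠ w in 𝓝[strip T] z, w.1 < T' :=
    nhdsWithin_le_nhds (continuous_fst.continuousAt (Iio_mem_nhds h2))
  have hfst : Tendsto (fun w : ℝ × ℝ => w.1) (𝓝[strip T] z) (𝓝[Ico 0 T] z.1) := by
    refine tendsto_nhdsWithin_iff.mpr ⟨?_, ?_⟩
    · exact (continuous_fst.tendsto z).mono_left nhdsWithin_le_nhds
    · filter_upwards [self_mem_nhdsWithin] with w hw using hw.1
  have l1 : Tendsto (fun w : ℝ × ℝ => |η w.1 z.2 - η z.1 z.2|) (𝓝[strip T] z) (𝓝 0) := by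
    have := ((H.cont_t hz.2) z.1 hz.1).tendsto.comp hfst
    have h3 := (this.sub_const (η z.1 z.2)).abs
    simpa using h3
  have l2 : Tendsto (fun w : ℝ × ℝ => C * |w.2 - z.2|) (𝓝[strip T] z) (𝓝 0) := by
    have h3 : Tendsto (fun w : ℝ × ℝ => C * |w.2 - z.2|) (𝓝 z) (𝓝 (C * |z.2 - z.2|)) :=
      (by fun_prop : Continuous fun w : ℝ × ℝ => C * |w.2 - z.2|).tendsto z
    simp only [sub_self, abs_zero, mul_zero] at h3
    exact h3.mono_left nhdsWithin_le_nhds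
  have l3 := l1.add l2
  rw [add_zero] at l3
  rw [ContinuousWithinAt, tendsto_iff_dist_tendsto_zero]
  refine squeeze_zero' (Eventually.of_forall fun w => dist_nonneg) ?_ l3
  filter_upwards [e1, self_mem_nhdsWithin] with w hw1 hw
  rw [Real.dist_eq]
  have h4 := hC w.1 ⟨hw.1.1, hw1.le⟩ z.2 hz.2 w.2 hw.2
  calc |η w.1 w.2 - η z.1 z.2| = |(η w.1 w.2 - η w.1 z.2) + (η w.1 z.2 - η z.1 z.2)| := by ring_nf
    _ ≤ |η w.1 w.2 - η w.1 z.2| + |η w.1 z.2 - η z.1 z.2| := abs_add_le _ _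
    _ ≤ _ := by linarith only [h4]

theorem maps (H : IsFlow T Y Yx η) :
    MapsTo (fun z : ℝ × ℝ => ((z.1, η z.1 z.2) : ℝ × ℝ)) (strip T) (strip T) :=
  fun z hz => ⟨hz.1, H.mem z.1 hz.1 z.2 hz.2⟩

theorem deriv_h (H : IsFlow T Y Yx η) {t h : ℝ} (ht : t ∈ Ico 0 T) (hh : h ∈ Icc (-1 : ℝ) 1) :
    HasDerivWithinAt (η t) (Real.exp (∫ s in (0 : ℝ)..t, Yx s (η s h))) (Icc (-1) 1) h := by
  have hq : ContinuousOn (fun z : ℝ × ℝ => quo Yx z.1 (η z.1 h) (η z.1 z.2)) (strip T) :=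
    quo_cont H.hYx ((H.cont_t hh).comp continuousOn_fst fun z hz => hz.1) H.cont
      (fun z hz => H.mem _ hz.1 _ hh) (fun z hz => H.mem _ hz.1 _ hz.2)
  have hI := slice_x (F := fun t x => ∫ s in (0 : ℝ)..t, quo Yx s (η s h) (η s x))
    (continuousOn_integral_t (F := fun s x => quo Yx s (η s h) (η s x)) hq) ht
  have h1 : ContinuousWithinAt (fun x => Real.exp (∫ s in (0 : ℝ)..t, quo Yx s (η s h) (η s x)))
      (Icc (-1) 1) h := (hI h hh).rexp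
  rw [hasDerivWithinAt_iff_tendsto_slope]
  have h2 := h1.tendsto
  simp only [quo_self] at h2
  refine (h2.mono_left (nhdsWithin_mono _ sdiff_subset)).congr' ?_
  filter_upwards [self_mem_nhdsWithin] with x hx
  have hne : x - h ≠ 0 := sub_ne_zero.mpr hx.2
  rw [slope_def_field, H.diff hh hx.1 ht]
  field_simp

theorem smooth (H : IsFlow T Y Yx η)
    (hY : ContDiffOn ℝ ∞ (fun z : ℝ × ℝ => Y z.1 z.2) (strip T))
    (hYx : ContDiffOn ℝ ∞ (fun z : ℝ × ℝ => Yx z.1 z.2) (strip T)) :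
    ContDiffOn ℝ ∞ (fun z : ℝ × ℝ => η z.1 z.2) (strip T) := by
  rw [contDiffOn_infty]
  intro n
  induction n with
  | zero =>
    simp only [CharP.cast_eq_zero, contDiffOn_zero]
    exact H.cont
  | succ n ih =>
    have hm : ContDiffOn ℝ n (fun z : ℝ × ℝ => ((z.1, η z.1 z.2) : ℝ × ℝ)) (strip T) :=
      contDiffOn_fst.prodMk ih
    have c1 : ContDiffOn ℝ n (fun z : ℝ × ℝ => Y z.1 (η z.1 z.2)) (strip T) :=
      (contDiffOn_infty.mp hY n).comp hm H.maps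
    have c2 : ContDiffOn ℝ n (fun z : ℝ × ℝ => Yx z.1 (η z.1 z.2)) (strip T) :=
      (contDiffOn_infty.mp hYx n).comp hm H.maps
    have c3 := strip_integral_t_nat n (F := fun s h => Yx s (η s h)) c2
    have := contDiffOn_strip_succ (G := η) (Gt := fun t h => Y t (η t h))
      (Gx := fun t h => Real.exp (∫ s in (0 : ℝ)..t, Yx s (η s h))) n
      H.ode (fun t ht x hx => H.deriv_h ht hx) c1 c3.exp
    exact_mod_cast this

end IsFlow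

/-- (F) the flow of the vector field `(1-x^2) J(t,x)` on `[-1,1]` -/
theorem strip_flow {T : ℝ} (hT : 0 < T) {J : ℝ → ℝ → ℝ}
    (hJ : ContDiffOn ℝ ∞ (fun z : ℝ × ℝ => J z.1 z.2) (strip T)) :
    ∃ η : ℝ → ℝ → ℝ, (∀ h ∈ Icc (-1 : ℝ) 1, η 0 h = h) ∧
      (∀ t ∈ Ico 0 T, ∀ h ∈ Icc (-1 : ℝ) 1, η t h ∈ Icc (-1 : ℝ) 1) ∧
      (∀ t ∈ Ico 0 T, ∀ h ∈ Icc (-1 : ℝ) 1, HasDerivWithinAt (fun s => η s h)
        ((1 - η t h ^ 2) * J t (η t h)) (Ico 0 T) t) ∧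
      ContDiffOn ℝ ∞ (fun z : ℝ × ℝ => η z.1 z.2) (strip T) ∧
      (∀ t ∈ Ico 0 T, ∀ h ∈ Icc (-1 : ℝ) 1, HasDerivWithinAt (η t)
        (Real.exp (∫ s in (0 : ℝ)..t, (-2 * η s h * J s (η s h) +
          (1 - η s h ^ 2) * derivWithin (J s) (Icc (-1) 1) (η s h)))) (Icc (-1) 1) h) ∧
      (∀ t ∈ Ico 0 T, ∀ h ∈ Icc (-1 : ℝ) 1, 1 - η t h ^ 2 =
        (1 - h ^ 2) * Real.exp (∫ s in (0 : ℝ)..t, (-2 * η s h * J s (η s h)))) := by
  obtain ⟨hJx, hJd⟩ := strip_dx hJ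
  have hY : ContDiffOn ℝ ∞ (fun z : ℝ × ℝ => (1 - z.2 ^ 2) * J z.1 z.2) (strip T) :=
    (contDiffOn_const.sub (contDiffOn_snd.pow 2)).mul hJ
  have hYx : ContDiffOn ℝ ∞ (fun z : ℝ × ℝ => -2 * z.2 * J z.1 z.2 +
      (1 - z.2 ^ 2) * derivWithin (J z.1) (Icc (-1) 1) z.2) (strip T) :=
    ((contDiffOn_const.mul contDiffOn_snd).mul hJ).add
      ((contDiffOn_const.sub (contDiffOn_snd.pow 2)).mul hJx)
  have hd : ∀ t ∈ Ico 0 T, ∀ x ∈ Icc (-1 : ℝ) 1, HasDerivWithinAt (fun x => (1 - x ^ 2) * J t x)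
      (-2 * x * J t x + (1 - x ^ 2) * derivWithin (J t) (Icc (-1) 1) x) (Icc (-1) 1) x := by
    intro t ht x hx
    have h1 : HasDerivWithinAt (fun x : ℝ => 1 - x ^ 2) (-2 * x) (Icc (-1) 1) x := by
      have := ((hasDerivWithinAt_id x (Icc (-1 : ℝ) 1)).pow 2).const_sub 1
      simpa using this
    exact h1.mul (hJd t ht x hx)
  obtain ⟨η, h0, h1, h2⟩ := exists_flow (Y := fun t x => (1 - x ^ 2) * J t x)
    (Yx := fun t x => -2 * x * J t x + (1 - x ^ 2) * derivWithin (J t) (Icc (-1) 1) x)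
    hY.continuousOn hYx.continuousOn hd (fun t _ => by norm_num) (fun t _ => by norm_num) hT
  have H : IsFlow T (fun t x => (1 - x ^ 2) * J t x)
      (fun t x => -2 * x * J t x + (1 - x ^ 2) * derivWithin (J t) (Icc (-1) 1) x) η :=
    ⟨hY.continuousOn, hYx.continuousOn, hd, h0, h1, h2⟩
  refine ⟨η, h0, h1, h2, H.smooth hY hYx, fun t ht h hh => H.deriv_h ht hh,
    fun t ht h hh => ?_⟩
  have hc : ContinuousOn (fun s => -2 * η s h * J s (η s h)) (Ico 0 T) := by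
    have c1 : ContinuousOn (fun z : ℝ × ℝ => -2 * z.2 * J z.1 z.2) (strip T) :=
      ((contDiffOn_const.mul contDiffOn_snd).mul hJ).continuousOn
    exact c1.comp (f := fun s : ℝ => ((s, η s h) : ℝ × ℝ))
      (continuousOn_id.prodMk (H.cont_t hh)) fun s hs => ⟨hs, h1 s hs h hh⟩
  have := lin_ode (u := fun t => 1 - η t h ^ 2) hc (fun t ht => by
    have h3 := ((h2 t ht h hh).pow 2).const_sub 1
    refine h3.congr_deriv ?_
    simp only [Nat.cast_ofNat, Nat.add_one_sub_one, pow_one]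
    ring) ht
  rw [this, h0 h hh]

end Vale.Agent.P244.Geo
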