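import Mathlib
import Vale.Agent.P244.GeoSpat
import Vale.Agent.P244.GeoStripFlow
import Vale.Agent.P244.ST.Conf
import Vale.Agent.P244.GeoRicciD

open Set
open scoped ContDiff

namespace Vale.Agent.P244.GeoM

open Vale.Agent.P244.Geo (strip strip_dx strip_dt strip_integral_x strip_integral_t strip_flow)
open Vale.Agent.P244.ST

/-- smooth functions on the strip -/
def Sm (T : ℝ) (F : ℝ → ℝ → ℝ) : Prop :=
  ContDiffOn ℝ ∞ (fun z : ℝ × ℝ => F z.1 z.2) (strip T)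

/-- space derivative -/
noncomputable def Dx (F : ℝ → ℝ → ℝ) (t x : ℝ) : ℝ := derivWithin (F t) (Icc (-1) 1) x

/-- time derivative -/
noncomputable def Dt (T : ℝ) (F : ℝ → ℝ → ℝ) (t x : ℝ) : ℝ :=
  derivWithin (fun s => F s x) (Ico 0 T) t

variable {T : ℝ} {F G : ℝ → ℝ → ℝ}

theorem Sm.dx (hF : Sm T F) : Sm T (Dx F) := (strip_dx hF).1

theorem Sm.hasDx (hF : Sm T F) {t x : ℝ} (ht : t ∈ Ico 0 T) (hx : x ∈ Icc (-1 : ℝ) 1) :
    HasDerivWithinAt (F t) (Dx F t x) (Icc (-1) 1) x := (strip_dx hF).2 t ht x hx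

theorem Sm.dt (hF : Sm T F) : Sm T (Dt T F) := (strip_dt hF).1

theorem Sm.hasDt (hF : Sm T F) {t x : ℝ} (ht : t ∈ Ico 0 T) (hx : x ∈ Icc (-1 : ℝ) 1) :
    HasDerivWithinAt (fun s => F s x) (Dt T F t x) (Ico 0 T) t := (strip_dt hF).2 t ht x hx

theorem Sm.add (hF : Sm T F) (hG : Sm T G) : Sm T (fun t x => F t x + G t x) := ContDiffOn.add hF hG
theorem Sm.sub (hF : Sm T F) (hG : Sm T G) : Sm T (fun t x => F t x - G t x) := ContDiffOn.sub hF hG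
theorem Sm.mul (hF : Sm T F) (hG : Sm T G) : Sm T (fun t x => F t x * G t x) := ContDiffOn.mul hF hG
theorem Sm.exp (hF : Sm T F) : Sm T (fun t x => Real.exp (F t x)) := ContDiffOn.exp hF
theorem Sm.const (c : ℝ) : Sm T (fun _ _ => c) := contDiffOn_const
theorem Sm.space : Sm T (fun _ x => x) := contDiffOn_snd

theorem Sm.intx (hF : Sm T F) : Sm T (fun t x => ∫ y in (0 : ℝ)..x, F t y) := strip_integral_x hF
theorem Sm.intt (hF : Sm T F) : Sm T (fun t x => ∫ s in (0 : ℝ)..t, F s x) := strip_integral_t hF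

theorem Sm.comp (hF : Sm T F) (hG : Sm T G)
    (hm : ∀ t ∈ Ico 0 T, ∀ x ∈ Icc (-1 : ℝ) 1, G t x ∈ Icc (-1 : ℝ) 1) :
    Sm T (fun t x => F t (G t x)) := by
  have h1 : ContDiffOn ℝ ∞ (fun z : ℝ × ℝ => (z.1, G z.1 z.2)) (strip T) :=
    contDiffOn_fst.prodMk hG
  exact ContDiffOn.comp (g := fun z : ℝ × ℝ => F z.1 z.2) hF h1
    (fun z hz => ⟨hz.1, hm z.1 hz.1 z.2 hz.2⟩)

theorem Sm.contx (hF : Sm T F) {t : ℝ} (ht : t ∈ Ico 0 T) : ContinuousOn (F t) (Icc (-1) 1) :=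
  fun _ hx => (hF.hasDx ht hx).continuousWithinAt

theorem Sm.contt (hF : Sm T F) {x : ℝ} (hx : x ∈ Icc (-1 : ℝ) 1) :
    ContinuousOn (fun t => F t x) (Ico 0 T) :=
  fun _ ht => (hF.hasDt ht hx).continuousWithinAt

/-- chain rule along a curve in the strip -/
theorem Sm.chain (hF : Sm T F) {γ : ℝ → ℝ} {γ' t : ℝ} (ht : t ∈ Ico 0 T)
    (hγ : HasDerivWithinAt γ γ' (Ico 0 T) t) (hm : ∀ s ∈ Ico 0 T, γ s ∈ Icc (-1 : ℝ) 1) :
    HasDerivWithinAt (fun s => F s (γ s)) (Dt T F t (γ t) + Dx F t (γ t) * γ') (Ico 0 T) t := by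
  have hx := hm t ht
  have hz : ((t, γ t) : ℝ × ℝ) ∈ strip T := ⟨ht, hx⟩
  have h1 : DifferentiableWithinAt ℝ (fun z : ℝ × ℝ => F z.1 z.2) (strip T) (t, γ t) :=
    (hF.differentiableOn (by simp)) _ hz
  have h2 := h1.hasFDerivWithinAt
  set L := fderivWithin ℝ (fun z : ℝ × ℝ => F z.1 z.2) (strip T) (t, γ t) with hL
  have hT : (0 : ℝ) < T := lt_of_le_of_lt ht.1 ht.2
  have hLt : L (1, 0) = Dt T F t (γ t) := by
    have h3 : HasDerivWithinAt (fun s : ℝ => ((s, γ t) : ℝ × ℝ)) (1, 0) (Ico 0 T) t :=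
      (hasDerivWithinAt_id t _).prodMk (hasDerivWithinAt_const t _ (γ t))
    have h4 := h2.comp_hasDerivWithinAt t h3 (fun s hs => (⟨hs, hx⟩ : ((s, γ t) : ℝ × ℝ) ∈ strip T))
    exact (uniqueDiffOn_Ico 0 T t ht).eq_deriv _ h4 (hF.hasDt ht hx)
  have hLx : L (0, 1) = Dx F t (γ t) := by
    have h3 : HasDerivWithinAt (fun y : ℝ => ((t, y) : ℝ × ℝ)) (0, 1) (Icc (-1) 1) (γ t) :=
      (hasDerivWithinAt_const _ _ t).prodMk (hasDerivWithinAt_id _ _)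
    have h4 := h2.comp_hasDerivWithinAt (γ t) h3
      (fun y hy => (⟨ht, hy⟩ : ((t, y) : ℝ × ℝ) ∈ strip T))
    exact (uniqueDiffOn_Icc (by norm_num) _ hx).eq_deriv _ h4 (hF.hasDx ht hx)
  have h5 : HasDerivWithinAt (fun s : ℝ => ((s, γ s) : ℝ × ℝ)) (1, γ') (Ico 0 T) t :=
    (hasDerivWithinAt_id t _).prodMk hγ
  have h6 := h2.comp_hasDerivWithinAt t h5 (fun s hs => (⟨hs, hm s hs⟩ : ((s, γ s) : ℝ × ℝ) ∈ strip T))
  refine h6.congr_deriv ?_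
  have h7 : ((1, γ') : ℝ × ℝ) = (1, 0) + γ' • (0, 1) := by simp
  rw [← hLt, ← hLx, h7, map_add, map_smul, smul_eq_mul]
  ring


theorem hasDx_int {F : ℝ → ℝ} (hF : ContinuousOn F (Icc (-1) 1)) {x : ℝ}
    (hx : x ∈ Icc (-1 : ℝ) 1) :
    HasDerivWithinAt (fun u => ∫ y in (0 : ℝ)..u, F y) (F x) (Icc (-1) 1) x := by
  have : Fact (x ∈ Icc (-1 : ℝ) 1) := ⟨hx⟩
  have h0 : (0 : ℝ) ∈ Icc (-1 : ℝ) 1 := by constructor <;> norm_num
  refine intervalIntegral.integral_hasDerivWithinAt_right (t := Icc (-1) 1) ?_ ?_ (hF x hx)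
  · exact (hF.mono (uIcc_subset_Icc h0 hx)).intervalIntegrable
  · exact hF.stronglyMeasurableAtFilter_nhdsWithin measurableSet_Icc x

theorem hasDt_int {F : ℝ → ℝ} (hF : ContinuousOn F (Ico 0 T)) {t : ℝ} (ht : t ∈ Ico 0 T) :
    HasDerivWithinAt (fun u => ∫ s in (0 : ℝ)..u, F s) (F t) (Ico 0 T) t := by
  obtain ⟨T', h1, h2⟩ := exists_between ht.2
  have hsub : Icc 0 T' ⊆ Ico 0 T := fun s hs => ⟨hs.1, lt_of_le_of_lt hs.2 h2⟩
  have ht' : t ∈ Icc 0 T' := ⟨ht.1, h1.le⟩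
  have : Fact (t ∈ Icc 0 T') := ⟨ht'⟩
  have h0 : (0 : ℝ) ∈ Icc 0 T' := ⟨le_rfl, ht.1.trans h1.le⟩
  have hF' : ContinuousOn F (Icc 0 T') := hF.mono hsub
  have h3 : HasDerivWithinAt (fun u => ∫ s in (0 : ℝ)..u, F s) (F t) (Icc 0 T') t := by
    refine intervalIntegral.integral_hasDerivWithinAt_right (t := Icc 0 T') ?_ ?_ (hF' t ht')
    · exact (hF'.mono (uIcc_subset_Icc h0 ht')).intervalIntegrable
    · exact hF'.stronglyMeasurableAtFilter_nhdsWithin measurableSet_Icc t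
  refine h3.mono_of_mem_nhdsWithin ?_
  have h4 : Iio T' ∈ nhds t := Iio_mem_nhds h1
  filter_upwards [self_mem_nhdsWithin, mem_nhdsWithin_of_mem_nhds h4] with s hs hs'
  exact ⟨hs.1, le_of_lt hs'⟩

theorem intervalIntegrable_t {F : ℝ → ℝ} (hF : ContinuousOn F (Ico 0 T)) {t : ℝ}
    (ht : t ∈ Ico 0 T) : IntervalIntegrable F MeasureTheory.volume 0 t := by
  refine (hF.mono ?_).intervalIntegrable
  rw [uIcc_of_le ht.1]
  exact fun s hs => ⟨hs.1, lt_of_le_of_lt hs.2 ht.2⟩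

/-- The gauge field: the metrics of `ConfSol` solve the Ricci flow modulo the vector field
`(1 - x^2) Jt ∂_x`. -/
noncomputable def Jt (p : ℕ) (w f : ℝ → ℝ → ℝ) (t x : ℝ) : ℝ :=
  Jf p (w t) (f t) x + Real.exp (-2 * w t x) * gx p (w t) (f t) x

section conf

variable {p : ℕ} {w f : ℝ → ℝ → ℝ}

theorem sm_Jd (hw : Sm T w) (hf : Sm T f) : Sm T (fun t x => Jd p (w t) (f t) x) := by
  have h1 : Sm T (fun t x => Real.exp (-2 * w t x) *
      (((p : ℝ) - 1) * (Dx w t x * Dx w t x) + (p : ℝ) * (Dx f t x * Dx f t x))) :=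
    ((Sm.const (-2)).mul hw).exp.mul (((Sm.const _).mul (hw.dx.mul hw.dx)).add
      ((Sm.const _).mul (hf.dx.mul hf.dx)))
  refine h1.congr (fun z _ => ?_)
  simp only [Jd, dx, Dx]
  ring

theorem sm_gx (hw : Sm T w) (hf : Sm T f) : Sm T (fun t x => gx p (w t) (f t) x) :=
  ((Sm.const _).mul hw.dx).add ((Sm.const _).mul hf.dx)

theorem sm_Jt (hw : Sm T w) (hf : Sm T f) : Sm T (Jt p w f) :=
  (sm_Jd hw hf).intx.add (((Sm.const (-2)).mul hw).exp.mul (sm_gx hw hf))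

theorem Dx_Jt (hw : Sm T w) (hf : Sm T f) {t x : ℝ} (ht : t ∈ Ico 0 T)
    (hx : x ∈ Icc (-1 : ℝ) 1) : Dx (Jt p w f) t x = Real.exp (-2 * w t x) *
      (((p : ℝ) - 1) * (Dx (Dx w) t x - Dx w t x ^ 2) +
        (p : ℝ) * (Dx (Dx f) t x + Dx f t x ^ 2 - 2 * Dx w t x * Dx f t x)) := by
  have h1 := hasDx_int ((sm_Jd (p := p) hw hf).contx ht) hx
  have h2 := ((hw.hasDx ht hx).const_mul (-2)).exp
  have h3 := ((hw.dx.hasDx ht hx).const_mul ((p : ℝ) - 1)).add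
    ((hf.dx.hasDx ht hx).const_mul (p : ℝ))
  have h4 := h1.add (h2.mul h3)
  have h5 : derivWithin (Jt p w f t) (Icc (-1) 1) x = _ :=
    h4.derivWithin (uniqueDiffOn_Icc (by norm_num) x hx)
  rw [Dx, h5]
  simp only [Jd, dx, Pi.add_apply, Dx]
  ring

end conf


/-- The flow `η` of the gauge field. -/
structure Flo (T : ℝ) (J : ℝ → ℝ → ℝ) (η : ℝ → ℝ → ℝ) : Prop where
  smJ : Sm T J
  init : ∀ h ∈ Icc (-1 : ℝ) 1, η 0 h = h
  mem : ∀ t ∈ Ico 0 T, ∀ h ∈ Icc (-1 : ℝ) 1, η t h ∈ Icc (-1 : ℝ) 1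
  ode : ∀ t ∈ Ico 0 T, ∀ h ∈ Icc (-1 : ℝ) 1, HasDerivWithinAt (fun s => η s h)
    ((1 - η t h ^ 2) * J t (η t h)) (Ico 0 T) t
  sm : Sm T η
  dx : ∀ t ∈ Ico 0 T, ∀ h ∈ Icc (-1 : ℝ) 1, HasDerivWithinAt (η t)
    (Real.exp (∫ s in (0 : ℝ)..t, (-2 * η s h * J s (η s h) +
      (1 - η s h ^ 2) * Dx J s (η s h)))) (Icc (-1) 1) h
  rel : ∀ t ∈ Ico 0 T, ∀ h ∈ Icc (-1 : ℝ) 1, 1 - η t h ^ 2 =
    (1 - h ^ 2) * Real.exp (∫ s in (0 : ℝ)..t, (-2 * η s h * J s (η s h)))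

theorem exists_flo (hT : 0 < T) {J : ℝ → ℝ → ℝ} (hJ : Sm T J) : ∃ η, Flo T J η := by
  obtain ⟨η, h1, h2, h3, h4, h5, h6⟩ := strip_flow hT hJ
  exact ⟨η, hJ, h1, h2, h3, h4, h5, h6⟩

/-- `k = (1-η^2)/(1-h^2)` -/
noncomputable def kk (J η : ℝ → ℝ → ℝ) (t h : ℝ) : ℝ :=
  Real.exp (∫ s in (0 : ℝ)..t, (-2 * η s h * J s (η s h)))

/-- `∫ k J_x` -/
noncomputable def SS (J η : ℝ → ℝ → ℝ) (t h : ℝ) : ℝ :=
  ∫ s in (0 : ℝ)..t, kk J η s h * Dx J s (η s h)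

/-- `(exp(2(1-h^2)S)-1)/(1-h^2)` -/
noncomputable def QQ (J η : ℝ → ℝ → ℝ) (t h : ℝ) : ℝ :=
  ∫ s in (0 : ℝ)..t, 2 * (kk J η s h * Dx J s (η s h)) *
    Real.exp (2 * ((1 - h ^ 2) * SS J η s h))

/-- the coefficient of `g_{S^m}` -/
noncomputable def AA (w J η : ℝ → ℝ → ℝ) (t h : ℝ) : ℝ :=
  Real.exp (2 * w t (η t h)) * kk J η t h

/-- the coefficient of `dh^2` -/
noncomputable def BB (w J η : ℝ → ℝ → ℝ) (t h : ℝ) : ℝ := AA w J η t h * QQ J η t h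

/-- the coefficient of `g_{S^p}` -/
noncomputable def CC (f η : ℝ → ℝ → ℝ) (t h : ℝ) : ℝ := Real.exp (2 * f t (η t h))

namespace Flo

variable {J η : ℝ → ℝ → ℝ} (H : Flo T J η)
include H

theorem sm_J : Sm T (fun t h => J t (η t h)) := H.smJ.comp H.sm H.mem

theorem sm_Jx : Sm T (fun t h => Dx J t (η t h)) := H.smJ.dx.comp H.sm H.mem

theorem sm_kint : Sm T (fun t h => -2 * η t h * J t (η t h)) :=
  ((Sm.const (-2)).mul H.sm).mul H.sm_J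

theorem sm_kk : Sm T (kk J η) := H.sm_kint.intt.exp

theorem sm_SS : Sm T (SS J η) := (H.sm_kk.mul H.sm_Jx).intt

omit H in
theorem sm_q : Sm T (fun _ h => 1 - h ^ 2) := by
  have h1 : Sm T (fun _ h => 1 - h * h) := (Sm.const 1).sub (Sm.space.mul Sm.space)
  refine h1.congr (fun z _ => ?_)
  simp only
  ring

theorem sm_QQ : Sm T (QQ J η) :=
  (((Sm.const 2).mul (H.sm_kk.mul H.sm_Jx)).mul
    ((Sm.const 2).mul (sm_q.mul H.sm_SS)).exp).intt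

omit H in
theorem kk_pos (t h : ℝ) : 0 < kk J η t h := Real.exp_pos _

theorem rel_k {t h : ℝ} (ht : t ∈ Ico 0 T) (hh : h ∈ Icc (-1 : ℝ) 1) :
    1 - η t h ^ 2 = (1 - h ^ 2) * kk J η t h := H.rel t ht h hh

theorem rel_Q {t h : ℝ} (ht : t ∈ Ico 0 T) (hh : h ∈ Icc (-1 : ℝ) 1) :
    (1 - h ^ 2) * QQ J η t h = Real.exp (2 * ((1 - h ^ 2) * SS J η t h)) - 1 := by
  have hS : ∀ s ∈ Ico 0 T, HasDerivWithinAt (fun s => SS J η s h)
      (kk J η s h * Dx J s (η s h)) (Ico 0 T) s := fun s hs =>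
    hasDt_int ((H.sm_kk.mul H.sm_Jx).contt hh) hs
  have hQ : ∀ s ∈ Ico 0 T, HasDerivWithinAt (fun s => QQ J η s h)
      (2 * (kk J η s h * Dx J s (η s h)) *
        Real.exp (2 * ((1 - h ^ 2) * SS J η s h))) (Ico 0 T) s := fun s hs =>
    hasDt_int ((((Sm.const 2).mul (H.sm_kk.mul H.sm_Jx)).mul
      ((Sm.const 2).mul (sm_q.mul H.sm_SS)).exp).contt hh) hs
  -- the difference has zero derivative
  have hD : ∀ s ∈ Ico 0 T, HasDerivWithinAt (fun s => (1 - h ^ 2) * QQ J η s h -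
      Real.exp (2 * ((1 - h ^ 2) * SS J η s h))) 0 (Ico 0 T) s := by
    intro s hs
    have h1 := ((hQ s hs).const_mul (1 - h ^ 2)).sub
      (((hS s hs).const_mul (1 - h ^ 2)).const_mul 2).exp
    refine h1.congr_deriv ?_
    ring
  have h2 := (convex_Ico (0 : ℝ) T).is_const_of_fderivWithin_eq_zero (𝕜 := ℝ)
    (f := fun s => (1 - h ^ 2) * QQ J η s h - Real.exp (2 * ((1 - h ^ 2) * SS J η s h)))
    (fun s hs => (hD s hs).differentiableWithinAt)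
    (fun s hs => by
      have := (hD s hs).hasFDerivWithinAt.fderivWithin (uniqueDiffOn_Ico 0 T s hs)
      rw [this]; ext; simp)
    ht (show (0 : ℝ) ∈ Ico 0 T from ⟨le_rfl, lt_of_le_of_lt ht.1 ht.2⟩)
  have h3 : QQ J η 0 h = 0 := intervalIntegral.integral_same
  have h4 : SS J η 0 h = 0 := intervalIntegral.integral_same
  have h5 : (1 - h ^ 2) * QQ J η t h - Real.exp (2 * ((1 - h ^ 2) * SS J η t h)) =
      (1 - h ^ 2) * QQ J η 0 h - Real.exp (2 * ((1 - h ^ 2) * SS J η 0 h)) := h2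
  rw [h3, h4, mul_zero, mul_zero, Real.exp_zero] at h5
  linarith only [h5]

theorem dx_eq {t h : ℝ} (ht : t ∈ Ico 0 T) (hh : h ∈ Icc (-1 : ℝ) 1) :
    Dx η t h = kk J η t h * Real.exp ((1 - h ^ 2) * SS J η t h) := by
  have h1 : Dx η t h = _ := (H.dx t ht h hh).derivWithin (uniqueDiffOn_Icc (by norm_num) h hh)
  rw [h1, kk, ← Real.exp_add]
  congr 1
  rw [SS, ← intervalIntegral.integral_const_mul]
  rw [← intervalIntegral.integral_add]
  · refine intervalIntegral.integral_congr (fun s hs => ?_)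
    have hs' : s ∈ Ico 0 T := by
      rw [uIcc_of_le ht.1] at hs
      exact ⟨hs.1, lt_of_le_of_lt hs.2 ht.2⟩
    rw [H.rel_k hs' hh]
    ring
  · exact intervalIntegrable_t (H.sm_kint.contt hh) ht
  · exact intervalIntegrable_t
      (((Sm.const (1 - h ^ 2)).mul (H.sm_kk.mul H.sm_Jx)).contt hh) ht

theorem mem_Ioo {t h : ℝ} (ht : t ∈ Ico 0 T) (hh : h ∈ Ioo (-1 : ℝ) 1) :
    η t h ∈ Ioo (-1 : ℝ) 1 := by
  have h1 := H.rel_k ht (Ioo_subset_Icc_self hh)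
  have h2 : 0 < 1 - η t h ^ 2 := by
    rw [h1]
    have h3 := hh.1
    have h4 := hh.2
    exact mul_pos (by nlinarith only [h3, h4]) (kk_pos t h)
  have h5 := H.mem t ht h (Ioo_subset_Icc_self hh)
  constructor
  · rcases lt_or_eq_of_le h5.1 with h6 | h6
    · exact h6
    · rw [← h6] at h2; norm_num at h2
  · rcases lt_or_eq_of_le h5.2 with h6 | h6
    · exact h6
    · rw [h6] at h2; norm_num at h2

theorem dx_pos {t h : ℝ} (ht : t ∈ Ico 0 T) (hh : h ∈ Icc (-1 : ℝ) 1) : 0 < Dx η t h := by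
  rw [H.dx_eq ht hh]
  exact mul_pos (kk_pos t h) (Real.exp_pos _)

/-- time derivative of `η_h` -/
theorem hasDt_dx {t h : ℝ} (ht : t ∈ Ico 0 T) (hh : h ∈ Icc (-1 : ℝ) 1) :
    HasDerivWithinAt (fun s => Dx η s h) (Dx η t h * (-2 * η t h * J t (η t h) +
      (1 - η t h ^ 2) * Dx J t (η t h))) (Ico 0 T) t := by
  have h0 : ∀ s ∈ Ico 0 T, Dx η s h = Real.exp (∫ r in (0 : ℝ)..s, (-2 * η r h * J r (η r h) +
      (1 - η r h ^ 2) * Dx J r (η r h))) := fun s hs =>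
    (H.dx s hs h hh).derivWithin (uniqueDiffOn_Icc (by norm_num) h hh)
  have h1 : Sm T (fun s h => -2 * η s h * J s (η s h) + (1 - η s h ^ 2) * Dx J s (η s h)) := by
    have h2 : Sm T (fun s h => -2 * η s h * J s (η s h) +
        (1 - η s h * η s h) * Dx J s (η s h)) :=
      H.sm_kint.add (((Sm.const 1).sub (H.sm.mul H.sm)).mul H.sm_Jx)
    refine h2.congr (fun z _ => ?_)
    simp only
    ring
  have h2 := (hasDt_int (h1.contt hh) ht).exp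
  rw [h0 t ht]
  exact h2.congr (fun s hs => h0 s hs) (h0 t ht)

variable {w f : ℝ → ℝ → ℝ}

theorem sm_AA (hw : Sm T w) : Sm T (AA w J η) :=
  (((Sm.const 2).mul (hw.comp H.sm H.mem)).exp).mul H.sm_kk

theorem sm_BB (hw : Sm T w) : Sm T (BB w J η) := (H.sm_AA hw).mul H.sm_QQ

theorem sm_CC (hf : Sm T f) : Sm T (CC f η) := ((Sm.const 2).mul (hf.comp H.sm H.mem)).exp

omit H in
theorem AA_pos (t h : ℝ) : 0 < AA w J η t h := mul_pos (Real.exp_pos _) (kk_pos t h)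

theorem ABq {t h : ℝ} (ht : t ∈ Ico 0 T) (hh : h ∈ Icc (-1 : ℝ) 1) :
    AA w J η t h + BB w J η t h * (1 - h ^ 2) =
      AA w J η t h * Real.exp (2 * ((1 - h ^ 2) * SS J η t h)) := by
  have h1 := H.rel_Q ht hh
  rw [BB]
  linear_combination (AA w J η t h) * h1

theorem AB_pos {t h : ℝ} (ht : t ∈ Ico 0 T) (hh : h ∈ Icc (-1 : ℝ) 1) :
    0 < AA w J η t h + BB w J η t h * (1 - h ^ 2) := by
  rw [H.ABq ht hh]
  exact mul_pos (AA_pos t h) (Real.exp_pos _)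

theorem relA {t h : ℝ} (ht : t ∈ Ico 0 T) (hh : h ∈ Icc (-1 : ℝ) 1) :
    AA w J η t h * (1 - h ^ 2) = Real.exp (2 * w t (η t h)) * (1 - η t h ^ 2) := by
  rw [H.rel_k ht hh, AA]
  ring

theorem relB {t h : ℝ} (ht : t ∈ Ico 0 T) (hh : h ∈ Ioo (-1 : ℝ) 1) :
    (AA w J η t h + BB w J η t h * (1 - h ^ 2)) / (1 - h ^ 2) =
      Real.exp (2 * w t (η t h)) / (1 - η t h ^ 2) * Dx η t h ^ 2 := by
  have hh' := Ioo_subset_Icc_self hh
  rw [H.ABq ht hh', H.rel_k ht hh', H.dx_eq ht hh', AA]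
  have hq := q_ne hh
  have hk := (kk_pos (J := J) (η := η) t h).ne'
  have h1 : Real.exp (2 * ((1 - h ^ 2) * SS J η t h)) =
      Real.exp ((1 - h ^ 2) * SS J η t h) ^ 2 := by
    rw [← Real.exp_nat_mul]
    norm_num
  rw [h1]
  field_simp

/-- the profile of the pulled back metric -/
noncomputable def prof (w f J η : ℝ → ℝ → ℝ) (t : ℝ) : Geo.Prof where
  A := AA w J η t
  A1 := Dx (AA w J η) t
  A2 := Dx (Dx (AA w J η)) t
  B := BB w J η t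
  B1 := Dx (BB w J η) t
  B2 := Dx (Dx (BB w J η)) t
  C := CC f η t
  C1 := Dx (CC f η) t
  C2 := Dx (Dx (CC f η)) t

theorem good (hw : Sm T w) (hf : Sm T f) {t : ℝ} (ht : t ∈ Ico 0 T) :
    (prof w f J η t).Good where
  hA := fun _ hx => (H.sm_AA hw).hasDx ht hx
  hA1 := fun _ hx => (H.sm_AA hw).dx.hasDx ht hx
  hB := fun _ hx => (H.sm_BB hw).hasDx ht hx
  hB1 := fun _ hx => (H.sm_BB hw).dx.hasDx ht hx
  hC := fun _ hx => (H.sm_CC hf).hasDx ht hx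
  hC1 := fun _ hx => (H.sm_CC hf).dx.hasDx ht hx
  posA := fun x _ => AA_pos t x
  posAB := fun _ hx => H.AB_pos ht hx
  posC := fun _ _ => Real.exp_pos _

omit H in
theorem hasDerivAt_of_within {F : ℝ → ℝ} {F' x : ℝ} (hx : x ∈ Ioo (-1 : ℝ) 1)
    (h : HasDerivWithinAt F F' (Icc (-1) 1) x) : HasDerivAt F F' x :=
  h.hasDerivAt (Icc_mem_nhds hx.1 hx.2)

theorem spat (hw : Sm T w) (hf : Sm T f) {t : ℝ} (ht : t ∈ Ico 0 T) :
    Spat (AA w J η t) (Dx (AA w J η) t) (Dx (Dx (AA w J η)) t) (BB w J η t) (Dx (BB w J η) t)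
      (CC f η t) (Dx (CC f η) t) (Dx (Dx (CC f η)) t) (η t) (Dx η t) (Dx (Dx η) t)
      (w t) (Dx w t) (Dx (Dx w) t) (f t) (Dx f t) (Dx (Dx f) t) where
  hA := fun _ hx => hasDerivAt_of_within hx ((H.sm_AA hw).hasDx ht (Ioo_subset_Icc_self hx))
  hA1 := fun _ hx => hasDerivAt_of_within hx ((H.sm_AA hw).dx.hasDx ht (Ioo_subset_Icc_self hx))
  hB := fun _ hx => hasDerivAt_of_within hx ((H.sm_BB hw).hasDx ht (Ioo_subset_Icc_self hx))
  hC := fun _ hx => hasDerivAt_of_within hx ((H.sm_CC hf).hasDx ht (Ioo_subset_Icc_self hx))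
  hC1 := fun _ hx => hasDerivAt_of_within hx ((H.sm_CC hf).dx.hasDx ht (Ioo_subset_Icc_self hx))
  he := fun _ hx => hasDerivAt_of_within hx (H.sm.hasDx ht (Ioo_subset_Icc_self hx))
  he1 := fun _ hx => hasDerivAt_of_within hx (H.sm.dx.hasDx ht (Ioo_subset_Icc_self hx))
  hw := fun _ hx => hasDerivAt_of_within hx (hw.hasDx ht (Ioo_subset_Icc_self hx))
  hw1 := fun _ hx => hasDerivAt_of_within hx (hw.dx.hasDx ht (Ioo_subset_Icc_self hx))
  hf := fun _ hx => hasDerivAt_of_within hx (hf.hasDx ht (Ioo_subset_Icc_self hx))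
  hf1 := fun _ hx => hasDerivAt_of_within hx (hf.dx.hasDx ht (Ioo_subset_Icc_self hx))
  mem := fun _ hx => H.mem_Ioo ht hx
  e1pos := fun _ hx => H.dx_pos ht (Ioo_subset_Icc_self hx)
  relA := fun _ hx => H.relA ht (Ioo_subset_Icc_self hx)
  relB := fun _ hx => H.relB ht hx
  relC := fun _ _ => rfl

end Flo

end Vale.Agent.P244.GeoM
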