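import Vale.Agent.P244.GeoAlg
import Vale.Agent.P244.GeoRicciD

open Set

namespace Vale.Agent.P244.GeoM

open Vale.Agent.P244.Geo

variable (P : Prof) (m p : ℕ) {x : ℝ}

theorem F1_eq (hq : 1 - x ^ 2 ≠ 0) (hA : P.A x ≠ 0) (hAB : P.A x + P.B x * (1 - x ^ 2) ≠ 0)
    (hC : P.C x ≠ 0) :
    P.F1 m p x * (1 - x ^ 2) = RU m p (P.A x * (1 - x ^ 2)) (P.A1 x * (1 - x ^ 2) - 2 * x * P.A x)
      (P.A2 x * (1 - x ^ 2) - 4 * x * P.A1 x - 2 * P.A x)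
      ((P.A x + P.B x * (1 - x ^ 2)) / (1 - x ^ 2))
      ((P.A1 x + P.B1 x * (1 - x ^ 2) - 2 * x * P.B x) / (1 - x ^ 2) +
      2 * x * (P.A x + P.B x * (1 - x ^ 2)) / (1 - x ^ 2) ^ 2) (P.C x) (P.C1 x) := by
  unfold RU Prof.F1 Prof.T Prof.ga1 Prof.be Prof.ga Prof.al Prof.ka Prof.D1 Prof.D
  generalize P.A x = A at *
  generalize P.A1 x = A1
  generalize P.A2 x = A2
  generalize P.B x = B at *
  generalize P.B1 x = B1
  generalize P.C x = C at *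
  generalize P.C1 x = C1
  obtain ⟨q, hqx⟩ : ∃ q, q = 1 - x ^ 2 := ⟨_, rfl⟩
  rw [← hqx]
  rw [← hqx] at hq hAB
  obtain ⟨W, hW⟩ : ∃ W, W = A + B * q := ⟨_, rfl⟩
  rw [← hW]
  rw [← hW] at hAB
  have hB : B = (W - A) / q := by rw [hW]; field_simp; ring
  clear hW
  subst hB
  field_simp
  subst hqx
  ring

theorem F3_eq (hq : 1 - x ^ 2 ≠ 0) (hA : P.A x ≠ 0) (hAB : P.A x + P.B x * (1 - x ^ 2) ≠ 0)
    (hC : P.C x ≠ 0) :
    P.F3 m p x = RC m p (P.A x * (1 - x ^ 2)) (P.A1 x * (1 - x ^ 2) - 2 * x * P.A x)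
      ((P.A x + P.B x * (1 - x ^ 2)) / (1 - x ^ 2))
      ((P.A1 x + P.B1 x * (1 - x ^ 2) - 2 * x * P.B x) / (1 - x ^ 2) +
      2 * x * (P.A x + P.B x * (1 - x ^ 2)) / (1 - x ^ 2) ^ 2) (P.C x) (P.C1 x) (P.C2 x) := by
  unfold RC Prof.F3 Prof.T Prof.la1 Prof.la Prof.be Prof.ga Prof.al Prof.ka Prof.D1 Prof.D
  generalize P.A x = A at *
  generalize P.A1 x = A1
  generalize P.B x = B at *
  generalize P.B1 x = B1
  generalize P.C x = C at *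
  generalize P.C1 x = C1
  generalize P.C2 x = C2
  obtain ⟨q, hqx⟩ : ∃ q, q = 1 - x ^ 2 := ⟨_, rfl⟩
  rw [← hqx]
  rw [← hqx] at hq hAB
  obtain ⟨W, hW⟩ : ∃ W, W = A + B * q := ⟨_, rfl⟩
  rw [← hW]
  rw [← hW] at hAB
  have hB : B = (W - A) / q := by rw [hW]; field_simp; ring
  clear hW
  subst hB
  field_simp
  subst hqx
  ring

theorem F2_eq (hq : 1 - x ^ 2 ≠ 0) (hA : P.A x ≠ 0) (hAB : P.A x + P.B x * (1 - x ^ 2) ≠ 0)
    (hC : P.C x ≠ 0) :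
    P.F2 m p x + P.F1 m p x / (1 - x ^ 2) = RV m p (P.A x * (1 - x ^ 2)) (P.A1 x * (1 - x ^ 2) - 2 * x * P.A x)
      (P.A2 x * (1 - x ^ 2) - 4 * x * P.A1 x - 2 * P.A x)
      ((P.A x + P.B x * (1 - x ^ 2)) / (1 - x ^ 2))
      ((P.A1 x + P.B1 x * (1 - x ^ 2) - 2 * x * P.B x) / (1 - x ^ 2) +
      2 * x * (P.A x + P.B x * (1 - x ^ 2)) / (1 - x ^ 2) ^ 2) (P.C x) (P.C1 x) (P.C2 x) := by
  unfold RV Prof.F2 Prof.F1 Prof.T Prof.ga1 Prof.al1 Prof.ka1 Prof.be Prof.ga Prof.al Prof.ka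
    Prof.D1 Prof.D
  generalize P.A x = A at *
  generalize P.A1 x = A1
  generalize P.A2 x = A2
  generalize P.B x = B at *
  generalize P.B1 x = B1
  generalize P.C x = C at *
  generalize P.C1 x = C1
  generalize P.C2 x = C2
  obtain ⟨q, hqx⟩ : ∃ q, q = 1 - x ^ 2 := ⟨_, rfl⟩
  rw [← hqx]
  rw [← hqx] at hq hAB
  obtain ⟨W, hW⟩ : ∃ W, W = A + B * q := ⟨_, rfl⟩
  rw [← hW]
  rw [← hW] at hAB
  have hB : B = (W - A) / q := by rw [hW]; field_simp; ring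
  clear hW
  subst hB
  field_simp
  subst hqx
  ring

end Vale.Agent.P244.GeoM
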