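import Vale.Agent.P244.GeoEvo
import Vale.Agent.P244.GeoFF

open Set
open scoped ContDiff

set_option linter.unusedSectionVars false

namespace Vale.Agent.P244.GeoM

open Vale.Agent.P244.Geo (strip)
open Vale.Agent.P244.ST

variable {T : ℝ} {p : ℕ} {w f η : ℝ → ℝ → ℝ}

theorem exp_neg_two (a : ℝ) : Real.exp (-2 * a) = (Real.exp (2 * a))⁻¹ := by
  rw [← Real.exp_neg]; ring_nf

namespace Flo

variable (H : Flo T (Jt p w f) η) (S : ConfSol p w f T)
include H S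

theorem Dt_w {t x : ℝ} (ht : t ∈ Ico 0 T) (hx : x ∈ Icc (-1 : ℝ) 1) :
    Dt T w t x = (Real.exp (2 * w t x))⁻¹ * ((1 - x ^ 2) * Dx (Dx w) t x -
      ((p : ℝ) + 1) * x * Dx w t x - p) + (x - (1 - x ^ 2) * Dx w t x) * Jf p (w t) (f t) x := by
  have h1 : Dt T w t x = rhsW p (w t) (f t) x :=
    (S.eq_w t ht x hx).derivWithin (uniqueDiffOn_Ico 0 T t ht)
  rw [h1, rhsW, exp_neg_two]
  rfl

theorem Dt_f {t x : ℝ} (ht : t ∈ Ico 0 T) (hx : x ∈ Icc (-1 : ℝ) 1) :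
    Dt T f t x = (Real.exp (2 * w t x))⁻¹ * ((1 - x ^ 2) * Dx (Dx f) t x -
      ((p : ℝ) + 1) * x * Dx f t x) - ((p : ℝ) - 1) * (Real.exp (2 * f t x))⁻¹ -
      (1 - x ^ 2) * Dx f t x * Jf p (w t) (f t) x := by
  have h1 : Dt T f t x = rhsF p (w t) (f t) x :=
    (S.eq_f t ht x hx).derivWithin (uniqueDiffOn_Ico 0 T t ht)
  rw [h1, rhsF, exp_neg_two, exp_neg_two]
  rfl

theorem Jt_eq (t x : ℝ) : Jt p w f t x = Jf p (w t) (f t) x + (Real.exp (2 * w t x))⁻¹ *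
    (((p : ℝ) - 1) * Dx w t x + (p : ℝ) * Dx f t x) := by
  rw [Jt, exp_neg_two]
  rfl

theorem evoA {t h : ℝ} (ht : t ∈ Ico 0 T) (hh : h ∈ Ioo (-1 : ℝ) 1) :
    HasDerivWithinAt (fun s => AA w (Jt p w f) η s h)
      (-2 * (prof w f (Jt p w f) η t).F1 (p + 1) p h) (Ico 0 T) t := by
  have hw : Sm T w := S.smooth_w
  have hf : Sm T f := S.smooth_f
  have hh' := Ioo_subset_Icc_self hh
  have hq := q_ne hh
  have hm := H.mem_Ioo ht hh
  have hqx := q_ne hm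
  have hm' := H.mem t ht h hh'
  have hη := H.ode t ht h hh'
  have h1 := (((hw.chain ht hη (fun s hs => H.mem s hs h hh')).const_mul 2).exp.mul
    ((hη.pow 2).const_sub 1)).div_const (1 - h ^ 2)
  have h2 : ∀ s ∈ Ico 0 T, AA w (Jt p w f) η s h =
      Real.exp (2 * w s (η s h)) * (1 - η s h ^ 2) / (1 - h ^ 2) := by
    intro s hs
    rw [eq_div_iff hq]
    exact H.relA hs hh'
  have h3 := h1.congr (fun s hs => h2 s hs) (h2 t ht)
  refine h3.congr_deriv ?_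
  have hP : (prof w f (Jt p w f) η t).Good := H.good hw hf ht
  have e1 := F1_eq (prof w f (Jt p w f) η t) (p + 1) p hq (hP.posA h hh').ne'
    (hP.posAB h hh').ne' (hP.posC h hh').ne'
  have e2 := (H.spat hw hf ht).RU_eq ((p + 1 : ℕ) : ℝ) p hh
  have e3 := evo_U (p : ℝ) (x := η t h) (q := 1 - η t h ^ 2) (E := Real.exp (2 * w t (η t h)))
    (K := Real.exp (2 * f t (η t h))) (w1 := Dx w t (η t h)) (w2 := Dx (Dx w) t (η t h))
    (f1 := Dx f t (η t h)) (J := Jf p (w t) (f t) (η t h)) rfl hqx (Real.exp_pos _).ne'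
    (Real.exp_pos _).ne'
  have e4 := H.Dt_w S ht hm'
  have e5 := H.Jt_eq S t (η t h)
  have e6 : (prof w f (Jt p w f) η t).F1 (p + 1) p h * (1 - h ^ 2) = RU ((p + 1 : ℕ) : ℝ) p
      (Real.exp (2 * w t (η t h)) * (1 - η t h ^ 2)) _ _ _ _ _ _ := e1.trans e2
  push_cast at e6
  rw [← e6] at e3
  rw [div_eq_iff hq]
  rw [e4, e5]
  simp only [Pi.pow_apply]
  push_cast
  linear_combination e3

theorem evoC {t h : ℝ} (ht : t ∈ Ico 0 T) (hh : h ∈ Ioo (-1 : ℝ) 1) :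
    HasDerivWithinAt (fun s => CC f η s h)
      (-2 * (prof w f (Jt p w f) η t).F3 (p + 1) p h) (Ico 0 T) t := by
  have hw : Sm T w := S.smooth_w
  have hf : Sm T f := S.smooth_f
  have hh' := Ioo_subset_Icc_self hh
  have hq := q_ne hh
  have hm := H.mem_Ioo ht hh
  have hqx := q_ne hm
  have hm' := H.mem t ht h hh'
  have hη := H.ode t ht h hh'
  have h1 := ((hf.chain ht hη (fun s hs => H.mem s hs h hh')).const_mul 2).exp
  refine h1.congr_deriv ?_
  have hP : (prof w f (Jt p w f) η t).Good := H.good hw hf ht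
  have e1 := F3_eq (prof w f (Jt p w f) η t) (p + 1) p hq (hP.posA h hh').ne'
    (hP.posAB h hh').ne' (hP.posC h hh').ne'
  have e2 := (H.spat hw hf ht).RC_eq ((p + 1 : ℕ) : ℝ) p hh
  have e3 := evo_C (p : ℝ) (x := η t h) (q := 1 - η t h ^ 2) (E := Real.exp (2 * w t (η t h)))
    (K := Real.exp (2 * f t (η t h))) (w1 := Dx w t (η t h))
    (f1 := Dx f t (η t h)) (f2 := Dx (Dx f) t (η t h)) (J := Jf p (w t) (f t) (η t h)) rfl hqx
    (Real.exp_pos _).ne' (Real.exp_pos _).ne'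
  have e4 := H.Dt_f S ht hm'
  have e5 := H.Jt_eq S t (η t h)
  have e6 : (prof w f (Jt p w f) η t).F3 (p + 1) p h = RC ((p + 1 : ℕ) : ℝ) p
      (Real.exp (2 * w t (η t h)) * (1 - η t h ^ 2)) _ _ _ _ _ _ := e1.trans e2
  push_cast at e6
  rw [← e6] at e3
  rw [e4, e5]
  linear_combination e3

theorem evoB {t h : ℝ} (ht : t ∈ Ico 0 T) (hh : h ∈ Ioo (-1 : ℝ) 1) :
    HasDerivWithinAt (fun s => BB w (Jt p w f) η s h)
      (-2 * (prof w f (Jt p w f) η t).F2 (p + 1) p h) (Ico 0 T) t := by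
  have hw : Sm T w := S.smooth_w
  have hf : Sm T f := S.smooth_f
  have hh' := Ioo_subset_Icc_self hh
  have hq := q_ne hh
  have hm := H.mem_Ioo ht hh
  have hqx := q_ne hm
  have hm' := H.mem t ht h hh'
  have hη := H.ode t ht h hh'
  have h1 := (((hw.chain ht hη (fun s hs => H.mem s hs h hh')).const_mul 2).exp.div
    ((hη.pow 2).const_sub 1) (by simpa using hqx)).mul ((H.hasDt_dx ht hh').pow 2)
  have h1' := h1.sub ((H.evoA S ht hh).div_const (1 - h ^ 2))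
  have h2 : ∀ s ∈ Ico 0 T, BB w (Jt p w f) η s h =
      Real.exp (2 * w s (η s h)) / (1 - η s h ^ 2) * Dx η s h ^ 2 -
        AA w (Jt p w f) η s h / (1 - h ^ 2) := by
    intro s hs
    rw [← H.relB hs hh]
    field_simp
    ring
  have h3 := h1'.congr (fun s hs => h2 s hs) (h2 t ht)
  refine h3.congr_deriv ?_
  have hP : (prof w f (Jt p w f) η t).Good := H.good hw hf ht
  have e1 := F2_eq (prof w f (Jt p w f) η t) (p + 1) p hq (hP.posA h hh').ne'
    (hP.posAB h hh').ne' (hP.posC h hh').ne'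
  have e2 := (H.spat hw hf ht).RV_eq ((p + 1 : ℕ) : ℝ) p hh
  have e3 := evo_V (p : ℝ) (x := η t h) (q := 1 - η t h ^ 2) (E := Real.exp (2 * w t (η t h)))
    (K := Real.exp (2 * f t (η t h))) (w1 := Dx w t (η t h)) (w2 := Dx (Dx w) t (η t h))
    (f1 := Dx f t (η t h)) (f2 := Dx (Dx f) t (η t h)) (J := Jf p (w t) (f t) (η t h)) rfl hqx
    (Real.exp_pos _).ne' (Real.exp_pos _).ne'
  have e4 := H.Dt_w S ht hm'
  have e5 := H.Jt_eq S t (η t h)
  have e7 := Dx_Jt (p := p) hw hf ht hm'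
  rw [exp_neg_two] at e7
  have e6 : (prof w f (Jt p w f) η t).F2 (p + 1) p h +
      (prof w f (Jt p w f) η t).F1 (p + 1) p h / (1 - h ^ 2) = RV ((p + 1 : ℕ) : ℝ) p
      (Real.exp (2 * w t (η t h)) * (1 - η t h ^ 2)) _ _ _ _ _ _ _ * _ := e1.trans e2
  push_cast at e6
  have e8 := congrArg (fun z => z * Dx η t h ^ 2) e3
  rw [mul_assoc (-2 : ℝ) _ (Dx η t h ^ 2), ← e6] at e8
  have e9 : -2 * (prof w f (Jt p w f) η t).F2 (p + 1) p h =
      -2 * ((prof w f (Jt p w f) η t).F2 (p + 1) p h +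
      (prof w f (Jt p w f) η t).F1 (p + 1) p h / (1 - h ^ 2)) -
      -2 * (prof w f (Jt p w f) η t).F1 (p + 1) p h / (1 - h ^ 2) := by ring
  rw [e9, ← e8, e4, e5, e7]
  simp only [Pi.pow_apply, Pi.sub_apply, Pi.div_apply]
  generalize Real.exp (2 * w t (η t h)) = E
  push_cast
  field_simp
  ring

end Flo

end Vale.Agent.P244.GeoM
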