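import Vale.Agent.P244.GeoRicciD

set_option linter.all false

/-! # P244: product with a circle, coordinate side -/

open scoped ContDiff
open Set
open Vale.Agent.P244.Flow (pd christoffel ricci)

namespace Vale.Agent.P244.GeoP

open Vale.Agent.P244.Geo

variable {V : Type*} [NormedAddCommGroup V] [NormedSpace ℝ V] {n : ℕ}

/-- the product frame -/
noncomputable def pframe (v : Fin n → V) : Fin (n + 1) → V × EE 1 :=
  Fin.addCases (fun i => (v i, 0)) (fun j => (0, EuclideanSpace.single j 1))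

/-- the product metric -/
noncomputable def pmet (G : V → Matrix (Fin n) (Fin n) ℝ) (y : V × EE 1) :
    Matrix (Fin (n + 1)) (Fin (n + 1)) ℝ :=
  blk (fun i j => G y.1 i j) (fun a b => rho y.2 ^ 2 * dl a b)

variable (v : Fin n → V) (G : V → Matrix (Fin n) (Fin n) ℝ)

lemma pframe_left (i : Fin n) : pframe v (Fin.castAdd 1 i) = (v i, 0) := by simp [pframe]

lemma pframe_right (a : Fin 1) :
    pframe v (Fin.natAdd n a) = (0, EuclideanSpace.single a 1) := by simp [pframe]

lemma pmet_ll (y : V × EE 1) (i j : Fin n) :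
    pmet G y (Fin.castAdd 1 i) (Fin.castAdd 1 j) = G y.1 i j := by unfold pmet; rw [blk_ll]

lemma pmet_lr (y : V × EE 1) (i : Fin n) (a : Fin 1) :
    pmet G y (Fin.castAdd 1 i) (Fin.natAdd n a) = 0 := by unfold pmet; rw [blk_lr]

lemma pmet_rl (y : V × EE 1) (i : Fin n) (a : Fin 1) :
    pmet G y (Fin.natAdd n a) (Fin.castAdd 1 i) = 0 := by unfold pmet; rw [blk_rl]

lemma pmet_rr (y : V × EE 1) (a b : Fin 1) :
    pmet G y (Fin.natAdd n a) (Fin.natAdd n b) = rho y.2 ^ 2 * dl a b := by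
  unfold pmet; rw [blk_rr]

/-! ### partial derivatives of functions of one factor -/

lemma fderiv_fst {W : Type*} [NormedAddCommGroup W] [NormedSpace ℝ W] (f : V → ℝ) (y : V × W) :
    fderiv ℝ (fun z : V × W => f z.1) y =
      (fderiv ℝ f y.1).comp (ContinuousLinearMap.fst ℝ V W) := by
  by_cases h : DifferentiableAt ℝ f y.1
  · exact (h.hasFDerivAt.comp y hasFDerivAt_fst).fderiv
  · have h2 : ¬ DifferentiableAt ℝ (fun z : V × W => f z.1) y := by
      intro h3
      apply h
      have h4 : DifferentiableAt ℝ (fun x : V => ((x, y.2) : V × W)) y.1 :=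
        differentiableAt_id.prodMk (differentiableAt_const _)
      exact DifferentiableAt.comp (g := fun z : V × W => f z.1) y.1 h3 h4
    rw [fderiv_zero_of_not_differentiableAt h2, fderiv_zero_of_not_differentiableAt h]
    simp

lemma fderiv_snd' {W : Type*} [NormedAddCommGroup W] [NormedSpace ℝ W] (f : W → ℝ) (y : V × W) :
    fderiv ℝ (fun z : V × W => f z.2) y =
      (fderiv ℝ f y.2).comp (ContinuousLinearMap.snd ℝ V W) := by
  by_cases h : DifferentiableAt ℝ f y.2
  · exact (h.hasFDerivAt.comp y hasFDerivAt_snd).fderiv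
  · have h2 : ¬ DifferentiableAt ℝ (fun z : V × W => f z.2) y := by
      intro h3
      apply h
      have h4 : DifferentiableAt ℝ (fun x : W => ((y.1, x) : V × W)) y.2 :=
        (differentiableAt_const _).prodMk differentiableAt_id
      exact DifferentiableAt.comp (g := fun z : V × W => f z.2) y.2 h3 h4
    rw [fderiv_zero_of_not_differentiableAt h2, fderiv_zero_of_not_differentiableAt h]
    simp

lemma pd_fst_l (f : V → ℝ) (y : V × EE 1) (i : Fin n) :
    pd (pframe v) (Fin.castAdd 1 i) (fun z => f z.1) y = pd v i f y.1 := by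
  unfold pd
  rw [fderiv_fst, pframe_left]
  rfl

lemma pd_fst_r (f : V → ℝ) (y : V × EE 1) (a : Fin 1) :
    pd (pframe v) (Fin.natAdd n a) (fun z => f z.1) y = 0 := by
  unfold pd
  rw [fderiv_fst, pframe_right]
  simp

lemma pd_snd_l (f : EE 1 → ℝ) (y : V × EE 1) (i : Fin n) :
    pd (pframe v) (Fin.castAdd 1 i) (fun z => f z.2) y = 0 := by
  unfold pd
  rw [fderiv_snd', pframe_left]
  simp

lemma pd_snd_r (f : EE 1 → ℝ) (y : V × EE 1) (a : Fin 1) :
    pd (pframe v) (Fin.natAdd n a) (fun z => f z.2) y =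
      fderiv ℝ f y.2 (EuclideanSpace.single a 1) := by
  unfold pd
  rw [fderiv_snd', pframe_right]
  rfl

lemma pd_congr {n' : ℕ} {W : Type*} [NormedAddCommGroup W] [NormedSpace ℝ W] (w : Fin n' → W)
    (i : Fin n') {f g : W → ℝ} {y : W} (h : f =ᶠ[nhds y] g) : pd w i f y = pd w i g y := by
  unfold pd
  rw [h.fderiv_eq]

lemma pd_g_ll (i j : Fin n) (y : V × EE 1) (k : Fin n) :
    pd (pframe v) (Fin.castAdd 1 k) (fun z => pmet G z (Fin.castAdd 1 i) (Fin.castAdd 1 j)) y =
      pd v k (fun z => G z i j) y.1 := by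
  simp only [pmet_ll]
  exact pd_fst_l v (fun z => G z i j) y k

lemma pd_g_ll' (i j : Fin n) (y : V × EE 1) (a : Fin 1) :
    pd (pframe v) (Fin.natAdd n a) (fun z => pmet G z (Fin.castAdd 1 i) (Fin.castAdd 1 j)) y =
      0 := by
  simp only [pmet_ll]
  exact pd_fst_r v (fun z => G z i j) y a

lemma pd_zero {n' : ℕ} {W : Type*} [NormedAddCommGroup W] [NormedSpace ℝ W] (w : Fin n' → W)
    (i : Fin n') (y : W) : pd w i (fun _ => (0 : ℝ)) y = 0 := by
  unfold pd; simp

lemma pd_g_lr (i : Fin n) (a : Fin 1) (y : V × EE 1) (K : Fin (n + 1)) :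
    pd (pframe v) K (fun z => pmet G z (Fin.castAdd 1 i) (Fin.natAdd n a)) y = 0 := by
  simp only [pmet_lr]
  exact pd_zero _ _ _

lemma pd_g_rl (i : Fin n) (a : Fin 1) (y : V × EE 1) (K : Fin (n + 1)) :
    pd (pframe v) K (fun z => pmet G z (Fin.natAdd n a) (Fin.castAdd 1 i)) y = 0 := by
  simp only [pmet_rl]
  exact pd_zero _ _ _

lemma pd_g_rr (a b : Fin 1) (y : V × EE 1) (k : Fin n) :
    pd (pframe v) (Fin.castAdd 1 k) (fun z => pmet G z (Fin.natAdd n a) (Fin.natAdd n b)) y =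
      0 := by
  simp only [pmet_rr]
  exact pd_snd_l v (fun z => rho z ^ 2 * dl a b) y k

variable {G}

/-- the inverse of the product metric -/
lemma pmet_inv {y : V × EE 1} (hdet : IsUnit (G y.1).det) :
    (pmet G y)⁻¹ = blk (fun i j => (G y.1)⁻¹ i j) (fun a b => (rho y.2 ^ 2)⁻¹ * dl a b) := by
  unfold pmet
  refine blk_inv (fun i j => ?_) (fun a b => ?_)
  · have h := congrFun (congrFun (Matrix.mul_nonsing_inv (G y.1) hdet) i) j
    rw [Matrix.mul_apply] at h
    rw [h, Matrix.one_apply]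
    rfl
  · have hr := (rho_pos y.2).ne'
    have h1 : ∀ c, rho y.2 ^ 2 * dl a c * ((rho y.2 ^ 2)⁻¹ * dl c b) = dl a c * dl c b := by
      intro c
      field_simp
    simp only [h1]
    rw [sum_dl]

variable {v}

lemma pc_lll {y : V × EE 1} (hdet : IsUnit (G y.1).det) (k i j : Fin n) :
    christoffel (pframe v) (pmet G) (Fin.castAdd 1 k) (Fin.castAdd 1 i) (Fin.castAdd 1 j) y =
      christoffel v G k i j y.1 := by
  unfold christoffel
  rw [pmet_inv hdet, Fin.sum_univ_add]
  simp only [blk_ll, blk_lr, pd_g_ll, zero_mul, Finset.sum_const_zero, add_zero]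

lemma pc_llr {y : V × EE 1} (hdet : IsUnit (G y.1).det) (k i : Fin n) (a : Fin 1) :
    christoffel (pframe v) (pmet G) (Fin.castAdd 1 k) (Fin.castAdd 1 i) (Fin.natAdd n a) y =
      0 := by
  unfold christoffel
  rw [pmet_inv hdet, Fin.sum_univ_add]
  simp only [blk_ll, blk_lr, pd_g_ll', pd_g_lr, pd_g_rl, zero_mul, Finset.sum_const_zero,
    add_zero, sub_zero, mul_zero]

lemma pc_lrl {y : V × EE 1} (hdet : IsUnit (G y.1).det) (k i : Fin n) (a : Fin 1) :
    christoffel (pframe v) (pmet G) (Fin.castAdd 1 k) (Fin.natAdd n a) (Fin.castAdd 1 i) y =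
      0 := by
  unfold christoffel
  rw [pmet_inv hdet, Fin.sum_univ_add]
  simp only [blk_ll, blk_lr, pd_g_ll', pd_g_lr, pd_g_rl, zero_mul, Finset.sum_const_zero,
    add_zero, sub_zero, mul_zero]

lemma pc_lrr {y : V × EE 1} (hdet : IsUnit (G y.1).det) (k : Fin n) (a b : Fin 1) :
    christoffel (pframe v) (pmet G) (Fin.castAdd 1 k) (Fin.natAdd n a) (Fin.natAdd n b) y =
      0 := by
  unfold christoffel
  rw [pmet_inv hdet, Fin.sum_univ_add]
  simp only [blk_ll, blk_lr, pd_g_rr, pd_g_lr, pd_g_rl, zero_mul, Finset.sum_const_zero,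
    add_zero, sub_zero, mul_zero]

lemma pc_rll {y : V × EE 1} (hdet : IsUnit (G y.1).det) (a : Fin 1) (i j : Fin n) :
    christoffel (pframe v) (pmet G) (Fin.natAdd n a) (Fin.castAdd 1 i) (Fin.castAdd 1 j) y =
      0 := by
  unfold christoffel
  rw [pmet_inv hdet, Fin.sum_univ_add]
  simp only [blk_rl, blk_rr, pd_g_ll', pd_g_lr, pd_g_rl, zero_mul, Finset.sum_const_zero,
    add_zero, sub_zero, mul_zero]

lemma pc_rlr {y : V × EE 1} (hdet : IsUnit (G y.1).det) (a b : Fin 1) (i : Fin n) :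
    christoffel (pframe v) (pmet G) (Fin.natAdd n a) (Fin.castAdd 1 i) (Fin.natAdd n b) y =
      0 := by
  unfold christoffel
  rw [pmet_inv hdet, Fin.sum_univ_add]
  simp only [blk_rl, blk_rr, pd_g_rr, pd_g_lr, pd_g_rl, zero_mul, Finset.sum_const_zero,
    add_zero, sub_zero, mul_zero]

lemma pc_rrl {y : V × EE 1} (hdet : IsUnit (G y.1).det) (a b : Fin 1) (i : Fin n) :
    christoffel (pframe v) (pmet G) (Fin.natAdd n a) (Fin.natAdd n b) (Fin.castAdd 1 i) y =
      0 := by
  unfold christoffel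
  rw [pmet_inv hdet, Fin.sum_univ_add]
  simp only [blk_rl, blk_rr, pd_g_rr, pd_g_lr, pd_g_rl, zero_mul, Finset.sum_const_zero,
    add_zero, sub_zero, mul_zero, zero_add]

/-- the Christoffel symbol of the circle factor depends on the second variable only -/
lemma pc_rrr {y : V × EE 1} (hdet : IsUnit (G y.1).det) (a b c : Fin 1) :
    christoffel (pframe v) (pmet G) (Fin.natAdd n a) (Fin.natAdd n b) (Fin.natAdd n c) y =
      uu 0 y.2 := by
  have ha : a = 0 := Subsingleton.elim _ _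
  have hb : b = 0 := Subsingleton.elim _ _
  have hc : c = 0 := Subsingleton.elim _ _
  subst ha; subst hb; subst hc
  unfold christoffel
  rw [pmet_inv hdet, Fin.sum_univ_add]
  simp only [blk_rl, blk_rr, zero_mul, Finset.sum_const_zero, zero_add, Fin.sum_univ_one]
  have h1 : pd (pframe v) (Fin.natAdd n 0) (fun z => pmet G z (Fin.natAdd n 0) (Fin.natAdd n 0)) y
      = 2 * rho y.2 * (rho y.2 * uu 0 y.2) := by
    simp only [pmet_rr, dl_self, mul_one]
    rw [pd_snd_r v (fun z => rho z ^ 2)]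
    have h2 : HD (fun z : EE 1 => rho z ^ 2) (fun j => 2 * rho y.2 * (rho y.2 * uu j y.2)) y.2 :=
      (((HD_rho y.2).mul (HD_rho y.2)).congr fun j => by ring).of_eq fun z => by ring
    exact h2.2 0
  rw [h1, dl_self]
  have hr := (rho_pos y.2).ne'
  field_simp
  ring

/-! ### Ricci tensor -/

lemma ev {U : Set V} (hU : IsOpen U) {y : V × EE 1} (hy : y.1 ∈ U) :
    ∀ᶠ z : V × EE 1 in nhds y, z.1 ∈ U :=
  (hU.preimage continuous_fst).mem_nhds hy

/-- RESULT: the Ricci tensor of the product with a circle -/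
theorem ricci_pmet' {U : Set V} (hU : IsOpen U) (hdet : ∀ y ∈ U, IsUnit (G y).det)
    {y : V × EE 1} (hy : y.1 ∈ U) (I J : Fin (n + 1)) :
    ricci (pframe v) (pmet G) I J y = blk (fun i j => ricci v G i j y.1) (fun _ _ => 0) I J := by
  have hd := hdet _ hy
  -- derivatives of the Christoffel symbols
  have p1 : ∀ k i j l, pd (pframe v) (Fin.castAdd 1 l) (christoffel (pframe v) (pmet G)
      (Fin.castAdd 1 k) (Fin.castAdd 1 i) (Fin.castAdd 1 j)) y = pd v l (christoffel v G k i j) y.1 := by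
    intro k i j l
    have e : christoffel (pframe v) (pmet G) (Fin.castAdd 1 k) (Fin.castAdd 1 i) (Fin.castAdd 1 j) =ᶠ[nhds y] (fun z => christoffel v G k i j z.1) :=
      (ev hU hy).mono fun z hz => pc_lll (hdet _ hz) k i j
    rw [pd_congr (pframe v) (Fin.castAdd 1 l) e]
    exact pd_fst_l v (christoffel v G k i j) y l
  have p1' : ∀ k i j a, pd (pframe v) (Fin.natAdd n a) (christoffel (pframe v) (pmet G)
      (Fin.castAdd 1 k) (Fin.castAdd 1 i) (Fin.castAdd 1 j)) y = 0 := by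
    intro k i j a
    have e : christoffel (pframe v) (pmet G) (Fin.castAdd 1 k) (Fin.castAdd 1 i) (Fin.castAdd 1 j) =ᶠ[nhds y] (fun z => christoffel v G k i j z.1) :=
      (ev hU hy).mono fun z hz => pc_lll (hdet _ hz) k i j
    rw [pd_congr (pframe v) (Fin.natAdd n a) e]
    exact pd_fst_r v (christoffel v G k i j) y a
  have p2 : ∀ k i a L, pd (pframe v) L (christoffel (pframe v) (pmet G)
      (Fin.castAdd 1 k) (Fin.castAdd 1 i) (Fin.natAdd n a)) y = 0 := by
    intro k i a L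
    have e : christoffel (pframe v) (pmet G) (Fin.castAdd 1 k) (Fin.castAdd 1 i) (Fin.natAdd n a) =ᶠ[nhds y] (fun z => 0) :=
      (ev hU hy).mono fun z hz => pc_llr (hdet _ hz) k i a
    rw [pd_congr (pframe v) L e]
    exact pd_zero _ _ _
  have p3 : ∀ k i a L, pd (pframe v) L (christoffel (pframe v) (pmet G)
      (Fin.castAdd 1 k) (Fin.natAdd n a) (Fin.castAdd 1 i)) y = 0 := by
    intro k i a L
    have e : christoffel (pframe v) (pmet G) (Fin.castAdd 1 k) (Fin.natAdd n a) (Fin.castAdd 1 i) =ᶠ[nhds y] (fun z => 0) :=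
      (ev hU hy).mono fun z hz => pc_lrl (hdet _ hz) k i a
    rw [pd_congr (pframe v) L e]
    exact pd_zero _ _ _
  have p4 : ∀ k a b L, pd (pframe v) L (christoffel (pframe v) (pmet G)
      (Fin.castAdd 1 k) (Fin.natAdd n a) (Fin.natAdd n b)) y = 0 := by
    intro k a b L
    have e : christoffel (pframe v) (pmet G) (Fin.castAdd 1 k) (Fin.natAdd n a) (Fin.natAdd n b) =ᶠ[nhds y] (fun z => 0) :=
      (ev hU hy).mono fun z hz => pc_lrr (hdet _ hz) k a b
    rw [pd_congr (pframe v) L e]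
    exact pd_zero _ _ _
  have p5 : ∀ a i j L, pd (pframe v) L (christoffel (pframe v) (pmet G)
      (Fin.natAdd n a) (Fin.castAdd 1 i) (Fin.castAdd 1 j)) y = 0 := by
    intro a i j L
    have e : christoffel (pframe v) (pmet G) (Fin.natAdd n a) (Fin.castAdd 1 i) (Fin.castAdd 1 j) =ᶠ[nhds y] (fun z => 0) :=
      (ev hU hy).mono fun z hz => pc_rll (hdet _ hz) a i j
    rw [pd_congr (pframe v) L e]
    exact pd_zero _ _ _
  have p6 : ∀ a b i L, pd (pframe v) L (christoffel (pframe v) (pmet G)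
      (Fin.natAdd n a) (Fin.castAdd 1 i) (Fin.natAdd n b)) y = 0 := by
    intro a b i L
    have e : christoffel (pframe v) (pmet G) (Fin.natAdd n a) (Fin.castAdd 1 i) (Fin.natAdd n b) =ᶠ[nhds y] (fun z => 0) :=
      (ev hU hy).mono fun z hz => pc_rlr (hdet _ hz) a b i
    rw [pd_congr (pframe v) L e]
    exact pd_zero _ _ _
  have p7 : ∀ a b i L, pd (pframe v) L (christoffel (pframe v) (pmet G)
      (Fin.natAdd n a) (Fin.natAdd n b) (Fin.castAdd 1 i)) y = 0 := by
    intro a b i L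
    have e : christoffel (pframe v) (pmet G) (Fin.natAdd n a) (Fin.natAdd n b) (Fin.castAdd 1 i) =ᶠ[nhds y] (fun z => 0) :=
      (ev hU hy).mono fun z hz => pc_rrl (hdet _ hz) a b i
    rw [pd_congr (pframe v) L e]
    exact pd_zero _ _ _
  have p8 : ∀ a b c l, pd (pframe v) (Fin.castAdd 1 l) (christoffel (pframe v) (pmet G)
      (Fin.natAdd n a) (Fin.natAdd n b) (Fin.natAdd n c)) y = 0 := by
    intro a b c l
    have e : christoffel (pframe v) (pmet G) (Fin.natAdd n a) (Fin.natAdd n b) (Fin.natAdd n c) =ᶠ[nhds y] (fun z => uu 0 z.2) :=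
      (ev hU hy).mono fun z hz => pc_rrr (hdet _ hz) a b c
    rw [pd_congr (pframe v) (Fin.castAdd 1 l) e]
    exact pd_snd_l v (uu 0) y l
  unfold ricci
  refine Fin.addCases (fun i => ?_) (fun a => ?_) I <;>
  refine Fin.addCases (fun j => ?_) (fun b => ?_) J
  · simp only [Fin.sum_univ_add, p1, p1', p5, p6, pc_lll hd, pc_llr hd, pc_lrl hd, pc_rll hd,
      pc_rlr hd, pc_rrl hd, blk_ll, mul_zero, zero_mul, sub_zero, Finset.sum_const_zero,
      add_zero]
  · simp only [Fin.sum_univ_add, p2, p1', p6, pc_lll hd, pc_llr hd, pc_lrl hd, pc_rll hd,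
      pc_rlr hd, pc_rrl hd, pc_lrr hd, pc_rrr hd, blk_lr, mul_zero, zero_mul, sub_zero,
      Finset.sum_const_zero, add_zero]
  · simp only [Fin.sum_univ_add, p3, p7, p8, pc_lll hd, pc_llr hd, pc_lrl hd, pc_rll hd,
      pc_rlr hd, pc_rrl hd, pc_lrr hd, pc_rrr hd, blk_rl, mul_zero, zero_mul, sub_zero,
      Finset.sum_const_zero, add_zero]
  · have ha : a = 0 := Subsingleton.elim _ _
    have hb : b = 0 := Subsingleton.elim _ _
    subst ha; subst hb
    simp only [Fin.sum_univ_add, Fin.sum_univ_one, p4, p3, pc_lll hd, pc_llr hd, pc_lrl hd,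
      pc_rll hd, pc_rlr hd, pc_rrl hd, pc_lrr hd, pc_rrr hd, blk_rr, mul_zero, zero_mul, sub_zero,
      Finset.sum_const_zero, add_zero, zero_add, sub_self]

theorem ricci_pmet {U : Set V} (hU : IsOpen U)
    (_hG : ∀ i j, ContDiffOn ℝ ∞ (fun y => G y i j) U) (hdet : ∀ y ∈ U, IsUnit (G y).det)
    {y : V × EE 1} (hy : y.1 ∈ U) (I J : Fin (n + 1)) :
    ricci (pframe v) (pmet G) I J y = blk (fun i j => ricci v G i j y.1) (fun _ _ => 0) I J :=
  ricci_pmet' hU hdet hy I J

/-- RESULT: the scalar curvature of the product with a circle -/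
theorem scal_pmet' {U : Set V} (hU : IsOpen U) (hdet : ∀ y ∈ U, IsUnit (G y).det)
    {y : V × EE 1} (hy : y.1 ∈ U) :
    ∑ I, ∑ J, (pmet G y)⁻¹ I J * ricci (pframe v) (pmet G) I J y =
      ∑ i, ∑ j, (G y.1)⁻¹ i j * ricci v G i j y.1 := by
  simp only [ricci_pmet' hU hdet hy, pmet_inv (hdet _ hy), Fin.sum_univ_add, blk_ll, blk_lr,
    blk_rl, blk_rr, mul_zero, Finset.sum_const_zero, add_zero]

theorem scal_pmet {U : Set V} (hU : IsOpen U)
    (_hG : ∀ i j, ContDiffOn ℝ ∞ (fun y => G y i j) U) (hdet : ∀ y ∈ U, IsUnit (G y).det)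
    {y : V × EE 1} (hy : y.1 ∈ U) :
    ∑ I, ∑ J, (pmet G y)⁻¹ I J * ricci (pframe v) (pmet G) I J y =
      ∑ i, ∑ j, (G y.1)⁻¹ i j * ricci v G i j y.1 :=
  scal_pmet' hU hdet hy

/-- smoothness of the components of the product metric in space-time -/
theorem pmet_contDiffOn {S : Set ℝ} {U : Set V} {G : ℝ → V → Matrix (Fin n) (Fin n) ℝ}
    (hG : ∀ i j, ContDiffOn ℝ ∞ (fun z : ℝ × V => G z.1 z.2 i j) (S ×ˢ U)) (I J : Fin (n + 1)) :
    ContDiffOn ℝ ∞ (fun z : ℝ × (V × EE 1) => pmet (G z.1) z.2 I J) (S ×ˢ (U ×ˢ univ)) := by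
  refine Fin.addCases (fun i => ?_) (fun i => ?_) I <;>
  refine Fin.addCases (fun j => ?_) (fun j => ?_) J
  · simp only [pmet_ll]
    have h1 : ContDiff ℝ ∞ (fun z : ℝ × (V × EE 1) => (z.1, z.2.1)) :=
      contDiff_fst.prodMk (contDiff_fst.comp contDiff_snd)
    exact (hG i j).comp h1.contDiffOn fun z hz => ⟨hz.1, hz.2.1⟩
  · simp only [pmet_lr]
    exact contDiffOn_const
  · simp only [pmet_rl]
    exact contDiffOn_const
  · simp only [pmet_rr]
    have h0 : ContDiff ℝ ∞ (rho (m := 1)) :=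
      contDiff_const.div ((contDiff_norm_sq ℝ).add contDiff_const) fun y => (N_pos y).ne'
    have h1 : ContDiff ℝ ∞ (fun z : ℝ × (V × EE 1) => rho z.2.2 ^ 2 * dl i j) :=
      ((h0.comp (contDiff_snd.comp contDiff_snd)).pow 2).mul contDiff_const
    exact h1.contDiffOn

/-- the flow equation for the product metric -/
theorem pmet_flow {S : Set ℝ} {U : Set V} (hU : IsOpen U) {G : ℝ → V → Matrix (Fin n) (Fin n) ℝ}
    {t : ℝ} (hdet : ∀ y ∈ U, IsUnit (G t y).det) {y : V × EE 1} (hy : y.1 ∈ U)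
    (hflow : ∀ i j, HasDerivWithinAt (fun s => G s y.1 i j) (-2 * ricci v (G t) i j y.1) S t)
    (I J : Fin (n + 1)) :
    HasDerivWithinAt (fun s => pmet (G s) y I J) (-2 * ricci (pframe v) (pmet (G t)) I J y) S t := by
  rw [ricci_pmet' hU hdet hy]
  refine Fin.addCases (fun i => ?_) (fun i => ?_) I <;>
  refine Fin.addCases (fun j => ?_) (fun j => ?_) J
  · simp only [pmet_ll, blk_ll]
    exact hflow i j
  · simp only [pmet_lr, blk_lr, mul_zero]
    exact hasDerivWithinAt_const _ _ _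
  · simp only [pmet_rl, blk_rl, mul_zero]
    exact hasDerivWithinAt_const _ _ _
  · simp only [pmet_rr, blk_rr, mul_zero]
    exact hasDerivWithinAt_const _ _ _

end Vale.Agent.P244.GeoP
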