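import Vale.Agent.P244.GeoMan
import Vale.Agent.P244.GeoProdR

open scoped Manifold ContDiff RealInnerProductSpace Topology
open Set Metric Module

namespace Vale.Agent.P244.GeoP

open Vale.Agent.P244.Geo (EE rho)
open Vale.Agent.P244.GeoM (Sph innerBil factFin par norm_par)

attribute [local instance] factFin

section congr

variable {V : Type*} [NormedAddCommGroup V] [NormedSpace ℝ V] {n : ℕ} (v : Fin n → V)
  {G G' : V → Matrix (Fin n) (Fin n) ℝ} {y : V}

theorem pd_congr'' {f f' : V → ℝ} (h : f =ᶠ[𝓝 y] f') (i : Fin n) :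
    Flow.pd v i f y = Flow.pd v i f' y := by
  unfold Flow.pd
  rw [h.fderiv_eq]

theorem christoffel_congr (h : G =ᶠ[𝓝 y] G') (k i j : Fin n) :
    Flow.christoffel v G k i j y = Flow.christoffel v G' k i j y := by
  have h1 : ∀ a b : Fin n, (fun z => G z a b) =ᶠ[𝓝 y] fun z => G' z a b := fun a b => by
    filter_upwards [h] with z hz
    rw [hz]
  unfold Flow.christoffel
  rw [h.eq_of_nhds]
  congr 1
  refine Finset.sum_congr rfl (fun l _ => ?_)
  rw [pd_congr'' v (h1 j l), pd_congr'' v (h1 i l), pd_congr'' v (h1 i j)]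

theorem ricci_congr (h : G =ᶠ[𝓝 y] G') (i j : Fin n) :
    Flow.ricci v G i j y = Flow.ricci v G' i j y := by
  have h1 : ∀ k a b : Fin n, Flow.christoffel v G k a b =ᶠ[𝓝 y] Flow.christoffel v G' k a b :=
    fun k a b => by
      filter_upwards [h.eventuallyEq_nhds] with z hz
      exact christoffel_congr v hz k a b
  unfold Flow.ricci
  congr 1
  · refine Finset.sum_congr rfl (fun k _ => ?_)
    rw [pd_congr'' v (h1 k i j), pd_congr'' v (h1 k i k)]
  · refine Finset.sum_congr rfl (fun k _ => Finset.sum_congr rfl (fun l _ => ?_))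
    rw [(h1 k k l).eq_of_nhds, (h1 l i j).eq_of_nhds, (h1 k j l).eq_of_nhds,
      (h1 l i k).eq_of_nhds]

end congr

variable {V : Type*} [NormedAddCommGroup V] [NormedSpace ℝ V] {n : ℕ}
  {M : Type*} [TopologicalSpace M] [ChartedSpace V M]

/-- The product manifold structure of `M × S^1`. -/
@[reducible] noncomputable def pcharted (V M : Type*) [NormedAddCommGroup V] [NormedSpace ℝ V]
    [TopologicalSpace M] [ChartedSpace V M] : ChartedSpace (V × EE 1) (M × Sph 1) :=
  inferInstanceAs (ChartedSpace (ModelProd V (EE 1)) (M × Sph 1))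

attribute [local instance] pcharted

theorem pmanifold [IsManifold 𝓘(ℝ, V) ∞ M] :
    IsManifold 𝓘(ℝ, V × EE 1) ∞ (M × Sph 1) := by
  have h : IsManifold (𝓘(ℝ, V).prod (𝓡 1)) ∞ (M × Sph 1) := by
    have h2 : IsManifold (𝓡 1) ∞ (Sph 1) := IsManifold.of_le (n := ω) le_top
    exact IsManifold.prod _ _
  rw [← modelWithCornersSelf_prod] at h
  exact h

/-- derivative of the inclusion of the circle -/
noncomputable def dcirc (x : Sph 1) : EE 1 →L[ℝ] EE 2 :=
  mfderiv (𝓡 1) 𝓘(ℝ, EE 2) ((↑) : Sph 1 → EE 2) x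

/-- The product metric `g + dθ^2` on `M × S^1`. -/
noncomputable def pform (g : Flow.Tensor V M) (x : M × Sph 1) :
    (V × EE 1) →L[ℝ] (V × EE 1) →L[ℝ] ℝ :=
  (show V →L[ℝ] V →L[ℝ] ℝ from g x.1).bilinearComp (ContinuousLinearMap.fst ℝ V (EE 1))
    (ContinuousLinearMap.fst ℝ V (EE 1)) +
  (innerBil (EE 2)).bilinearComp ((dcirc x.2).comp (ContinuousLinearMap.snd ℝ V (EE 1)))
    ((dcirc x.2).comp (ContinuousLinearMap.snd ℝ V (EE 1)))

/-- The product metric as a tensor field. -/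
noncomputable def ptens (g : Flow.Tensor V M) : Flow.Tensor (V × EE 1) (M × Sph 1) :=
  fun x => pform g x

theorem val_ptens (g : Flow.Tensor V M) (x : M × Sph 1) (u w : V × EE 1) :
    Flow.val (ptens g) x u w = Flow.val g x.1 u.1 w.1 + ⟪dcirc x.2 u.2, dcirc x.2 w.2⟫ := rfl

theorem mem_patlas {e : OpenPartialHomeomorph (M × Sph 1) (V × EE 1)}
    (he : e ∈ atlas (V × EE 1) (M × Sph 1)) : ∃ e1 ∈ atlas V M, ∃ s : Sph 1,
      e.target = e1.target ×ˢ univ ∧
      (∀ y : V × EE 1, e.symm y = (e1.symm y.1, (stereographic' 1 s).symm y.2)) := by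
  obtain ⟨e1, h1, e2, ⟨s, rfl⟩, rfl⟩ := he
  refine ⟨e1, h1, s, ?_, fun y => rfl⟩
  change e1.target ×ˢ (stereographic' 1 s).target = _
  simp


theorem mdiff_symm' [IsManifold 𝓘(ℝ, V) ∞ M] {e1 : OpenPartialHomeomorph M V}
    (h1 : e1 ∈ atlas V M) {y : V} (hy : y ∈ e1.target) :
    MDifferentiableAt 𝓘(ℝ, V) 𝓘(ℝ, V) e1.symm y := by
  have h2 : e1 ∈ IsManifold.maximalAtlas 𝓘(ℝ, V) ∞ M := IsManifold.subset_maximalAtlas h1
  have h3 := contMDiffOn_symm_of_mem_maximalAtlas h2
  exact (h3.contMDiffAt (e1.open_target.mem_nhds hy)).mdifferentiableAt (by simp)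

theorem mdiff_circ (s : Sph 1) (y : EE 1) :
    MDifferentiableAt (𝓡 1) (𝓡 1) (stereographic' 1 s).symm y := by
  have h1 : stereographic' 1 s ∈ atlas (EE 1) (Sph 1) := ⟨s, rfl⟩
  have h2 : stereographic' 1 s ∈ IsManifold.maximalAtlas (𝓡 1) ω (Sph 1) :=
    IsManifold.subset_maximalAtlas h1
  have h3 := contMDiffOn_symm_of_mem_maximalAtlas h2
  exact (h3.contMDiffAt ((stereographic' 1 s).open_target.mem_nhds
    (by simp))).mdifferentiableAt (by simp)

theorem mfderiv_psymm [IsManifold 𝓘(ℝ, V) ∞ M] {e1 : OpenPartialHomeomorph M V}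
    (h1 : e1 ∈ atlas V M) {y : V × EE 1} (hy : y.1 ∈ e1.target) (s : Sph 1)
    {e : OpenPartialHomeomorph (M × Sph 1) (V × EE 1)}
    (he : ∀ y : V × EE 1, e.symm y = (e1.symm y.1, (stereographic' 1 s).symm y.2))
    (u : V × EE 1) :
    mfderiv 𝓘(ℝ, V × EE 1) 𝓘(ℝ, V × EE 1) e.symm y u =
      ((mfderiv 𝓘(ℝ, V) 𝓘(ℝ, V) e1.symm y.1 u.1 : V),
        (mfderiv (𝓡 1) (𝓡 1) (stereographic' 1 s).symm y.2 u.2 : EE 1)) := by
  have h2 := mfderiv_prodMap (p := y) (mdiff_symm' h1 hy) (mdiff_circ s y.2)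
  have h3 : (e.symm : V × EE 1 → M × Sph 1) = Prod.map e1.symm (stereographic' 1 s).symm := by
    funext z; exact he z
  rw [h3]
  rw [← modelWithCornersSelf_prod, chartedSpaceSelf_prod] at h2
  have h4 := congrArg (fun L : (V × EE 1) →L[ℝ] (V × EE 1) => L u) h2
  exact h4


theorem dcirc_symm (s : Sph 1) (y w : EE 1) :
    dcirc ((stereographic' 1 s).symm y)
      (mfderiv (𝓡 1) (𝓡 1) (stereographic' 1 s).symm y w : EE 1) = fderiv ℝ (par s) y w := by
  have h0 : ContMDiff (𝓡 1) 𝓘(ℝ, EE 2) ∞ ((↑) : Sph 1 → EE 2) := contMDiff_coe_sphere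
  have h1 : MDifferentiableAt (𝓡 1) 𝓘(ℝ, EE 2) ((↑) : Sph 1 → EE 2)
      ((stereographic' 1 s).symm y) := h0.mdifferentiableAt (by simp)
  have h3 := mfderiv_comp y h1 (mdiff_circ s y)
  have h4 : ((↑) : Sph 1 → EE 2) ∘ (stereographic' 1 s).symm = par s := rfl
  rw [h4, mfderiv_eq_fderiv] at h3
  have h6 := congrArg (fun L : EE 1 →L[ℝ] EE 2 => L w) h3
  exact h6.symm

/-- value of a tensor, with the tangent space replaced by the model space -/
def gAt (g : Flow.Tensor V M) (x : M) : V →L[ℝ] V →L[ℝ] ℝ := g x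

/-- derivative of the inverse chart -/
noncomputable def dsym (e1 : OpenPartialHomeomorph M V) (y : V) : V →L[ℝ] V :=
  mfderiv 𝓘(ℝ, V) 𝓘(ℝ, V) e1.symm y

theorem comp_eq_gAt (v : Fin n → V) (g : Flow.Tensor V M) (e1 : OpenPartialHomeomorph M V)
    (y : V) (i j : Fin n) : Flow.comp v g e1 y i j =
      gAt g (e1.symm y) (dsym e1 y (v i)) (dsym e1 y (v j)) := rfl

theorem val_psymm [IsManifold 𝓘(ℝ, V) ∞ M] {e1 : OpenPartialHomeomorph M V}
    (h1 : e1 ∈ atlas V M) {y : V × EE 1} (hy : y.1 ∈ e1.target) (s : Sph 1)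
    {e : OpenPartialHomeomorph (M × Sph 1) (V × EE 1)}
    (he : ∀ y : V × EE 1, e.symm y = (e1.symm y.1, (stereographic' 1 s).symm y.2))
    (g : Flow.Tensor V M) (u w : V × EE 1) :
    gAt (ptens g) (e.symm y) (dsym e y u) (dsym e y w) =
    gAt g (e1.symm y.1) (dsym e1 y.1 u.1) (dsym e1 y.1 w.1) + rho y.2 ^ 2 * ⟪u.2, w.2⟫ := by
  have a1 := mfderiv_psymm h1 hy s he u
  have a2 := mfderiv_psymm h1 hy s he w
  have key : ∀ (x : M × Sph 1) (U W : V × EE 1),
      x = (e1.symm y.1, (stereographic' 1 s).symm y.2) →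
      U = (dsym e1 y.1 u.1,
        (mfderiv (𝓡 1) (𝓡 1) (stereographic' 1 s).symm y.2 u.2 : EE 1)) →
      W = (dsym e1 y.1 w.1,
        (mfderiv (𝓡 1) (𝓡 1) (stereographic' 1 s).symm y.2 w.2 : EE 1)) →
      gAt (ptens g) x U W = gAt g (e1.symm y.1) (dsym e1 y.1 u.1) (dsym e1 y.1 w.1) +
        rho y.2 ^ 2 * ⟪u.2, w.2⟫ := by
    rintro x U W rfl rfl rfl
    have b1 := (congrArg₂ (fun a b : EE 2 => ⟪a, b⟫) (dcirc_symm s y.2 u.2)
      (dcirc_symm s y.2 w.2)).trans (GeoM.inner_fderiv_par s y.2 u.2 w.2)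
    refine (congrArg (fun z => gAt g (e1.symm y.1) (dsym e1 y.1 u.1) (dsym e1 y.1 w.1) + z)
      b1)
  exact key _ _ _ (he y) a1 a2

/-- components of the product metric in a product chart -/
theorem comp_ptens [IsManifold 𝓘(ℝ, V) ∞ M] (v : Fin n → V) {e1 : OpenPartialHomeomorph M V}
    (h1 : e1 ∈ atlas V M) {y : V × EE 1} (hy : y.1 ∈ e1.target) (s : Sph 1)
    {e : OpenPartialHomeomorph (M × Sph 1) (V × EE 1)}
    (he : ∀ y : V × EE 1, e.symm y = (e1.symm y.1, (stereographic' 1 s).symm y.2))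
    (g : Flow.Tensor V M) : Flow.comp (pframe v) (ptens g) e y =
      Geo.blk (fun i j => Flow.comp v g e1 y.1 i j) (fun a b => rho y.2 ^ 2 * Geo.dl a b) := by
  ext I J
  rw [comp_eq_gAt, val_psymm h1 hy s he]
  refine Fin.addCases (fun i => ?_) (fun i => ?_) I <;>
  refine Fin.addCases (fun j => ?_) (fun j => ?_) J
  · rw [Geo.blk_ll, comp_eq_gAt]
    simp [pframe, Fin.addCases_left]
  · rw [Geo.blk_lr]
    simp only [pframe, Fin.addCases_left, Fin.addCases_right, inner_zero_left, mul_zero,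
      add_zero, map_zero]
  · rw [Geo.blk_rl]
    simp only [pframe, Fin.addCases_left, Fin.addCases_right, inner_zero_right, mul_zero,
      add_zero, map_zero]
    simp
  · rw [Geo.blk_rr]
    simp only [pframe, Fin.addCases_right, map_zero]
    obtain rfl : i = j := Subsingleton.elim _ _
    rw [GeoM.inner_e]
    simp [Geo.dl]


theorem chart_psymm (x : M × Sph 1) : ∃ s : Sph 1,
    (chartAt (V × EE 1) x).target = (chartAt V x.1).target ×ˢ univ ∧
    (∀ y : V × EE 1, (chartAt (V × EE 1) x).symm y =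
      ((chartAt V x.1).symm y.1, (stereographic' 1 s).symm y.2)) ∧
    ((chartAt (V × EE 1) x) x).1 = chartAt V x.1 x.1 := by
  refine ⟨-x.2, ?_, fun y => rfl, rfl⟩
  change (chartAt V x.1).target ×ˢ (stereographic' 1 (-x.2)).target = _
  simp

theorem exists_symm_eq' [IsManifold 𝓘(ℝ, V) ∞ M] (x : M) (w : V) :
    ∃ w' : V, dsym (chartAt V x) (chartAt V x x) w' = w := by
  have h0 : IsManifold 𝓘(ℝ, V) 1 M := IsManifold.of_le (n := ∞) (by simp)
  have h1 := (mdifferentiable_chart (I := 𝓘(ℝ, V)) x).symm_comp_deriv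
    (mem_chart_source V x)
  refine ⟨mfderiv 𝓘(ℝ, V) 𝓘(ℝ, V) (chartAt V x) x w, ?_⟩
  have h2 := congrArg (fun L => L w) h1
  exact h2

/-- positivity of the product metric -/
theorem ptens_pos [IsManifold 𝓘(ℝ, V) ∞ M] (g : Flow.Tensor V M)
    (hg : ∀ x w, w ≠ 0 → 0 < Flow.val g x w w) (x : M × Sph 1) (w : V × EE 1) (hw : w ≠ 0) :
    0 < gAt (ptens g) x w w := by
  have hm := pmanifold (V := V) (M := M)
  obtain ⟨w', rfl⟩ := exists_symm_eq' x w
  obtain ⟨s, ht, hs, hx⟩ := chart_psymm (V := V) x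
  have hmem : ((chartAt (V × EE 1) x) x).1 ∈ (chartAt V x.1).target := by
    rw [hx]; exact mem_chart_target V x.1
  have h1 := val_psymm (chart_mem_atlas V x.1) hmem s hs g w' w'
  have h2 := (chartAt (V × EE 1) x).left_inv (mem_chart_source (V × EE 1) x)
  rw [h2] at h1
  rw [h1]
  have hr : 0 < rho ((chartAt (V × EE 1) x) x).2 ^ 2 := by
    unfold rho; positivity
  have h3 : 0 ≤ ⟪w'.2, w'.2⟫ := real_inner_self_nonneg
  have h4 : ∀ z : V, z ≠ 0 → 0 < gAt g ((chartAt V x.1).symm ((chartAt (V × EE 1) x) x).1) z z :=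
    fun z hz => hg _ z hz
  have h5 : ∀ z : V, 0 ≤ gAt g ((chartAt V x.1).symm ((chartAt (V × EE 1) x) x).1) z z := by
    intro z
    rcases eq_or_ne z 0 with rfl | hz
    · simp
    · exact (h4 z hz).le
  by_cases h6 : w'.2 = 0
  · have h7 : dsym (chartAt V x.1) ((chartAt (V × EE 1) x) x).1 w'.1 ≠ 0 := by
      intro h8
      apply hw
      have h9 := mfderiv_psymm (chart_mem_atlas V x.1) hmem s hs w'
      have h10 : dsym (chartAt (V × EE 1) x) ((chartAt (V × EE 1) x) x) w' =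
        (dsym (chartAt V x.1) ((chartAt (V × EE 1) x) x).1 w'.1,
          (mfderiv (𝓡 1) (𝓡 1) (stereographic' 1 s).symm ((chartAt (V × EE 1) x) x).2 w'.2 : EE 1)) := h9
      rw [h10, h8, h6]
      exact Prod.ext rfl (map_zero _)
    have := h4 _ h7
    positivity
  · have h7 : 0 < ⟪w'.2, w'.2⟫ := by
      rw [real_inner_self_eq_norm_sq]; positivity
    have := h5 (dsym (chartAt V x.1) ((chartAt (V × EE 1) x) x).1 w'.1)
    positivity


theorem dsym_injective [IsManifold 𝓘(ℝ, V) ∞ M] {e : OpenPartialHomeomorph M V}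
    (he : e ∈ atlas V M) {y : V} (hy : y ∈ e.target) : Function.Injective (dsym e y) := by
  have h0 : IsManifold 𝓘(ℝ, V) 1 M := IsManifold.of_le (n := ∞) (by simp)
  have h1 := (mdifferentiable_of_mem_atlas (I := 𝓘(ℝ, V)) he).comp_symm_deriv hy
  intro a b hab
  have h2 : ∀ z : V, (show V →L[ℝ] V from mfderiv 𝓘(ℝ, V) 𝓘(ℝ, V) e (e.symm y))
      (dsym e y z) = z := fun z => congrArg (fun L : V →L[ℝ] V => L z) h1
  rw [← h2 a, ← h2 b, hab]

/-- the components of a metric form an invertible matrix -/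
theorem isUnit_comp [IsManifold 𝓘(ℝ, V) ∞ M] (v : Basis (Fin n) ℝ V) (g : Flow.Tensor V M)
    (hg : ∀ x w, w ≠ 0 → 0 < Flow.val g x w w) {e : OpenPartialHomeomorph M V}
    (he : e ∈ atlas V M) {y : V} (hy : y ∈ e.target) : IsUnit (Flow.comp v g e y).det := by
  rw [isUnit_iff_ne_zero]
  intro hdet
  obtain ⟨x, hx, hAx⟩ := Matrix.exists_mulVec_eq_zero_iff.mpr hdet
  set z : V := ∑ i, x i • v i with hz
  have h1 : gAt g (e.symm y) (dsym e y z) (dsym e y z) = 0 := by
    have h2 : gAt g (e.symm y) (dsym e y z) (dsym e y z) =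
        ∑ i, x i * (Matrix.mulVec (Flow.comp v g e y) x i) := by
      rw [hz]
      simp only [map_sum, map_smul, sum_apply, smul_apply,
        smul_eq_mul, Matrix.mulVec, dotProduct, comp_eq_gAt, Finset.mul_sum]
      rw [Finset.sum_comm]
      refine Finset.sum_congr rfl (fun i _ => Finset.sum_congr rfl (fun j _ => ?_))
      ring
    rw [h2, hAx]
    simp
  have h3 : z ≠ 0 := by
    intro h4
    apply hx
    have h5 := (Fintype.linearIndependent_iff.mp v.linearIndependent) x h4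
    funext i
    exact h5 i
  have h4 : dsym e y z ≠ 0 := by
    intro h5
    exact h3 (dsym_injective he hy (by rw [h5, map_zero]))
  have h5 : 0 < gAt g (e.symm y) (dsym e y z) (dsym e y z) := hg _ _ h4
  rw [h1] at h5
  exact lt_irrefl _ h5

/-- the basis of the product -/
noncomputable def pbasis (v : Basis (Fin n) ℝ V) : Basis (Fin (n + 1)) ℝ (V × EE 1) :=
  (v.prod (EuclideanSpace.basisFun (Fin 1) ℝ).toBasis).reindex finSumFinEquiv

theorem pbasis_eq (v : Basis (Fin n) ℝ V) : (pbasis v : Fin (n + 1) → V × EE 1) = pframe v := by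
  funext I
  refine Fin.addCases (fun i => ?_) (fun i => ?_) I
  · simp [pbasis, pframe]
  · simp [pbasis, pframe]


/-! ### product flow -/

theorem slice_smooth {T : ℝ} {g : ℝ → Flow.Tensor V M} {v : Fin n → V}
    (h : Flow.IsRicciFlow v g T) {e : OpenPartialHomeomorph M V} (he : e ∈ atlas V M) {t : ℝ}
    (ht : t ∈ Ico 0 T) (i j : Fin n) :
    ContDiffOn ℝ ∞ (fun y => Flow.comp v (g t) e y i j) e.target := by
  have h1 := h.smooth e he i j
  have h2 : ContDiffOn ℝ ∞ (fun y : V => ((t, y) : ℝ × V)) e.target :=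
    contDiffOn_const.prodMk contDiffOn_id
  exact h1.comp h2 (fun y hy => ⟨ht, hy⟩)

theorem comp_event [IsManifold 𝓘(ℝ, V) ∞ M] (v : Fin n → V) {e1 : OpenPartialHomeomorph M V}
    (h1 : e1 ∈ atlas V M) {y : V × EE 1} (hy : y.1 ∈ e1.target) (s : Sph 1)
    {e : OpenPartialHomeomorph (M × Sph 1) (V × EE 1)}
    (he : ∀ y : V × EE 1, e.symm y = (e1.symm y.1, (stereographic' 1 s).symm y.2))
    (g : Flow.Tensor V M) :
    Flow.comp (pframe v) (ptens g) e =ᶠ[𝓝 y] pmet (Flow.comp v g e1) := by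
  have h2 : e1.target ×ˢ (univ : Set (EE 1)) ∈ 𝓝 y :=
    (e1.open_target.prod isOpen_univ).mem_nhds ⟨hy, trivial⟩
  filter_upwards [h2] with z hz
  exact comp_ptens v h1 hz.1 s he g

theorem pflow [IsManifold 𝓘(ℝ, V) ∞ M] (v : Basis (Fin n) ℝ V) {g : ℝ → Flow.Tensor V M} {T : ℝ}
    (h : Flow.IsRicciFlow v g T) :
    Flow.IsRicciFlow (pframe v) (fun t => ptens (g t)) T where
  symm t ht x u w := by
    have key : ∀ u w : V × EE 1, gAt (ptens (g t)) x u w = gAt (ptens (g t)) x w u := by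
      intro u w
      have h1 : gAt (g t) x.1 u.1 w.1 = gAt (g t) x.1 w.1 u.1 := h.symm t ht x.1 u.1 w.1
      have h2 := real_inner_comm (dcirc x.2 w.2) (dcirc x.2 u.2)
      exact congrArg₂ (fun a b : ℝ => a + b) h1 h2
    exact key u w
  pos t ht x w hw := ptens_pos (g t) (h.pos t ht) x w hw
  smooth e he I J := by
    obtain ⟨e1, h1, s, ht, hs⟩ := mem_patlas he
    have key : ∀ z ∈ Ico 0 T ×ˢ e.target, Flow.comp (pframe v) (ptens (g z.1)) e z.2 I J =
        Geo.blk (fun i j => Flow.comp v (g z.1) e1 z.2.1 i j)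
          (fun a b => rho z.2.2 ^ 2 * Geo.dl a b) I J := by
      intro z hz
      rw [ht] at hz
      rw [comp_ptens (v : Fin n → V) h1 hz.2.1 s hs (g z.1)]
    refine ContDiffOn.congr ?_ key
    rw [ht]
    refine Fin.addCases (fun i => ?_) (fun i => ?_) I <;>
    refine Fin.addCases (fun j => ?_) (fun j => ?_) J
    · simp only [Geo.blk_ll]
      have h2 := h.smooth e1 h1 i j
      have h3 : ContDiffOn ℝ ∞ (fun z : ℝ × (V × EE 1) => ((z.1, z.2.1) : ℝ × V))
          (Ico 0 T ×ˢ (e1.target ×ˢ univ)) := by fun_prop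
      exact h2.comp h3 (fun z hz => ⟨hz.1, hz.2.1⟩)
    · simp only [Geo.blk_lr]; exact contDiffOn_const
    · simp only [Geo.blk_rl]; exact contDiffOn_const
    · simp only [Geo.blk_rr]
      have h4 : ContDiff ℝ ∞ (fun z : ℝ × (V × EE 1) => rho z.2.2 ^ 2 * Geo.dl i j) := by
        unfold rho
        refine ContDiff.mul (ContDiff.pow (ContDiff.div contDiff_const ?_ ?_) 2) contDiff_const
        · exact ((contDiff_norm_sq ℝ).comp (contDiff_snd.comp contDiff_snd)).add contDiff_const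
        · intro z; positivity
      exact h4.contDiffOn
  flow e he y hy I J t ht := by
    obtain ⟨e1, h1, s, htg, hs⟩ := mem_patlas he
    rw [htg] at hy
    have key : ∀ r, Flow.comp (pframe v) (ptens (g r)) e y I J =
        Geo.blk (fun i j => Flow.comp v (g r) e1 y.1 i j)
          (fun a b => rho y.2 ^ 2 * Geo.dl a b) I J := by
      intro r
      rw [comp_ptens (v : Fin n → V) h1 hy.1 s hs (g r)]
    have hric : Flow.ricci (pframe v) (Flow.comp (pframe v) (ptens (g t)) e) I J y =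
        Geo.blk (fun i j => Flow.ricci v (Flow.comp v (g t) e1) i j y.1) (fun _ _ => 0) I J := by
      rw [ricci_congr (pframe v) (comp_event (v : Fin n → V) h1 hy.1 s hs (g t))]
      exact ricci_pmet e1.open_target (slice_smooth h h1 ht)
        (fun z hz => isUnit_comp v (g t) (h.pos t ht) h1 hz) hy.1 I J
    simp only [key]
    rw [hric]
    refine Fin.addCases (fun i => ?_) (fun i => ?_) I <;>
    refine Fin.addCases (fun j => ?_) (fun j => ?_) J
    · simp only [Geo.blk_ll]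
      exact h.flow e1 h1 y.1 hy.1 i j t ht
    · simp only [Geo.blk_lr, mul_zero]; exact hasDerivWithinAt_const _ _ _
    · simp only [Geo.blk_rl, mul_zero]; exact hasDerivWithinAt_const _ _ _
    · simp only [Geo.blk_rr, mul_zero]; exact hasDerivWithinAt_const _ _ _

theorem pscal [IsManifold 𝓘(ℝ, V) ∞ M] (v : Basis (Fin n) ℝ V) {g : ℝ → Flow.Tensor V M} {T : ℝ}
    (h : Flow.IsRicciFlow v g T) {t : ℝ} (ht : t ∈ Ico 0 T) (x : M × Sph 1) :
    Flow.scalarCurvature (pframe v) (ptens (g t)) x = Flow.scalarCurvature v (g t) x.1 := by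
  obtain ⟨s, htg, hs, hx⟩ := chart_psymm (V := V) x
  have hmem : ((chartAt (V × EE 1) x) x).1 ∈ (chartAt V x.1).target := by
    rw [hx]; exact mem_chart_target V x.1
  have h1 := comp_event (v : Fin n → V) (chart_mem_atlas V x.1) hmem s hs (g t)
  have h2 := scal_pmet (v := v) (chartAt V x.1).open_target (slice_smooth h (chart_mem_atlas V x.1) ht)
        (fun z hz => isUnit_comp v (g t) (h.pos t ht) (chart_mem_atlas V x.1) hz) hmem
  unfold Flow.scalarCurvature
  rw [h1.eq_of_nhds]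
  simp only [ricci_congr (pframe v) h1]
  rw [h2, hx]


/-- If a component of the metric has infimum `0` the flow does not extend. -/
theorem not_extends_of_degenerate [IsManifold 𝓘(ℝ, V) ∞ M] (v : Basis (Fin n) ℝ V)
    {g : ℝ → Flow.Tensor V M} {T : ℝ} (hT : 0 < T)
    (hd : ∃ e ∈ atlas V M, ∃ y ∈ e.target, ∃ i : Fin n, ∀ δ > 0, ∃ t ∈ Ico 0 T,
      Flow.comp v (g t) e y i i < δ) : ¬ Flow.ExtendsPast v g T := by
  rintro ⟨ε, hε, g', hg', hext⟩
  obtain ⟨e, he, y, hy, i, hd⟩ := hd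
  have hcont : ContinuousOn (fun t : ℝ => Flow.comp v (g' t) e y i i) (Icc 0 T) := by
    have h1 := (hg'.smooth e he i i).continuousOn
    have h2 : ContinuousOn (fun t : ℝ => (t, y)) (Icc 0 T) := by fun_prop
    refine h1.comp h2 ?_
    intro t ht'
    exact ⟨⟨ht'.1, by have := ht'.2; linarith only [hε, this]⟩, hy⟩
  have hpos : ∀ t ∈ Icc 0 T, 0 < Flow.comp v (g' t) e y i i := by
    intro t ht'
    refine hg'.pos t ⟨ht'.1, by have := ht'.2; linarith⟩ _ _ ?_
    intro h0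
    have h1 : dsym e y (v i) = dsym e y 0 := Eq.trans h0 (map_zero _).symm
    exact v.ne_zero i (dsym_injective he hy h1)
  obtain ⟨t0, ht0, hmin⟩ := (isCompact_Icc (a := (0 : ℝ)) (b := T)).exists_isMinOn
    (nonempty_Icc.mpr hT.le) hcont
  obtain ⟨t, ht', hlt⟩ := hd _ (hpos t0 ht0)
  have h1 : Flow.comp v (g' t0) e y i i ≤ Flow.comp v (g' t) e y i i :=
    hmin (show t ∈ Icc 0 T from ⟨ht'.1, ht'.2.le⟩)
  rw [hext t ht'] at h1
  exact absurd h1 (not_le.mpr hlt)

end Vale.Agent.P244.GeoP
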