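import Vale.Agent.P244.GeoMain
import Vale.Agent.P244.GeoProdM

open scoped Manifold ContDiff RealInnerProductSpace Topology
open Set Metric Module

namespace Vale.Agent.P244.GeoP

open Vale.Agent.P244.Geo (EE rho hh frame)
open Vale.Agent.P244.GeoM
open Vale.Agent.P244.ST

attribute [local instance] factFin

/-- a component of the metric has infimum `0` -/
def Degen {V : Type} [NormedAddCommGroup V] [NormedSpace ℝ V] {n : ℕ} (v : Fin n → V)
    {M : Type} [TopologicalSpace M] [ChartedSpace V M] (g : ℝ → Flow.Tensor V M) (T : ℝ) : Prop :=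
  ∃ e ∈ atlas V M, ∃ y ∈ e.target, ∃ i : Fin n, ∀ δ > 0, ∃ t ∈ Ico 0 T,
      Flow.comp v (g t) e y i i < δ

/-- a bad flow in dimension `n` -/
def Bad (n : ℕ) : Prop :=
  ∃ (V : Type) (_ : NormedAddCommGroup V) (_ : NormedSpace ℝ V) (v : Basis (Fin n) ℝ V)
    (M : Type) (_ : TopologicalSpace M) (_ : ChartedSpace V M) (_ : IsManifold 𝓘(ℝ, V) ∞ M)
    (_ : T2Space M) (_ : CompactSpace M) (_ : ConnectedSpace M) (g : ℝ → Flow.Tensor V M) (T : ℝ),
    0 < T ∧ Flow.IsRicciFlow v g T ∧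
    (∃ C : ℝ, ∀ t ∈ Ico 0 T, ∀ x, |Flow.scalarCurvature v (g t) x| ≤ C) ∧ Degen v g T

theorem connected_sph (m : ℕ) (hm : 0 < m) : ConnectedSpace (Sph m) := by
  rw [← isConnected_iff_connectedSpace]
  refine isConnected_sphere ?_ 0 zero_le_one
  rw [← Module.finrank_eq_rank, finrank_euclideanSpace_fin]
  exact_mod_cast (by omega : 1 < m + 1)

theorem bad_succ {n : ℕ} (h : Bad n) : Bad (n + 1) := by
  obtain ⟨V, i1, i2, v, M, i3, i4, i5, i6, i7, i8, g, T, hT, hg, ⟨C, hC⟩, hd⟩ := h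
  have hc : ConnectedSpace (Sph 1) := connected_sph 1 one_pos
  refine ⟨V × EE 1, inferInstance, inferInstance, pbasis v, M × Sph 1, inferInstance,
    pcharted V M, pmanifold, inferInstance, inferInstance, inferInstance, fun t => ptens (g t), T,
    hT, ?_, ⟨C, fun t ht x => ?_⟩, ?_⟩
  · rw [pbasis_eq]; exact pflow v hg
  · rw [pbasis_eq, pscal v hg ht x]
    exact hC t ht x.1
  · obtain ⟨e1, he1, y, hy, i, hd⟩ := hd
    rw [pbasis_eq]
    have s : Sph 1 := ⟨EuclideanSpace.single 0 1, by simp⟩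
    refine ⟨e1.prod (stereographic' 1 s), ⟨e1, he1, stereographic' 1 s, ⟨s, rfl⟩, rfl⟩,
      (y, 0), ⟨hy, by simp⟩, Fin.castAdd 1 i, fun δ hδ => ?_⟩
    obtain ⟨t, ht, hlt⟩ := hd δ hδ
    refine ⟨t, ht, ?_⟩
    rw [comp_ptens (v : Fin n → V) he1 (y := (y, 0)) hy s (fun z => rfl) (g t), Geo.blk_ll]
    exact hlt

theorem bad_add {n : ℕ} (h : Bad n) (k : ℕ) : Bad (n + k) := by
  induction k with
  | zero => exact h
  | succ k ih => exact bad_succ ih

theorem degen_tens {m p : ℕ} (hp : 0 < p) {T : ℝ} (A B C : ℝ → ℝ → ℝ)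
    (hC : ∀ δ > 0, ∃ t ∈ Ico 0 T, C t 1 < δ) :
    Degen (frame m p) (fun t => tens m p (A t) (B t) (C t)) T := by
  let x0 : Mfd m p := (⟨EuclideanSpace.single (Fin.last m) (1 : ℝ), by simp⟩,
    ⟨EuclideanSpace.single (Fin.last p) (1 : ℝ), by simp⟩)
  set e := chartAt (EE m × EE p) x0 with he
  have hatl : e ∈ atlas (EE m × EE p) (Mfd m p) := chart_mem_atlas _ x0
  obtain ⟨b, c, hbc, ht, hh1, hcomp⟩ := comp_tens hatl
  set y0 := e x0 with hy0
  have hx0 : e.symm y0 = x0 := e.left_inv (mem_chart_source (EE m × EE p) x0)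
  have hheight : hh b c y0.1 = 1 := by
    rw [← hh1, hx0]
    simp [height, pos1, x0]
  set i0 : Fin (m + p) := Fin.natAdd m ⟨0, hp⟩ with hi0
  have hfr : frame m p i0 = (0, EuclideanSpace.single ⟨0, hp⟩ 1) := by
    rw [frame, hi0, Fin.addCases_right]
  have hval : ∀ t, Flow.comp (frame m p) (tens m p (A t) (B t) (C t)) e y0 i0 i0 =
      C t 1 * (rho y0.2 ^ 2 * 1) := by
    intro t
    rw [hcomp, hfr]
    unfold chartForm
    rw [hheight]
    simp
  have hr : 0 < rho y0.2 ^ 2 := by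
    have := normSq_pos y0.2
    unfold rho; positivity
  refine ⟨e, hatl, y0, by rw [ht]; trivial, i0, fun δ hδ => ?_⟩
  obtain ⟨t, ht', hlt⟩ := hC (δ / rho y0.2 ^ 2) (div_pos hδ hr)
  refine ⟨t, ht', ?_⟩
  rw [hval]
  rw [lt_div_iff₀ hr] at hlt
  linarith only [hlt]

/-- the standard basis of `ℝ^m × ℝ^p` -/
noncomputable def fbasis (m p : ℕ) : Basis (Fin (m + p)) ℝ (EE m × EE p) :=
  ((EuclideanSpace.basisFun (Fin m) ℝ).toBasis.prod
    (EuclideanSpace.basisFun (Fin p) ℝ).toBasis).reindex finSumFinEquiv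

theorem fbasis_eq (m p : ℕ) : (fbasis m p : Fin (m + p) → EE m × EE p) = frame m p := by
  funext I
  refine Fin.addCases (fun i => ?_) (fun i => ?_) I
  · simp [fbasis, frame]
  · simp [fbasis, frame]

theorem bad_of_confSol {T : ℝ} (hT : 0 < T) {p : ℕ} (hp : 0 < p) {w f : ℝ → ℝ → ℝ}
    (S : ConfSol p w f T) {C : ℝ}
    (hscal : ∀ t ∈ Ico 0 T, ∀ x ∈ Icc (-1 : ℝ) 1, |scal p (w t) (f t) x| ≤ C)
    (htip : ∀ A : ℝ, ∃ t ∈ Ico 0 T, f t 1 < A) : Bad (p + 1 + p) := by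
  obtain ⟨η, H⟩ := exists_flo hT (sm_Jt (p := p) (S.smooth_w : Sm T w) (S.smooth_f : Sm T f))
  have hc1 : ConnectedSpace (Sph (p + 1)) := connected_sph _ (by omega)
  have hc2 : ConnectedSpace (Sph p) := connected_sph _ hp
  refine ⟨EE (p + 1) × EE p, inferInstance, inferInstance, fbasis (p + 1) p, Mfd (p + 1) p,
    inferInstance, instCharted (p + 1) p, instIsManifold (p + 1) p, inferInstance, inferInstance,
    inferInstance,
    fun t => tens (p + 1) p (AA w (Jt p w f) η t) (BB w (Jt p w f) η t) (CC f η t), T, hT,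
    ?_, ⟨C, ?_⟩, ?_⟩
  · rw [fbasis_eq]; exact H.isRicciFlow S
  · intro t ht x
    rw [fbasis_eq]
    simp only
    rw [H.scalarCurvature_eq S ht x]
    refine closure_bound (H.cont_scalP S ht) (fun h hh => ?_) _ (Flo.height_mem H S x)
    rw [H.scal_eq S ht hh]
    exact hscal t ht _ (H.mem t ht h (Ioo_subset_Icc_self hh))
  · rw [fbasis_eq]
    refine degen_tens hp (fun t => AA w (Jt p w f) η t) (fun t => BB w (Jt p w f) η t)
      (fun t => CC f η t) ?_
    intro δ hδ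
    obtain ⟨t, ht, hlt⟩ := htip (Real.log δ / 2)
    refine ⟨t, ht, ?_⟩
    rw [CC, H.eta_one S ht, ← Real.lt_log_iff_exp_lt hδ]
    linarith only [hlt]

end Vale.Agent.P244.GeoP
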