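import Vale.Agent.P244.GeoMan
import Vale.Agent.P244.GeoComp

set_option linter.all false

/-! # P244: the Ricci flow of doubly warped metrics on `S^m × S^p` -/

open scoped Manifold ContDiff RealInnerProductSpace
open Set Metric Module

namespace Vale.Agent.P244.GeoM

open Vale.Agent.P244.Geo

theorem comp_eq_G {m p : ℕ} {e : OpenPartialHomeomorph (Mfd m p) (EE m × EE p)}
    (he : e ∈ atlas (EE m × EE p) (Mfd m p)) : ∃ (b : EE m) (c : ℝ), ‖b‖ ^ 2 + c ^ 2 = 1 ∧
      e.target = univ ∧ (∀ y, height (e.symm y) = hh b c y.1) ∧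
      ∀ (A B C : ℝ → ℝ), Flow.comp (frame m p) (tens m p A B C) e = G m p b c A B C := by
  obtain ⟨b, c, hb, ht, hh1, hcomp⟩ := comp_tens he
  refine ⟨b, c, hb, ht, hh1, fun A B C => ?_⟩
  funext y
  ext I J
  rw [hcomp]
  unfold chartForm G
  have e0 : ∀ {n : ℕ} (i j : Fin n), ⟪EuclideanSpace.single i (1 : ℝ), EuclideanSpace.single j (1 : ℝ)⟫ =
      dl i j := by
    intro n i j
    rw [inner_e]
    simp [dl, Pi.single_apply]
  refine Fin.addCases (fun i => ?_) (fun i => ?_) I <;>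
  refine Fin.addCases (fun j => ?_) (fun j => ?_) J
  · rw [frame_left, frame_left, blk_ll]
    simp only [e0, (HD_hh b c y.1).2, inner_zero_left]
    ring
  · rw [frame_left, frame_right, blk_lr]
    simp only [inner_zero_left, inner_zero_right, map_zero]
    ring
  · rw [frame_left, frame_right, blk_rl]
    simp only [inner_zero_left, inner_zero_right, map_zero]
    ring
  · rw [frame_right, frame_right, blk_rr]
    simp only [e0, inner_zero_left, map_zero]
    ring

theorem isRicciFlow_tens {m p : ℕ} {T : ℝ} (P : ℝ → Prof) (hP : ∀ t ∈ Ico 0 T, (P t).Good)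
    (hA : ContDiffOn ℝ ∞ (fun z : ℝ × ℝ => (P z.1).A z.2) (Ico 0 T ×ˢ Icc (-1) 1))
    (hB : ContDiffOn ℝ ∞ (fun z : ℝ × ℝ => (P z.1).B z.2) (Ico 0 T ×ˢ Icc (-1) 1))
    (hC : ContDiffOn ℝ ∞ (fun z : ℝ × ℝ => (P z.1).C z.2) (Ico 0 T ×ˢ Icc (-1) 1))
    (eA : ∀ t ∈ Ico 0 T, ∀ x ∈ Icc (-1 : ℝ) 1,
      HasDerivWithinAt (fun s => (P s).A x) (-2 * (P t).F1 m p x) (Ico 0 T) t)
    (eB : ∀ t ∈ Ico 0 T, ∀ x ∈ Icc (-1 : ℝ) 1,
      HasDerivWithinAt (fun s => (P s).B x) (-2 * (P t).F2 m p x) (Ico 0 T) t)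
    (eC : ∀ t ∈ Ico 0 T, ∀ x ∈ Icc (-1 : ℝ) 1,
      HasDerivWithinAt (fun s => (P s).C x) (-2 * (P t).F3 m p x) (Ico 0 T) t) :
    Flow.IsRicciFlow (frame m p) (fun t => tens m p (P t).A (P t).B (P t).C) T where
  symm t ht x u w := tens_symm _ _ _ x u w
  pos t ht x w hw := tens_pos _ _ _ (hP t ht).posA (hP t ht).posAB (hP t ht).posC x w hw
  smooth e he i j := by
    obtain ⟨b, c, hb, ht, -, hcomp⟩ := comp_eq_G he
    simp only [hcomp, ht]
    exact G_contDiffOn (A := fun t => (P t).A) (B := fun t => (P t).B) (C := fun t => (P t).C)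
      hb hA hB hC i j
  flow e he y hy i j t ht := by
    obtain ⟨b, c, hb, ht', -, hcomp⟩ := comp_eq_G he
    simp only [hcomp]
    exact G_flow (A := fun t => (P t).A) (B := fun t => (P t).B) (C := fun t => (P t).C)
      hb (hP t ht) rfl rfl rfl (eA t ht) (eB t ht) (eC t ht) i j y

theorem scalarCurvature_tens {m p : ℕ} {P : Prof} (hP : P.Good) (x : Mfd m p) :
    Flow.scalarCurvature (frame m p) (tens m p P.A P.B P.C) x =
      (m - 1) * (P.F1 m p (height x) / P.A (height x)) +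
      (P.F1 m p (height x) + P.F2 m p (height x) * (1 - height x ^ 2)) /
        (P.A (height x) + P.B (height x) * (1 - height x ^ 2)) +
      p * (P.F3 m p (height x) / P.C (height x)) := by
  obtain ⟨b, c, hb, ht, hh1, hcomp⟩ := comp_eq_G (chart_mem_atlas (EE m × EE p) x)
  unfold Flow.scalarCurvature
  rw [hcomp]
  have h1 : hh b c ((chartAt (EE m × EE p) x) x).1 = height x := by
    rw [← hh1, (chartAt (EE m × EE p) x).left_inv (mem_chart_source (EE m × EE p) x)]
  rw [scal_G hP hb, h1]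

end Vale.Agent.P244.GeoM
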