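import Vale.Agent.P244.GeoEvo2
import Vale.Agent.P244.GeoFlow

open Set
open scoped ContDiff

set_option linter.unusedSectionVars false

namespace Vale.Agent.P244.GeoM

open Vale.Agent.P244.Geo (strip Prof frame)
open Vale.Agent.P244.ST

theorem closure_eqOn {f g : ℝ → ℝ} (hf : ContinuousOn f (Icc (-1) 1))
    (hg : ContinuousOn g (Icc (-1) 1)) (h : ∀ x ∈ Ioo (-1 : ℝ) 1, f x = g x) :
    ∀ x ∈ Icc (-1 : ℝ) 1, f x = g x := by
  have h1 : EqOn f g (Ioo (-1 : ℝ) 1) := h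
  exact h1.of_subset_closure hf hg Ioo_subset_Icc_self (by rw [closure_Ioo (by norm_num)])

theorem closure_bound {f : ℝ → ℝ} {C : ℝ} (hf : ContinuousOn f (Icc (-1) 1))
    (h : ∀ x ∈ Ioo (-1 : ℝ) 1, |f x| ≤ C) : ∀ x ∈ Icc (-1 : ℝ) 1, |f x| ≤ C := by
  have h1 : MapsTo f (Ioo (-1 : ℝ) 1) (Icc (-C) C) := fun x hx => abs_le.mp (h x hx)
  have h2 := h1.closure_of_continuousOn (by rw [closure_Ioo (by norm_num)]; exact hf)
  rw [closure_Ioo (by norm_num), isClosed_Icc.closure_eq] at h2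
  exact fun x hx => abs_le.mpr (h2 hx)

section contF

variable {P : Prof} (hP : P.Good) (hA2 : ContinuousOn P.A2 (Icc (-1) 1))
  (hC2 : ContinuousOn P.C2 (Icc (-1) 1)) (m p : ℕ)
include hP hA2 hC2

theorem cont_all : ContinuousOn (P.F1 m p) (Icc (-1) 1) ∧ ContinuousOn (P.F2 m p) (Icc (-1) 1) ∧
    ContinuousOn (P.F3 m p) (Icc (-1) 1) := by
  have cA : ContinuousOn P.A (Icc (-1) 1) := fun x hx => (hP.hA x hx).continuousWithinAt
  have cA1 : ContinuousOn P.A1 (Icc (-1) 1) := fun x hx => (hP.hA1 x hx).continuousWithinAt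
  have cB : ContinuousOn P.B (Icc (-1) 1) := fun x hx => (hP.hB x hx).continuousWithinAt
  have cB1 : ContinuousOn P.B1 (Icc (-1) 1) := fun x hx => (hP.hB1 x hx).continuousWithinAt
  have cC : ContinuousOn P.C (Icc (-1) 1) := fun x hx => (hP.hC x hx).continuousWithinAt
  have cC1 : ContinuousOn P.C1 (Icc (-1) 1) := fun x hx => (hP.hC1 x hx).continuousWithinAt
  have cD : ContinuousOn P.D (Icc (-1) 1) :=
    ContinuousOn.inv₀ (by fun_prop) (fun x hx => (hP.posAB x hx).ne')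
  have cD1 : ContinuousOn P.D1 (Icc (-1) 1) := by
    unfold Prof.D1; fun_prop
  have n2A : ∀ x ∈ Icc (-1 : ℝ) 1, 2 * P.A x ≠ 0 := fun x hx =>
    (mul_pos two_pos (hP.posA x hx)).ne'
  have n2A' : ∀ x ∈ Icc (-1 : ℝ) 1, 2 * P.A x ^ 2 ≠ 0 := fun x hx =>
    (mul_pos two_pos (pow_pos (hP.posA x hx) 2)).ne'
  have n2C : ∀ x ∈ Icc (-1 : ℝ) 1, 2 * P.C x ≠ 0 := fun x hx =>
    (mul_pos two_pos (hP.posC x hx)).ne'
  have n2C' : ∀ x ∈ Icc (-1 : ℝ) 1, 2 * P.C x ^ 2 ≠ 0 := fun x hx =>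
    (mul_pos two_pos (pow_pos (hP.posC x hx) 2)).ne'
  have cal : ContinuousOn P.al (Icc (-1) 1) := cA1.div (by fun_prop) n2A
  have cal1 : ContinuousOn P.al1 (Icc (-1) 1) :=
    (hA2.div (by fun_prop) n2A).sub ((cA1.pow 2).div (by fun_prop) n2A')
  have cga : ContinuousOn P.ga (Icc (-1) 1) := by
    unfold Prof.ga; fun_prop
  have cga1 : ContinuousOn P.ga1 (Icc (-1) 1) := by
    unfold Prof.ga1; fun_prop
  have cbe : ContinuousOn P.be (Icc (-1) 1) := by
    unfold Prof.be; fun_prop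
  have cka : ContinuousOn P.ka (Icc (-1) 1) := cC1.div (by fun_prop) n2C
  have cka1 : ContinuousOn P.ka1 (Icc (-1) 1) :=
    (hC2.div (by fun_prop) n2C).sub ((cC1.pow 2).div (by fun_prop) n2C')
  have cla : ContinuousOn P.la (Icc (-1) 1) := by
    unfold Prof.la; fun_prop
  have cla1 : ContinuousOn P.la1 (Icc (-1) 1) := by
    unfold Prof.la1; fun_prop
  have cT : ContinuousOn (P.T m p) (Icc (-1) 1) := by
    unfold Prof.T; fun_prop
  refine ⟨?_, ?_, ?_⟩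
  · unfold Prof.F1; fun_prop
  · unfold Prof.F2; fun_prop
  · unfold Prof.F3; fun_prop

end contF

variable {T : ℝ} {p : ℕ} {w f η : ℝ → ℝ → ℝ}

/-- the scalar curvature of the profile -/
noncomputable def scalP (P : Prof) (m p : ℕ) (x : ℝ) : ℝ :=
  (m - 1) * (P.F1 m p x / P.A x) +
      (P.F1 m p x + P.F2 m p x * (1 - x ^ 2)) / (P.A x + P.B x * (1 - x ^ 2)) +
      p * (P.F3 m p x / P.C x)

namespace Flo

variable (H : Flo T (Jt p w f) η) (S : ConfSol p w f T)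
include H S

theorem cont_F {t : ℝ} (ht : t ∈ Ico 0 T) :
    ContinuousOn ((prof w f (Jt p w f) η t).F1 (p + 1) p) (Icc (-1) 1) ∧
    ContinuousOn ((prof w f (Jt p w f) η t).F2 (p + 1) p) (Icc (-1) 1) ∧
    ContinuousOn ((prof w f (Jt p w f) η t).F3 (p + 1) p) (Icc (-1) 1) :=
  cont_all (H.good S.smooth_w S.smooth_f ht) ((H.sm_AA S.smooth_w).dx.dx.contx ht)
    ((H.sm_CC S.smooth_f).dx.dx.contx ht) _ _

theorem evoA' {t h : ℝ} (ht : t ∈ Ico 0 T) (hh : h ∈ Icc (-1 : ℝ) 1) :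
    HasDerivWithinAt (fun s => AA w (Jt p w f) η s h)
      (-2 * (prof w f (Jt p w f) η t).F1 (p + 1) p h) (Ico 0 T) t := by
  have hs := H.sm_AA (w := w) S.smooth_w
  have h1 := closure_eqOn (hs.dt.contx ht)
    ((continuousOn_const (c := (-2 : ℝ))).mul (H.cont_F S ht).1) (fun x hx =>
      (H.evoA S ht hx).derivWithin (uniqueDiffOn_Ico 0 T t ht)) h hh
  have h2 := hs.hasDt ht hh
  rw [h1] at h2
  exact h2

theorem evoB' {t h : ℝ} (ht : t ∈ Ico 0 T) (hh : h ∈ Icc (-1 : ℝ) 1) :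
    HasDerivWithinAt (fun s => BB w (Jt p w f) η s h)
      (-2 * (prof w f (Jt p w f) η t).F2 (p + 1) p h) (Ico 0 T) t := by
  have hs := H.sm_BB (w := w) S.smooth_w
  have h1 := closure_eqOn (hs.dt.contx ht)
    ((continuousOn_const (c := (-2 : ℝ))).mul (H.cont_F S ht).2.1) (fun x hx =>
      (H.evoB S ht hx).derivWithin (uniqueDiffOn_Ico 0 T t ht)) h hh
  have h2 := hs.hasDt ht hh
  rw [h1] at h2
  exact h2

theorem evoC' {t h : ℝ} (ht : t ∈ Ico 0 T) (hh : h ∈ Icc (-1 : ℝ) 1) :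
    HasDerivWithinAt (fun s => CC f η s h)
      (-2 * (prof w f (Jt p w f) η t).F3 (p + 1) p h) (Ico 0 T) t := by
  have hs := H.sm_CC (f := f) S.smooth_f
  have h1 := closure_eqOn (hs.dt.contx ht)
    ((continuousOn_const (c := (-2 : ℝ))).mul (H.cont_F S ht).2.2) (fun x hx =>
      (H.evoC S ht hx).derivWithin (uniqueDiffOn_Ico 0 T t ht)) h hh
  have h2 := hs.hasDt ht hh
  rw [h1] at h2
  exact h2

/-- the literal metrics -/
theorem isRicciFlow : Flow.IsRicciFlow (frame (p + 1) p)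
    (fun t => tens (p + 1) p (AA w (Jt p w f) η t) (BB w (Jt p w f) η t) (CC f η t)) T :=
  isRicciFlow_tens (prof w f (Jt p w f) η) (fun _ ht => H.good S.smooth_w S.smooth_f ht)
    (H.sm_AA S.smooth_w) (H.sm_BB S.smooth_w) (H.sm_CC S.smooth_f)
    (fun _ ht _ hx => H.evoA' S ht hx) (fun _ ht _ hx => H.evoB' S ht hx)
    (fun _ ht _ hx => H.evoC' S ht hx)

theorem scal_eq {t h : ℝ} (ht : t ∈ Ico 0 T) (hh : h ∈ Ioo (-1 : ℝ) 1) :
    scalP (prof w f (Jt p w f) η t) (p + 1) p h = scal p (w t) (f t) (η t h) := by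
  have hw : Sm T w := S.smooth_w
  have hf : Sm T f := S.smooth_f
  have hh' := Ioo_subset_Icc_self hh
  have hq := q_ne hh
  have hm := H.mem_Ioo ht hh
  have hqx := q_ne hm
  have hP : (prof w f (Jt p w f) η t).Good := H.good hw hf ht
  have hA := (hP.posA h hh').ne'
  have hAB := (hP.posAB h hh').ne'
  have hC := (hP.posC h hh').ne'
  have hE := (Real.exp_pos (2 * w t (η t h))).ne'
  have hK := (Real.exp_pos (2 * f t (η t h))).ne'
  have he1 := (H.dx_pos ht hh').ne'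
  have a1 := F1_eq (prof w f (Jt p w f) η t) (p + 1) p hq hA hAB hC
  have a2 := F2_eq (prof w f (Jt p w f) η t) (p + 1) p hq hA hAB hC
  have a3 := F3_eq (prof w f (Jt p w f) η t) (p + 1) p hq hA hAB hC
  have b1 := a1.trans ((H.spat hw hf ht).RU_eq ((p + 1 : ℕ) : ℝ) p hh)
  have b2 := a2.trans ((H.spat hw hf ht).RV_eq ((p + 1 : ℕ) : ℝ) p hh)
  have b3 := a3.trans ((H.spat hw hf ht).RC_eq ((p + 1 : ℕ) : ℝ) p hh)
  push_cast at b1 b2 b3
  rw [RU_conf (p : ℝ) rfl hqx hE hK] at b1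
  rw [RV_conf (p : ℝ) rfl hqx hE hK] at b2
  rw [RC_conf (p : ℝ) rfl hqx hE hK] at b3
  have rA : AA w (Jt p w f) η t h * (1 - h ^ 2) =
    Real.exp (2 * w t (η t h)) * (1 - η t h ^ 2) := H.relA ht hh'
  have rB : (AA w (Jt p w f) η t h + BB w (Jt p w f) η t h * (1 - h ^ 2)) / (1 - h ^ 2) =
      Real.exp (2 * w t (η t h)) / (1 - η t h ^ 2) * Dx η t h ^ 2 := H.relB ht hh
  have hA' : AA w (Jt p w f) η t h ≠ 0 := hA
  have hC' : CC f η t h ≠ 0 := hC
  have c1 : (prof w f (Jt p w f) η t).F1 (p + 1) p h / AA w (Jt p w f) η t h =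
      ric2 p (w t) (f t) (η t h) := by
    rw [div_eq_iff hA']
    refine mul_right_cancel₀ hq ?_
    rw [b1, mul_assoc (ric2 p (w t) (f t) (η t h)), rA, ric2, exp_neg_two]
    rfl
  have c2 : ((prof w f (Jt p w f) η t).F1 (p + 1) p h +
      (prof w f (Jt p w f) η t).F2 (p + 1) p h * (1 - h ^ 2)) /
      (AA w (Jt p w f) η t h + BB w (Jt p w f) η t h * (1 - h ^ 2)) =
      ric0 p (w t) (f t) (η t h) := by
    have d1 : ((prof w f (Jt p w f) η t).F1 (p + 1) p h +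
      (prof w f (Jt p w f) η t).F2 (p + 1) p h * (1 - h ^ 2)) /
      (AA w (Jt p w f) η t h + BB w (Jt p w f) η t h * (1 - h ^ 2)) =
      ((prof w f (Jt p w f) η t).F2 (p + 1) p h +
        (prof w f (Jt p w f) η t).F1 (p + 1) p h / (1 - h ^ 2)) /
      ((AA w (Jt p w f) η t h + BB w (Jt p w f) η t h * (1 - h ^ 2)) / (1 - h ^ 2)) := by
      have hAB' : AA w (Jt p w f) η t h + BB w (Jt p w f) η t h * (1 - h ^ 2) ≠ 0 := hAB
      field_simp
      ring
    rw [d1, b2, rB, ric0, ric2, exp_neg_two]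
    rw [mul_assoc, mul_div_assoc, div_self (mul_ne_zero (div_ne_zero hE hqx) (pow_ne_zero 2 he1)),
      mul_one]
    rfl
  have c3 : (prof w f (Jt p w f) η t).F3 (p + 1) p h / CC f η t h =
      ric1 p (w t) (f t) (η t h) := by
    rw [div_eq_iff hC', b3, ric1, exp_neg_two, exp_neg_two]
    rfl
  have c4 : scalP (prof w f (Jt p w f) η t) (p + 1) p h =
      (((p + 1 : ℕ) : ℝ) - 1) * ((prof w f (Jt p w f) η t).F1 (p + 1) p h /
        AA w (Jt p w f) η t h) +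
      ((prof w f (Jt p w f) η t).F1 (p + 1) p h +
      (prof w f (Jt p w f) η t).F2 (p + 1) p h * (1 - h ^ 2)) /
      (AA w (Jt p w f) η t h + BB w (Jt p w f) η t h * (1 - h ^ 2)) +
      p * ((prof w f (Jt p w f) η t).F3 (p + 1) p h / CC f η t h) := rfl
  rw [c4, c1, c2, c3, scal]
  push_cast
  ring

theorem cont_scalP {t : ℝ} (ht : t ∈ Ico 0 T) :
    ContinuousOn (scalP (prof w f (Jt p w f) η t) (p + 1) p) (Icc (-1) 1) := by
  have hP : (prof w f (Jt p w f) η t).Good := H.good S.smooth_w S.smooth_f ht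
  obtain ⟨c1, c2, c3⟩ := H.cont_F S ht
  have cA : ContinuousOn (prof w f (Jt p w f) η t).A (Icc (-1) 1) :=
    fun x hx => (hP.hA x hx).continuousWithinAt
  have cB : ContinuousOn (prof w f (Jt p w f) η t).B (Icc (-1) 1) :=
    fun x hx => (hP.hB x hx).continuousWithinAt
  have cC : ContinuousOn (prof w f (Jt p w f) η t).C (Icc (-1) 1) :=
    fun x hx => (hP.hC x hx).continuousWithinAt
  have cq : ContinuousOn (fun x : ℝ => 1 - x ^ 2) (Icc (-1) 1) := by fun_prop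
  exact (((continuousOn_const.mul (c1.div cA (fun x hx => (hP.posA x hx).ne'))).add
    ((c1.add (c2.mul cq)).div (cA.add (cB.mul cq)) (fun x hx => (hP.posAB x hx).ne'))).add
    (continuousOn_const.mul (c3.div cC (fun x hx => (hP.posC x hx).ne'))))

theorem scalarCurvature_eq {t : ℝ} (ht : t ∈ Ico 0 T) (x : Mfd (p + 1) p) :
    Flow.scalarCurvature (frame (p + 1) p) (tens (p + 1) p (AA w (Jt p w f) η t)
      (BB w (Jt p w f) η t) (CC f η t)) x =
    scalP (prof w f (Jt p w f) η t) (p + 1) p (height x) :=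
  scalarCurvature_tens (P := prof w f (Jt p w f) η t) (m := p + 1) (p := p)
    (H.good S.smooth_w S.smooth_f ht) x

theorem height_mem {m p : ℕ} (x : Mfd m p) : height x ∈ Icc (-1 : ℝ) 1 := by
  obtain ⟨b, c, hbc, ht, hh1, -⟩ := comp_tens (chart_mem_atlas (Geo.EE m × Geo.EE p) x)
  have h1 := (chartAt (Geo.EE m × Geo.EE p) x).left_inv (mem_chart_source _ x)
  rw [← h1, hh1]
  exact Geo.hh_mem hbc _

theorem eta_one {t : ℝ} (ht : t ∈ Ico 0 T) : η t 1 = 1 := by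
  have h1 : (1 : ℝ) ∈ Icc (-1 : ℝ) 1 := by constructor <;> norm_num
  have hD : ∀ s ∈ Ico 0 T, HasDerivWithinAt (fun s => η s 1) 0 (Ico 0 T) s := by
    intro s hs
    have h2 := H.ode s hs 1 h1
    have h3 := H.rel_k hs h1
    rw [h3] at h2
    refine h2.congr_deriv ?_
    ring
  have h2 := (convex_Ico (0 : ℝ) T).is_const_of_fderivWithin_eq_zero (𝕜 := ℝ)
    (f := fun s => η s 1) (fun s hs => (hD s hs).differentiableWithinAt)
    (fun s hs => by
      have := (hD s hs).hasFDerivWithinAt.fderivWithin (uniqueDiffOn_Ico 0 T s hs)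
      rw [this]; ext; simp)
    ht (show (0 : ℝ) ∈ Ico 0 T from ⟨le_rfl, lt_of_le_of_lt ht.1 ht.2⟩)
  exact h2.trans (H.init 1 h1)

end Flo

/-- A solution of the conformal gauge system gives a literal Ricci flow on `S^(p+1) × S^p`. -/
theorem flow_of_confSol {T : ℝ} (hT : 0 < T) {p : ℕ} (hp : 0 < p) {w f : ℝ → ℝ → ℝ}
    (S : ConfSol p w f T) {C : ℝ}
    (hscal : ∀ t ∈ Ico 0 T, ∀ x ∈ Icc (-1 : ℝ) 1, |scal p (w t) (f t) x| ≤ C)
    (htip : ∀ A : ℝ, ∃ t ∈ Ico 0 T, f t 1 < A) :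
    ∃ g : ℝ → Flow.Tensor (Geo.EE (p + 1) × Geo.EE p) (Mfd (p + 1) p),
      Flow.IsRicciFlow (frame (p + 1) p) g T ∧
      (∀ t ∈ Ico 0 T, ∀ x, |Flow.scalarCurvature (frame (p + 1) p) (g t) x| ≤ C) ∧
      ¬ Flow.ExtendsPast (frame (p + 1) p) g T := by
  obtain ⟨η, H⟩ := exists_flo hT (sm_Jt (p := p) (S.smooth_w : Sm T w) (S.smooth_f : Sm T f))
  refine ⟨fun t => tens (p + 1) p (AA w (Jt p w f) η t) (BB w (Jt p w f) η t) (CC f η t),
    H.isRicciFlow S, ?_, ?_⟩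
  · intro t ht x
    simp only
    rw [H.scalarCurvature_eq S ht x]
    refine closure_bound (H.cont_scalP S ht) (fun h hh => ?_) _ (Flo.height_mem H S x)
    rw [H.scal_eq S ht hh]
    exact hscal t ht _ (H.mem t ht h (Ioo_subset_Icc_self hh))
  · refine not_extendsPast hp hT (fun t => AA w (Jt p w f) η t) (fun t => BB w (Jt p w f) η t)
      (fun t => CC f η t) ?_
    intro δ hδ
    obtain ⟨t, ht, hlt⟩ := htip (Real.log δ / 2)
    refine ⟨t, ht, ?_⟩
    rw [CC, H.eta_one S ht, ← Real.lt_log_iff_exp_lt hδ]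
    linarith only [hlt]

/-- The analytic core statement gives a Ricci flow on `S^(p+1) × S^p`, `0 ≤ t < 1`, with bounded
scalar curvature, that does not extend past `t = 1`. -/
theorem disproof_of_core (h : CoreStatement) :
    ∃ p : ℕ, 2 ≤ p ∧ ∃ g : ℝ → Flow.Tensor (Geo.EE (p + 1) × Geo.EE p) (Mfd (p + 1) p),
      Flow.IsRicciFlow (frame (p + 1) p) g 1 ∧
      (∃ C : ℝ, ∀ t ∈ Ico (0 : ℝ) 1, ∀ x,
        |Flow.scalarCurvature (frame (p + 1) p) (g t) x| ≤ C) ∧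
      ¬ Flow.ExtendsPast (frame (p + 1) p) g 1 := by
  obtain ⟨p, hp, w, f, S, ⟨C, hC⟩, htip⟩ := h
  obtain ⟨g, h1, h2, h3⟩ := flow_of_confSol one_pos (by omega) S hC htip
  exact ⟨p, hp, g, h1, ⟨C, h2⟩, h3⟩

end Vale.Agent.P244.GeoM

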