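import Vale.Agent.P244.GeoRicciB

open scoped Manifold ContDiff RealInnerProductSpace
open Set Metric Module

namespace Vale.Agent.P244.GeoM

open Vale.Agent.P244.Geo (EE rho hh frame)

/-- The unit sphere `S^m` in `ℝ^(m+1)`. -/
abbrev Sph (m : ℕ) := sphere (0 : EE (m + 1)) 1

/-- The closed manifold `S^m × S^p`. -/
abbrev Mfd (m p : ℕ) := Sph m × Sph p

/-- The product manifold structure of `S^m × S^p`. -/
noncomputable instance instCharted (m p : ℕ) : ChartedSpace (EE m × EE p) (Mfd m p) :=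
  inferInstanceAs (ChartedSpace (ModelProd (EE m) (EE p)) (Sph m × Sph p))

instance instIsManifold (m p : ℕ) : IsManifold 𝓘(ℝ, EE m × EE p) ∞ (Mfd m p) := by
  have h : IsManifold ((𝓡 m).prod (𝓡 p)) ∞ (Sph m × Sph p) := by
    have h1 : IsManifold (𝓡 m) ∞ (Sph m) := IsManifold.of_le (n := ω) le_top
    have h2 : IsManifold (𝓡 p) ∞ (Sph p) := IsManifold.of_le (n := ω) le_top
    exact IsManifold.prod _ _
  rw [← modelWithCornersSelf_prod] at h
  exact h

theorem factFin (m : ℕ) : Fact (finrank ℝ (EE (m + 1)) = m + 1) :=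
  Fact.mk (@finrank_euclideanSpace_fin ℝ _ (m + 1))

attribute [local instance] factFin

/-- The position vector in `ℝ^(m+1)` of the first factor. -/
def pos1 {m p : ℕ} (x : Mfd m p) : EE (m + 1) := x.1.1

/-- The position vector in `ℝ^(p+1)` of the second factor. -/
def pos2 {m p : ℕ} (x : Mfd m p) : EE (p + 1) := x.2.1

/-- The height function on `S^m`. -/
noncomputable def height {m p : ℕ} (x : Mfd m p) : ℝ := pos1 x (Fin.last m)

/-- The inner product as a bilinear form. -/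
noncomputable def innerBil (E : Type*) [NormedAddCommGroup E] [InnerProductSpace ℝ E] :
    E →L[ℝ] E →L[ℝ] ℝ := innerSL ℝ

/-- The derivative of `pos1` at `x`, a linear map on the tangent space at `x` (which is a copy of
the model space). -/
noncomputable def dpos1 {m p : ℕ} (x : Mfd m p) : (EE m × EE p) →L[ℝ] EE (m + 1) :=
  mfderiv 𝓘(ℝ, EE m × EE p) 𝓘(ℝ, EE (m + 1)) (pos1 (m := m) (p := p)) x

/-- The derivative of `pos2` at `x`. -/
noncomputable def dpos2 {m p : ℕ} (x : Mfd m p) : (EE m × EE p) →L[ℝ] EE (p + 1) :=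
  mfderiv 𝓘(ℝ, EE m × EE p) 𝓘(ℝ, EE (p + 1)) (pos2 (m := m) (p := p)) x

/-- The derivative of the height function at `x`. -/
noncomputable def dheight {m p : ℕ} (x : Mfd m p) : (EE m × EE p) →L[ℝ] ℝ :=
  (EuclideanSpace.proj (Fin.last m)).comp (dpos1 x)

/-- The bilinear form `A(h) g_{S^m} + B(h) dh^2 + C(h) g_{S^p}` at `x`. -/
noncomputable def form (m p : ℕ) (A B C : ℝ → ℝ) (x : Mfd m p) :
    (EE m × EE p) →L[ℝ] (EE m × EE p) →L[ℝ] ℝ :=
  A (height x) • (innerBil _).bilinearComp (dpos1 x) (dpos1 x) +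
  B (height x) • (ContinuousLinearMap.mul ℝ ℝ).bilinearComp (dheight x) (dheight x) +
  C (height x) • (innerBil _).bilinearComp (dpos2 x) (dpos2 x)

/-- The metric `A(h) g_{S^m} + B(h) dh^2 + C(h) g_{S^p}` on `S^m × S^p`. -/
noncomputable def tens (m p : ℕ) (A B C : ℝ → ℝ) : Flow.Tensor (EE m × EE p) (Mfd m p) :=
  fun x => form m p A B C x

theorem val_tens {m p : ℕ} (A B C : ℝ → ℝ) (x : Mfd m p)
    (u w : TangentSpace 𝓘(ℝ, EE m × EE p) x) :
    Flow.val (tens m p A B C) x u w = A (height x) * ⟪dpos1 x u, dpos1 x w⟫ +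
      B (height x) * (dheight x u * dheight x w) +
      C (height x) * ⟪dpos2 x u, dpos2 x w⟫ := by
  rfl


theorem contMDiff_pos1 {m p : ℕ} :
    ContMDiff 𝓘(ℝ, EE m × EE p) 𝓘(ℝ, EE (m + 1)) ∞ (pos1 (m := m) (p := p)) := by
  have h : ContMDiff ((𝓡 m).prod (𝓡 p)) 𝓘(ℝ, EE (m + 1)) ∞
      (fun x : Sph m × Sph p => (x.1 : EE (m + 1))) := by
    have h1 : ContMDiff (𝓡 m) 𝓘(ℝ, EE (m + 1)) ∞ ((↑) : Sph m → EE (m + 1)) :=
      contMDiff_coe_sphere
    exact h1.comp contMDiff_fst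
  rw [← modelWithCornersSelf_prod] at h
  exact h

theorem contMDiff_pos2 {m p : ℕ} :
    ContMDiff 𝓘(ℝ, EE m × EE p) 𝓘(ℝ, EE (p + 1)) ∞ (pos2 (m := m) (p := p)) := by
  have h : ContMDiff ((𝓡 m).prod (𝓡 p)) 𝓘(ℝ, EE (p + 1)) ∞
      (fun x : Sph m × Sph p => (x.2 : EE (p + 1))) := by
    have h1 : ContMDiff (𝓡 p) 𝓘(ℝ, EE (p + 1)) ∞ ((↑) : Sph p → EE (p + 1)) :=
      contMDiff_coe_sphere
    exact h1.comp contMDiff_snd
  rw [← modelWithCornersSelf_prod] at h
  exact h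

/-- the stereographic parametrisation of the sphere -/
noncomputable def par {m : ℕ} (v : Sph m) (y : EE m) : EE (m + 1) :=
  ((stereographic' m v).symm y : EE (m + 1))

theorem mem_atlas {m p : ℕ} {e : OpenPartialHomeomorph (Mfd m p) (EE m × EE p)}
    (he : e ∈ atlas (EE m × EE p) (Mfd m p)) : ∃ (v : Sph m) (w : Sph p),
      e.target = univ ∧ (∀ y, pos1 (e.symm y) = par v y.1) ∧
      (∀ y, pos2 (e.symm y) = par w y.2) := by
  obtain ⟨e1, ⟨v, rfl⟩, e2, ⟨w, rfl⟩, rfl⟩ := he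
  refine ⟨v, w, ?_, fun y => rfl, fun y => rfl⟩
  change (stereographic' m v).target ×ˢ (stereographic' p w).target = univ
  simp


/-- the linear isometry used in the chart -/
noncomputable def lin {m : ℕ} (v : Sph m) : EE m →ₗᵢ[ℝ] EE (m + 1) :=
  (ℝ ∙ (v : EE (m + 1)))ᗮ.subtypeₗᵢ.comp
    (OrthonormalBasis.fromOrthogonalSpanSingleton m
      (ne_zero_of_mem_unit_sphere v)).repr.symm.toLinearIsometry

theorem lin_orth {m : ℕ} (v : Sph m) (y : EE m) : ⟪lin v y, (v : EE (m + 1))⟫ = 0 := by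
  have h : lin v y ∈ (ℝ ∙ (v : EE (m + 1)))ᗮ := by
    simp only [lin, LinearIsometry.coe_comp, Function.comp_apply]
    exact Subtype.prop _
  rw [Submodule.mem_orthogonal_singleton_iff_inner_left] at h
  exact h

theorem par_eq {m : ℕ} (v : Sph m) (y : EE m) :
    par v y = (‖y‖ ^ 2 + 4)⁻¹ • ((4 : ℝ) • lin v y + (‖y‖ ^ 2 - 4) • (v : EE (m + 1))) := by
  rw [par, stereographic'_symm_apply]
  simp only
  have h1 : ‖(((OrthonormalBasis.fromOrthogonalSpanSingleton m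
      (ne_zero_of_mem_unit_sphere v)).repr.symm y : (ℝ ∙ (v : EE (m + 1)))ᗮ) : EE (m + 1))‖ = ‖y‖ := by
    rw [← Submodule.coe_norm, LinearIsometryEquiv.norm_map]
  rw [h1, smul_add]
  rfl

theorem normSq_pos {m : ℕ} (y : EE m) : 0 < ‖y‖ ^ 2 + 4 := by positivity

theorem hasFDerivAt_par {m : ℕ} (v : Sph m) (y : EE m) :
    HasFDerivAt (par v) ((4 / (‖y‖ ^ 2 + 4)) • (lin v).toContinuousLinearMap +
      (innerSL ℝ y : EE m →L[ℝ] ℝ).smulRight ((16 / (‖y‖ ^ 2 + 4) ^ 2) • (v : EE (m + 1)) -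
        (8 / (‖y‖ ^ 2 + 4) ^ 2) • lin v y)) y := by
  have hN := normSq_pos y
  have h0 : HasFDerivAt (fun y : EE m => ‖y‖ ^ 2) (2 • (innerSL ℝ y : EE m →L[ℝ] ℝ)) y :=
    (hasStrictFDerivAt_norm_sq y).hasFDerivAt
  have h1 : HasFDerivAt (fun y : EE m => (‖y‖ ^ 2 + 4)⁻¹)
      (-((‖y‖ ^ 2 + 4) ^ 2)⁻¹ • (2 • (innerSL ℝ y : EE m →L[ℝ] ℝ))) y := by
    have := (h0.add_const (4 : ℝ))
    exact (hasDerivAt_inv hN.ne').comp_hasFDerivAt y this
  have h2 : HasFDerivAt (fun y : EE m => (4 : ℝ) • lin v y + (‖y‖ ^ 2 - 4) • (v : EE (m + 1)))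
      ((4 : ℝ) • (lin v).toContinuousLinearMap +
        (2 • (innerSL ℝ y : EE m →L[ℝ] ℝ)).smulRight (v : EE (m + 1))) y := by
    refine HasFDerivAt.add ?_ ?_
    · exact (lin v).toContinuousLinearMap.hasFDerivAt.const_smul (4 : ℝ)
    · exact (h0.sub_const 4).smul_const _
  have h3 := h1.smul h2
  have h4 : par v = fun y => (‖y‖ ^ 2 + 4)⁻¹ • ((4 : ℝ) • lin v y + (‖y‖ ^ 2 - 4) • (v : EE (m + 1))) := by
    funext y; exact par_eq v y
  rw [h4]
  refine h3.congr_fderiv ?_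
  ext1 w
  simp only [ContinuousLinearMap.add_apply, ContinuousLinearMap.smul_apply,
    ContinuousLinearMap.smulRight_apply, LinearIsometry.coe_toContinuousLinearMap, smul_add,
    smul_sub, innerSL_apply_apply, smul_smul, nsmul_eq_mul, smul_eq_mul, Nat.cast_ofNat]
  have hN' := hN.ne'
  match_scalars <;> field_simp <;> ring

theorem fderiv_par {m : ℕ} (v : Sph m) (y w : EE m) :
    fderiv ℝ (par v) y w = (4 / (‖y‖ ^ 2 + 4)) • lin v w +
      ⟪y, w⟫ • ((16 / (‖y‖ ^ 2 + 4) ^ 2) • (v : EE (m + 1)) -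
        (8 / (‖y‖ ^ 2 + 4) ^ 2) • lin v y) := by
  rw [(hasFDerivAt_par v y).fderiv]
  simp

theorem inner_fderiv_par {m : ℕ} (v : Sph m) (y w w' : EE m) :
    ⟪fderiv ℝ (par v) y w, fderiv ℝ (par v) y w'⟫ = (4 / (‖y‖ ^ 2 + 4)) ^ 2 * ⟪w, w'⟫ := by
  have hN := (normSq_pos y).ne'
  have hv : ⟪(v : EE (m + 1)), (v : EE (m + 1))⟫ = 1 := by
    rw [real_inner_self_eq_norm_sq, norm_eq_of_mem_sphere]; norm_num
  have hy : ⟪y, y⟫ = ‖y‖ ^ 2 := real_inner_self_eq_norm_sq y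
  have h1 := lin_orth v
  have h2 : ∀ y : EE m, ⟪(v : EE (m + 1)), lin v y⟫ = 0 := fun y => by
    rw [real_inner_comm]; exact h1 y
  rw [fderiv_par, fderiv_par]
  simp only [inner_add_left, inner_add_right, inner_sub_left, inner_sub_right, inner_smul_left,
    inner_smul_right, LinearIsometry.inner_map_map, h1, h2, hv, hy, real_inner_comm w y,
    conj_trivial, mul_zero, zero_mul, sub_zero, zero_sub, add_zero, zero_add]
  rw [real_inner_comm y w]
  field_simp
  ring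

/-- the vector of coefficients of the height function in the chart -/
noncomputable def bvec {m : ℕ} (v : Sph m) : EE m :=
  WithLp.toLp 2 (fun i => (lin v (EuclideanSpace.single i 1)) (Fin.last m))

theorem inner_bvec {m : ℕ} (v : Sph m) (y : EE m) : ⟪bvec v, y⟫ = (lin v y) (Fin.last m) := by
  have h : lin v y = ∑ i, y i • lin v (EuclideanSpace.single i 1) := by
    conv_lhs => rw [← (EuclideanSpace.basisFun (Fin m) ℝ).sum_repr y]
    rw [map_sum]
    simp
  rw [h]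
  simp [bvec, PiLp.inner_apply, mul_comm]

theorem inner_e {m : ℕ} (i : Fin m) (z : EE m) : ⟪EuclideanSpace.single i (1 : ℝ), z⟫ = z i := by
  rw [EuclideanSpace.inner_single_left]; simp

theorem inner_e' {m : ℕ} (i : Fin m) (z : EE m) : ⟪z, EuclideanSpace.single i (1 : ℝ)⟫ = z i := by
  rw [real_inner_comm]; exact inner_e i z

theorem exists_lin_eq {m : ℕ} (v : Sph m) (z : EE (m + 1)) (hz : ⟪z, (v : EE (m + 1))⟫ = 0) :
    ∃ y, lin v y = z := by
  have hz' : z ∈ (ℝ ∙ (v : EE (m + 1)))ᗮ := by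
    rw [Submodule.mem_orthogonal_singleton_iff_inner_left]; exact hz
  refine ⟨(OrthonormalBasis.fromOrthogonalSpanSingleton m
      (ne_zero_of_mem_unit_sphere v)).repr ⟨z, hz'⟩, ?_⟩
  simp [lin]

theorem norm_bvec {m : ℕ} (v : Sph m) : ‖bvec v‖ ^ 2 + (v : EE (m + 1)) (Fin.last m) ^ 2 = 1 := by
  have hv : ⟪(v : EE (m + 1)), (v : EE (m + 1))⟫ = 1 := by
    rw [real_inner_self_eq_norm_sq, norm_eq_of_mem_sphere]; norm_num
  set e : EE (m + 1) := EuclideanSpace.single (Fin.last m) (1 : ℝ) with he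
  set c : ℝ := (v : EE (m + 1)) (Fin.last m) with hc
  have hev : ⟪e, (v : EE (m + 1))⟫ = c := inner_e _ _
  have hve : ⟪(v : EE (m + 1)), e⟫ = c := by rw [real_inner_comm]; exact hev
  have hee : ⟪e, e⟫ = 1 := by rw [he, inner_e]; simp
  obtain ⟨y, hy⟩ := exists_lin_eq v (e - c • (v : EE (m + 1))) (by
    rw [inner_sub_left, inner_smul_left, hv, hev]; simp)
  have hb : bvec v = y := by
    refine ext_inner_right ℝ (fun w => ?_)
    rw [inner_bvec, ← LinearIsometry.inner_map_map (lin v) y w, hy, inner_sub_left,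
      inner_smul_left, real_inner_comm (lin v w) (v : EE (m + 1)), lin_orth, he, inner_e]
    simp
  rw [hb, ← real_inner_self_eq_norm_sq, ← LinearIsometry.inner_map_map (lin v) y y, hy,
    inner_sub_left, inner_sub_right, inner_sub_right, inner_smul_left, inner_smul_right,
    inner_smul_left, inner_smul_right, hv, hev, hve, hee]
  simp
  ring

theorem par_last {m : ℕ} (v : Sph m) (y : EE m) :
    par v y (Fin.last m) = hh (bvec v) ((v : EE (m + 1)) (Fin.last m)) y := by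
  rw [par_eq, hh, inner_bvec]
  simp
  ring

theorem mdiff_symm {m p : ℕ} {e : OpenPartialHomeomorph (Mfd m p) (EE m × EE p)}
    (he : e ∈ atlas (EE m × EE p) (Mfd m p)) (y : EE m × EE p) (hy : y ∈ e.target) :
    MDifferentiableAt 𝓘(ℝ, EE m × EE p) 𝓘(ℝ, EE m × EE p) e.symm y := by
  have h1 : e ∈ IsManifold.maximalAtlas 𝓘(ℝ, EE m × EE p) ∞ (Mfd m p) :=
    IsManifold.subset_maximalAtlas he
  have h2 := contMDiffOn_symm_of_mem_maximalAtlas h1
  exact (h2.contMDiffAt (e.open_target.mem_nhds hy)).mdifferentiableAt (by simp)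

theorem dpos1_symm {m p : ℕ} {e : OpenPartialHomeomorph (Mfd m p) (EE m × EE p)}
    (he : e ∈ atlas (EE m × EE p) (Mfd m p)) (v : Sph m) (ht : e.target = univ)
    (hv : ∀ y, pos1 (e.symm y) = par v y.1) (y w : EE m × EE p) :
    dpos1 (e.symm y) (mfderiv 𝓘(ℝ, EE m × EE p) 𝓘(ℝ, EE m × EE p) e.symm y w) =
      fderiv ℝ (par v) y.1 w.1 := by
  have h1 : MDifferentiableAt 𝓘(ℝ, EE m × EE p) 𝓘(ℝ, EE (m + 1)) (pos1 (m := m) (p := p))
      (e.symm y) := contMDiff_pos1.mdifferentiableAt (by simp)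
  have h2 := mdiff_symm he y (by rw [ht]; trivial)
  have h3 := mfderiv_comp y h1 h2
  have h4 : (pos1 (m := m) (p := p)) ∘ e.symm = fun y : EE m × EE p => par v y.1 := by
    funext y; exact hv y
  have h5 : HasFDerivAt (fun y : EE m × EE p => par v y.1)
      ((fderiv ℝ (par v) y.1).comp (ContinuousLinearMap.fst ℝ (EE m) (EE p))) y :=
    ((hasFDerivAt_par v y.1).differentiableAt.hasFDerivAt).comp y hasFDerivAt_fst
  rw [h4, mfderiv_eq_fderiv, h5.fderiv] at h3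
  have h6 := congrArg (fun L : (EE m × EE p) →L[ℝ] EE (m + 1) => L w) h3
  exact h6.symm

theorem dpos2_symm {m p : ℕ} {e : OpenPartialHomeomorph (Mfd m p) (EE m × EE p)}
    (he : e ∈ atlas (EE m × EE p) (Mfd m p)) (v : Sph p) (ht : e.target = univ)
    (hv : ∀ y, pos2 (e.symm y) = par v y.2) (y w : EE m × EE p) :
    dpos2 (e.symm y) (mfderiv 𝓘(ℝ, EE m × EE p) 𝓘(ℝ, EE m × EE p) e.symm y w) =
      fderiv ℝ (par v) y.2 w.2 := by
  have h1 : MDifferentiableAt 𝓘(ℝ, EE m × EE p) 𝓘(ℝ, EE (p + 1)) (pos2 (m := m) (p := p))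
      (e.symm y) := contMDiff_pos2.mdifferentiableAt (by simp)
  have h2 := mdiff_symm he y (by rw [ht]; trivial)
  have h3 := mfderiv_comp y h1 h2
  have h4 : (pos2 (m := m) (p := p)) ∘ e.symm = fun y : EE m × EE p => par v y.2 := by
    funext y; exact hv y
  have h5 : HasFDerivAt (fun y : EE m × EE p => par v y.2)
      ((fderiv ℝ (par v) y.2).comp (ContinuousLinearMap.snd ℝ (EE m) (EE p))) y :=
    ((hasFDerivAt_par v y.2).differentiableAt.hasFDerivAt).comp y hasFDerivAt_snd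
  rw [h4, mfderiv_eq_fderiv, h5.fderiv] at h3
  have h6 := congrArg (fun L : (EE m × EE p) →L[ℝ] EE (p + 1) => L w) h3
  exact h6.symm

theorem contDiff_hh {m : ℕ} (b : EE m) (c : ℝ) : ContDiff ℝ ∞ (hh b c) := by
  unfold hh
  refine ContDiff.div ?_ ?_ (fun y => (normSq_pos y).ne')
  · exact (contDiff_const.mul (contDiff_const.inner ℝ contDiff_id)).add
      (((contDiff_norm_sq ℝ).sub contDiff_const).mul contDiff_const)
  · exact (contDiff_norm_sq ℝ).add contDiff_const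

theorem dheight_symm {m : ℕ} (v : Sph m) (y w : EE m) :
    (fderiv ℝ (par v) y w) (Fin.last m) =
      fderiv ℝ (hh (bvec v) ((v : EE (m + 1)) (Fin.last m))) y w := by
  have h1 := (hasFDerivAt_par v y).differentiableAt.hasFDerivAt
  have h2 := (EuclideanSpace.proj (𝕜 := ℝ) (Fin.last m)).hasFDerivAt.comp y h1
  have h3 : (EuclideanSpace.proj (𝕜 := ℝ) (Fin.last m)) ∘ (par v) =
      hh (bvec v) ((v : EE (m + 1)) (Fin.last m)) := by
    funext y; exact par_last v y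
  rw [h3] at h2
  rw [h2.fderiv]
  simp

/-- The quadratic form of the metric in a stereographic chart. -/
noncomputable def chartForm (m p : ℕ) (b : EE m) (c : ℝ) (A B C : ℝ → ℝ)
    (y w w' : EE m × EE p) : ℝ :=
  A (hh b c y.1) * (rho y.1 ^ 2 * ⟪w.1, w'.1⟫) +
    B (hh b c y.1) * (fderiv ℝ (hh b c) y.1 w.1 * fderiv ℝ (hh b c) y.1 w'.1) +
    C (hh b c y.1) * (rho y.2 ^ 2 * ⟪w.2, w'.2⟫)

theorem norm_par {m : ℕ} (v : Sph m) (y : EE m) : ⟪par v y, par v y⟫ = 1 := by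
  rw [real_inner_self_eq_norm_sq, par, norm_eq_of_mem_sphere]; norm_num

theorem inner_par_fderiv {m : ℕ} (v : Sph m) (y w : EE m) : ⟪par v y, fderiv ℝ (par v) y w⟫ = 0 := by
  have h1 := (hasFDerivAt_par v y).differentiableAt.hasFDerivAt
  have h2 := h1.inner ℝ h1
  have h3 : (fun y => ⟪par v y, par v y⟫) = fun _ => (1 : ℝ) := by
    funext y; exact norm_par v y
  rw [h3] at h2
  have h4 := h2.unique (hasFDerivAt_const (1 : ℝ) y)
  have h5 := congrArg (fun L : EE m →L[ℝ] ℝ => L w) h4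
  simp [fderivInnerCLM_apply] at h5
  rw [real_inner_comm (par v y)] at h5
  linarith only [h5]


theorem dheight_sq_le {m : ℕ} (v : Sph m) (y w : EE m) :
    ((fderiv ℝ (par v) y w) (Fin.last m)) ^ 2 ≤
      (1 - (par v y (Fin.last m)) ^ 2) * ⟪fderiv ℝ (par v) y w, fderiv ℝ (par v) y w⟫ := by
  set e : EE (m + 1) := EuclideanSpace.single (Fin.last m) (1 : ℝ) with he
  set X := par v y with hX
  set Y := fderiv ℝ (par v) y w with hY
  set h := X (Fin.last m) with hh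
  have h1 : ⟪e - h • X, Y⟫ = Y (Fin.last m) := by
    rw [inner_sub_left, inner_smul_left, he, inner_e, hX, hY, inner_par_fderiv]; simp
  have hee : ⟪e, e⟫ = 1 := by rw [he, inner_e]; simp
  have heX : ⟪e, X⟫ = h := inner_e _ _
  have hXe : ⟪X, e⟫ = h := inner_e' _ _
  have hXX : ⟪X, X⟫ = 1 := norm_par v y
  have h2 : ⟪e - h • X, e - h • X⟫ = 1 - h ^ 2 := by
    rw [inner_sub_left, inner_sub_right, inner_sub_right, inner_smul_left, inner_smul_right,
      inner_smul_left, inner_smul_right, hXX, heX, hXe, hee]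
    simp
    ring
  have h3 := real_inner_mul_inner_self_le (e - h • X) Y
  rw [h1, h2] at h3
  nlinarith only [h3]

theorem tens_pos_aux {a b c h r1 r2 d n1 n2 : ℝ} (ha : 0 < a) (hab : 0 < a + b * (1 - h ^ 2))
    (hc : 0 < c) (hr1 : 0 < r1) (hr2 : 0 < r2) (hn1 : 0 ≤ n1) (hn2 : 0 ≤ n2)
    (hd : d ^ 2 ≤ (1 - h ^ 2) * (r1 * n1)) (hn : n1 ≠ 0 ∨ n2 ≠ 0) :
    0 < a * (r1 * n1) + b * (d * d) + c * (r2 * n2) := by
  have h1 : 0 ≤ r1 * n1 := by positivity
  have h2 : 0 ≤ r2 * n2 := by positivity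
  have h3 : 0 ≤ a * (r1 * n1) + b * (d * d) ∧ (0 < n1 → 0 < a * (r1 * n1) + b * (d * d)) := by
    rcases le_total 0 b with hb | hb
    · have h4 : 0 ≤ b * (d * d) := mul_nonneg hb (mul_self_nonneg d)
      refine ⟨by positivity, fun hn1 => ?_⟩
      have : 0 < a * (r1 * n1) := by positivity
      linarith only [h4, this]
    · have h4 : b * ((1 - h ^ 2) * (r1 * n1)) ≤ b * (d * d) := by
        refine mul_le_mul_of_nonpos_left ?_ hb
        rw [← sq]; exact hd
      have h5 : a * (r1 * n1) + b * (d * d) ≥ (a + b * (1 - h ^ 2)) * (r1 * n1) := by linarith only [h4]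
      refine ⟨le_trans (by positivity) h5, fun hn1 => lt_of_lt_of_le (by positivity) h5⟩
  rcases hn with hn | hn
  · have := h3.2 (lt_of_le_of_ne hn1 (Ne.symm hn))
    have h6 : 0 ≤ c * (r2 * n2) := by positivity
    linarith only [this, h6]
  · have h7 : 0 < n2 := lt_of_le_of_ne hn2 (Ne.symm hn)
    have h6 : 0 < c * (r2 * n2) := by positivity
    linarith only [h3, h6, h3.1]

theorem chartForm_pos {m p : ℕ} (v1 : Sph m) (A B C : ℝ → ℝ)
    (hA : ∀ x ∈ Icc (-1 : ℝ) 1, 0 < A x) (hAB : ∀ x ∈ Icc (-1 : ℝ) 1, 0 < A x + B x * (1 - x ^ 2))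
    (hC : ∀ x ∈ Icc (-1 : ℝ) 1, 0 < C x) (y w : EE m × EE p) (hw : w ≠ 0) :
    0 < chartForm m p (bvec v1) ((v1 : EE (m + 1)) (Fin.last m)) A B C y w w := by
  have hm := Geo.hh_mem (norm_bvec v1) y.1
  have hN1 := normSq_pos y.1
  have hN2 := normSq_pos y.2
  unfold chartForm
  refine tens_pos_aux (h := hh (bvec v1) ((v1 : EE (m + 1)) (Fin.last m)) y.1) (hA _ hm)
    (hAB _ hm) (hC _ hm) (by unfold rho; positivity) (by unfold rho; positivity)
    real_inner_self_nonneg real_inner_self_nonneg ?_ ?_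
  · have := dheight_sq_le v1 y.1 w.1
    rw [dheight_symm, par_last, inner_fderiv_par] at this
    exact this
  · by_contra hcon
    push Not at hcon
    apply hw
    have h1 := inner_self_eq_zero.mp hcon.1
    have h2 := inner_self_eq_zero.mp hcon.2
    exact Prod.ext h1 h2

theorem exists_symm_eq {m p : ℕ} (x : Mfd m p) (w : TangentSpace 𝓘(ℝ, EE m × EE p) x) :
    ∃ w' : EE m × EE p, mfderiv 𝓘(ℝ, EE m × EE p) 𝓘(ℝ, EE m × EE p)
      (chartAt (EE m × EE p) x).symm (chartAt (EE m × EE p) x x) w' = w := by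
  have h1 := (mdifferentiable_chart (I := 𝓘(ℝ, EE m × EE p)) x).symm_comp_deriv
    (mem_chart_source (EE m × EE p) x)
  refine ⟨mfderiv 𝓘(ℝ, EE m × EE p) 𝓘(ℝ, EE m × EE p) (chartAt (EE m × EE p) x) x w, ?_⟩
  have h2 := congrArg (fun L => L w) h1
  exact h2


theorem val_eq_form {m p : ℕ} (A B C : ℝ → ℝ) (x : Mfd m p) (u w : EE m × EE p) :
    Flow.val (tens m p A B C) x u w = form m p A B C x u w := rfl

theorem form_symm {m p : ℕ} {e : OpenPartialHomeomorph (Mfd m p) (EE m × EE p)}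
    (he : e ∈ atlas (EE m × EE p) (Mfd m p)) : ∃ (v1 : Sph m),
      e.target = univ ∧
      (∀ y, height (e.symm y) = hh (bvec v1) ((v1 : EE (m + 1)) (Fin.last m)) y.1) ∧
      ∀ (A B C : ℝ → ℝ) y w w',
      Flow.val (tens m p A B C) (e.symm y)
        (mfderiv 𝓘(ℝ, EE m × EE p) 𝓘(ℝ, EE m × EE p) e.symm y w)
        (mfderiv 𝓘(ℝ, EE m × EE p) 𝓘(ℝ, EE m × EE p) e.symm y w') =
      chartForm m p (bvec v1) ((v1 : EE (m + 1)) (Fin.last m)) A B C y w w' := by
  obtain ⟨v1, v2, ht, h1, h2⟩ := mem_atlas he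
  have hh1 : ∀ y, height (e.symm y) = hh (bvec v1) ((v1 : EE (m + 1)) (Fin.last m)) y.1 := by
    intro y
    rw [height, h1, par_last]
  refine ⟨v1, ht, hh1, ?_⟩
  intro A B C y w w'
  rw [val_tens]
  have e1 := dpos1_symm he v1 ht h1 y
  have e2 := dpos2_symm he v2 ht h2 y
  have e3 : ∀ w, dheight (e.symm y) (mfderiv 𝓘(ℝ, EE m × EE p) 𝓘(ℝ, EE m × EE p) e.symm y w) =
      fderiv ℝ (hh (bvec v1) ((v1 : EE (m + 1)) (Fin.last m))) y.1 w.1 := by
    intro w
    rw [← dheight_symm, ← e1 w]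
    rfl
  have a1 := (congrArg₂ (fun a b : EE (m + 1) => ⟪a, b⟫) (e1 w) (e1 w')).trans
    (inner_fderiv_par v1 y.1 w.1 w'.1)
  have a2 := (congrArg₂ (fun a b : EE (p + 1) => ⟪a, b⟫) (e2 w) (e2 w')).trans
    (inner_fderiv_par v2 y.2 w.2 w'.2)
  have a3 := congrArg₂ (fun a b : ℝ => a * b) (e3 w) (e3 w')
  have a0 := hh1 y
  simp only at a1 a2 a3
  unfold chartForm rho
  rw [← a0, ← a1, ← a2, ← a3]

theorem tens_pos {m p : ℕ} (A B C : ℝ → ℝ)
    (hA : ∀ x ∈ Icc (-1 : ℝ) 1, 0 < A x) (hAB : ∀ x ∈ Icc (-1 : ℝ) 1, 0 < A x + B x * (1 - x ^ 2))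
    (hC : ∀ x ∈ Icc (-1 : ℝ) 1, 0 < C x) (x : Mfd m p) (w : TangentSpace 𝓘(ℝ, EE m × EE p) x)
    (hw : w ≠ 0) : 0 < Flow.val (tens m p A B C) x w w := by
  obtain ⟨v1, ht, h1, h2⟩ := form_symm (chart_mem_atlas (EE m × EE p) x)
  obtain ⟨w', rfl⟩ := exists_symm_eq x w
  have hw' : w' ≠ 0 := by
    rintro rfl
    exact hw (map_zero _)
  have h3 := h2 A B C (chartAt (EE m × EE p) x x) w' w'
  have h4 := chartForm_pos v1 A B C hA hAB hC (chartAt (EE m × EE p) x x) w' hw'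
  rw [← h3] at h4
  have h5 := (chartAt (EE m × EE p) x).left_inv (mem_chart_source (EE m × EE p) x)
  have key : ∀ (x' : Mfd m p) (u : EE m × EE p), x' = x →
      0 < Flow.val (tens m p A B C) x' u u → 0 < Flow.val (tens m p A B C) x u u := by
    rintro x' u rfl h
    exact h
  exact key _ _ h5 h4

theorem tens_symm {m p : ℕ} (A B C : ℝ → ℝ) (x : Mfd m p)
    (u w : TangentSpace 𝓘(ℝ, EE m × EE p) x) :
    Flow.val (tens m p A B C) x u w = Flow.val (tens m p A B C) x w u := by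
  rw [val_tens, val_tens]
  have h1 := real_inner_comm (dpos1 x u) (dpos1 x w)
  have h2 := real_inner_comm (dpos2 x u) (dpos2 x w)
  have h3 := mul_comm (dheight x u) (dheight x w)
  rw [h1, h2, h3]

theorem comp_tens {m p : ℕ} {e : OpenPartialHomeomorph (Mfd m p) (EE m × EE p)}
    (he : e ∈ atlas (EE m × EE p) (Mfd m p)) : ∃ (b : EE m) (c : ℝ), ‖b‖ ^ 2 + c ^ 2 = 1 ∧
      e.target = univ ∧ (∀ y, height (e.symm y) = hh b c y.1) ∧
      ∀ (A B C : ℝ → ℝ) y i j, Flow.comp (frame m p) (tens m p A B C) e y i j =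
      chartForm m p b c A B C y (frame m p i) (frame m p j) := by
  obtain ⟨v1, ht, h1, h2⟩ := form_symm he
  exact ⟨_, _, norm_bvec v1, ht, h1, fun A B C y i j => h2 A B C y _ _⟩

/-- If `f(t,1)` is unbounded below the metric does not extend. -/
theorem not_extendsPast {m p : ℕ} (hp : 0 < p) {T : ℝ} (hT : 0 < T) (A B C : ℝ → ℝ → ℝ)
    (hC : ∀ δ > 0, ∃ t ∈ Ico 0 T, C t 1 < δ) :
    ¬ Flow.ExtendsPast (frame m p) (fun t => tens m p (A t) (B t) (C t)) T := by
  rintro ⟨ε, hε, g', hg', hext⟩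
  -- the pole
  let x0 : Mfd m p := (⟨EuclideanSpace.single (Fin.last m) (1 : ℝ), by simp⟩,
    ⟨EuclideanSpace.single (Fin.last p) (1 : ℝ), by simp⟩)
  set e := chartAt (EE m × EE p) x0 with he
  have hatl : e ∈ atlas (EE m × EE p) (Mfd m p) := chart_mem_atlas _ x0
  obtain ⟨b, c, hbc, ht, hh1, hcomp⟩ := comp_tens hatl
  set y0 := e x0 with hy0
  have hx0 : e.symm y0 = x0 := e.left_inv (mem_chart_source (EE m × EE p) x0)
  have hheight : hh b c y0.1 = 1 := by
    rw [← hh1, hx0]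
    simp [height, pos1, x0]
  set i0 : Fin (m + p) := Fin.natAdd m ⟨0, hp⟩ with hi0
  have hfr : frame m p i0 = (0, EuclideanSpace.single ⟨0, hp⟩ 1) := by
    rw [frame, hi0, Fin.addCases_right]
  have hval : ∀ t, Flow.comp (frame m p) (tens m p (A t) (B t) (C t)) e y0 i0 i0 =
      C t 1 * (rho y0.2 ^ 2 * 1) := by
    intro t
    rw [hcomp, hfr]
    unfold chartForm
    rw [hheight]
    simp
  -- continuity and positivity on `[0,T]`
  have hcont : ContinuousOn (fun t : ℝ => Flow.comp (frame m p) (g' t) e y0 i0 i0) (Icc 0 T) := by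
    have h1 := (hg'.smooth e hatl i0 i0).continuousOn
    have h2 : ContinuousOn (fun t : ℝ => (t, y0)) (Icc 0 T) := by fun_prop
    refine h1.comp h2 ?_
    intro t ht'
    refine ⟨⟨ht'.1, by have := ht'.2; linarith only [hε, this]⟩, ?_⟩
    rw [ht]; trivial
  have hpos : ∀ t ∈ Icc 0 T, 0 < Flow.comp (frame m p) (g' t) e y0 i0 i0 := by
    intro t ht'
    refine hg'.pos t ⟨ht'.1, by have := ht'.2; linarith only [hε, this]⟩ _ _ ?_
    intro h0
    have h1 := (mdifferentiable_chart (I := 𝓘(ℝ, EE m × EE p)) x0).comp_symm_deriv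
      (x := y0) (by rw [← he, ht]; trivial)
    have h2 := congrArg (fun L => L (frame m p i0)) h1
    have h3 : frame m p i0 = 0 := by
      refine h2.symm.trans ?_
      have h4 := congrArg (fun z => (mfderiv 𝓘(ℝ, EE m × EE p) 𝓘(ℝ, EE m × EE p)
        (chartAt (EE m × EE p) x0) ((chartAt (EE m × EE p) x0).symm y0)) z) h0
      refine Eq.trans h4 (map_zero _)
    rw [hfr] at h3
    have h5 := congrArg (fun z : EE m × EE p => z.2 ⟨0, hp⟩) h3
    simp at h5
  obtain ⟨t0, ht0, hmin⟩ := (isCompact_Icc (a := (0 : ℝ)) (b := T)).exists_isMinOn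
    (nonempty_Icc.mpr hT.le) hcont
  have hr : 0 < rho y0.2 ^ 2 := by
    have := normSq_pos y0.2
    unfold rho; positivity
  obtain ⟨t, ht', hlt⟩ := hC (Flow.comp (frame m p) (g' t0) e y0 i0 i0 / rho y0.2 ^ 2)
    (div_pos (hpos t0 ht0) hr)
  have h1 := hmin (show t ∈ Icc 0 T from ⟨ht'.1, ht'.2.le⟩)
  have h2 : Flow.comp (frame m p) (g' t) e y0 i0 i0 = C t 1 * (rho y0.2 ^ 2 * 1) := by
    rw [hext t ht', hval]
  have h3 : Flow.comp (frame m p) (g' t0) e y0 i0 i0 ≤ C t 1 * (rho y0.2 ^ 2 * 1) := by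
    rw [← h2]; exact h1
  rw [lt_div_iff₀ hr] at hlt
  linarith only [hlt, h3]

end Vale.Agent.P244.GeoM
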