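import Vale.Agent.P244.FlowDefs

set_option linter.all false

/-! # P244, block G1: coordinate computation of the Ricci tensor of the doubly warped metrics.
Part A: calculus in `EuclideanSpace ℝ (Fin m)` and the basic functions of the stereographic charts. -/

open scoped ContDiff
open Set

namespace Vale.Agent.P244.Geo

/-- Euclidean space -/
abbrev EE (m : ℕ) : Type := EuclideanSpace ℝ (Fin m)

/-- `f` is differentiable at `y` with partial derivatives `f'` -/
def HD {m : ℕ} (f : EE m → ℝ) (f' : Fin m → ℝ) (y : EE m) : Prop :=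
  DifferentiableAt ℝ f y ∧ ∀ j, fderiv ℝ f y (EuclideanSpace.single j 1) = f' j

namespace HD

variable {m : ℕ} {f g : EE m → ℝ} {f' g' : Fin m → ℝ} {y : EE m}

lemma congr (h : HD f f' y) (h2 : ∀ j, f' j = g' j) : HD f g' y := ⟨h.1, fun j => (h.2 j).trans (h2 j)⟩

lemma const (c : ℝ) : HD (fun _ : EE m => c) (fun _ => 0) y := by
  refine ⟨differentiableAt_const c, fun j => ?_⟩
  simp

lemma coord (i : Fin m) : HD (fun z : EE m => z i) (fun j => if i = j then 1 else 0) y := by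
  have h : HasFDerivAt (fun z : EE m => z i) (EuclideanSpace.proj i : EE m →L[ℝ] ℝ) y :=
    (EuclideanSpace.proj i : EE m →L[ℝ] ℝ).hasFDerivAt
  refine ⟨h.differentiableAt, fun j => ?_⟩
  rw [h.fderiv]
  simp [Pi.single_apply]

lemma add (hf : HD f f' y) (hg : HD g g' y) : HD (fun z => f z + g z) (fun j => f' j + g' j) y := by
  refine ⟨hf.1.add hg.1, fun j => ?_⟩
  have : fderiv ℝ (fun z => f z + g z) y = fderiv ℝ f y + fderiv ℝ g y := fderiv_add hf.1 hg.1
  rw [this, ContinuousLinearMap.add_apply, hf.2, hg.2]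

lemma sub (hf : HD f f' y) (hg : HD g g' y) : HD (fun z => f z - g z) (fun j => f' j - g' j) y := by
  refine ⟨hf.1.sub hg.1, fun j => ?_⟩
  have : fderiv ℝ (fun z => f z - g z) y = fderiv ℝ f y - fderiv ℝ g y := fderiv_sub hf.1 hg.1
  rw [this, ContinuousLinearMap.sub_apply, hf.2, hg.2]

lemma neg (hf : HD f f' y) : HD (fun z => - f z) (fun j => - f' j) y := by
  refine ⟨hf.1.neg, fun j => ?_⟩
  have : fderiv ℝ (fun z => - f z) y = - fderiv ℝ f y := fderiv_neg
  rw [this, ContinuousLinearMap.neg_apply, hf.2]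

lemma mul (hf : HD f f' y) (hg : HD g g' y) :
    HD (fun z => f z * g z) (fun j => f' j * g y + f y * g' j) y := by
  refine ⟨hf.1.mul hg.1, fun j => ?_⟩
  have : fderiv ℝ (fun z => f z * g z) y = f y • fderiv ℝ g y + g y • fderiv ℝ f y :=
    fderiv_mul hf.1 hg.1
  rw [this, ContinuousLinearMap.add_apply, ContinuousLinearMap.smul_apply,
    ContinuousLinearMap.smul_apply, hf.2, hg.2, smul_eq_mul, smul_eq_mul]
  ring

lemma comp {φ : ℝ → ℝ} {φ' : ℝ} (hφ : HasDerivAt φ φ' (f y)) (hf : HD f f' y) :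
    HD (fun z => φ (f z)) (fun j => φ' * f' j) y := by
  have h := hφ.comp_hasFDerivAt y hf.1.hasFDerivAt
  refine ⟨h.differentiableAt, fun j => ?_⟩
  have h2 : fderiv ℝ (fun z => φ (f z)) y = φ' • fderiv ℝ f y := h.fderiv
  rw [h2, ContinuousLinearMap.smul_apply, hf.2, smul_eq_mul]

lemma compW {φ : ℝ → ℝ} {φ' : ℝ} {S : Set ℝ} (hφ : HasDerivWithinAt φ φ' S (f y)) (hf : HD f f' y)
    (hS : ∀ z, f z ∈ S) : HD (fun z => φ (f z)) (fun j => φ' * f' j) y := by
  have h := hφ.comp_hasFDerivAt y hf.1.hasFDerivAt (Filter.Eventually.of_forall hS)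
  refine ⟨h.differentiableAt, fun j => ?_⟩
  have h2 : fderiv ℝ (fun z => φ (f z)) y = φ' • fderiv ℝ f y := h.fderiv
  rw [h2, ContinuousLinearMap.smul_apply, hf.2, smul_eq_mul]

lemma const_mul (c : ℝ) (hf : HD f f' y) : HD (fun z => c * f z) (fun j => c * f' j) y :=
  ((const c).mul hf).congr fun j => by ring

lemma inv (hf : HD f f' y) (h0 : f y ≠ 0) :
    HD (fun z => (f z)⁻¹) (fun j => -(f' j) / (f y) ^ 2) y :=
  (comp (hasDerivAt_inv h0) hf).congr fun j => by ring

lemma div (hf : HD f f' y) (hg : HD g g' y) (h0 : g y ≠ 0) :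
    HD (fun z => f z / g z) (fun j => (f' j * g y - f y * g' j) / (g y) ^ 2) y :=
  (hf.mul (hg.inv h0)).congr fun j => by field_simp; ring

lemma normsq : HD (fun z : EE m => ‖z‖ ^ 2) (fun j => 2 * y j) y := by
  have h : HasFDerivAt (fun z : EE m => ‖z‖ ^ 2) (2 • (innerSL ℝ y)) y :=
    (hasStrictFDerivAt_norm_sq y).hasFDerivAt
  refine ⟨h.differentiableAt, fun j => ?_⟩
  rw [h.fderiv]
  simp [EuclideanSpace.inner_single_right]

lemma innerL (b : EE m) : HD (fun z : EE m => inner ℝ b z) (fun j => b j) y := by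
  have h : HasFDerivAt (fun z : EE m => inner ℝ b z) (innerSL ℝ b) y :=
    (innerSL ℝ b).hasFDerivAt
  refine ⟨h.differentiableAt, fun j => ?_⟩
  rw [h.fderiv]
  simp [EuclideanSpace.inner_single_right]

lemma of_eq (h : HD f f' y) (h2 : ∀ z, g z = f z) : HD g f' y := by
  have : g = f := funext h2
  rw [this]; exact h

end HD

section base

variable {m : ℕ}

/-- the conformal factor of the stereographic chart -/
noncomputable def rho (y : EE m) : ℝ := 4 / (‖y‖ ^ 2 + 4)

/-- `∂_i log ρ` -/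
noncomputable def uu (i : Fin m) (y : EE m) : ℝ := -2 * y i / (‖y‖ ^ 2 + 4)

/-- the height function in a stereographic chart -/
noncomputable def hh (b : EE m) (c : ℝ) (y : EE m) : ℝ :=
  (4 * inner ℝ b y + (‖y‖ ^ 2 - 4) * c) / (‖y‖ ^ 2 + 4)

/-- `∂_i h` -/
noncomputable def hi (b : EE m) (c : ℝ) (i : Fin m) (y : EE m) : ℝ :=
  (4 * b i + 2 * (c - hh b c y) * y i) / (‖y‖ ^ 2 + 4)

/-- auxiliary scalar: the trace part of the Hessian of `h` -/
noncomputable def ss (b : EE m) (c : ℝ) (y : EE m) : ℝ := (c - hh b c y) * rho y / 2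

lemma N_pos (y : EE m) : 0 < ‖y‖ ^ 2 + 4 := by positivity

lemma rho_pos (y : EE m) : 0 < rho y := by unfold rho; positivity

lemma HD_N (y : EE m) : HD (fun z : EE m => ‖z‖ ^ 2 + 4) (fun j => 2 * y j) y :=
  (HD.normsq.add (HD.const 4)).congr fun j => by ring

lemma HD_rho (y : EE m) : HD (rho (m := m)) (fun j => rho y * uu j y) y := by
  have h := (HD.const (m := m) (y := y) 4).div (HD_N y) (N_pos y).ne'
  refine h.congr fun j => ?_
  have := (N_pos y).ne'
  unfold rho uu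
  field_simp
  ring

lemma HD_uu (i : Fin m) (y : EE m) :
    HD (uu i) (fun j => uu i y * uu j y - rho y / 2 * (if i = j then 1 else 0)) y := by
  have h := (HD.const_mul (-2) (HD.coord i)).div (HD_N y) (N_pos y).ne'
  refine h.congr fun j => ?_
  have := (N_pos y).ne'
  unfold rho uu
  field_simp
  ring

lemma HD_hh (b : EE m) (c : ℝ) (y : EE m) : HD (hh b c) (fun j => hi b c j y) y := by
  have h := ((HD.const_mul 4 (HD.innerL b)).add (((HD.normsq (y := y)).sub (HD.const 4)).mul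
    (HD.const c))).div (HD_N y) (N_pos y).ne'
  refine h.congr fun j => ?_
  have := (N_pos y).ne'
  unfold hi hh
  field_simp
  ring

lemma HD_hi (b : EE m) (c : ℝ) (i : Fin m) (y : EE m) :
    HD (hi b c i) (fun j => uu i y * hi b c j y + uu j y * hi b c i y +
      ss b c y * (if i = j then 1 else 0)) y := by
  have h := ((HD.const (4 * b i)).add ((HD.const_mul 2 ((HD.const c).sub (HD_hh b c y))).mul
    (HD.coord i))).div (HD_N y) (N_pos y).ne'
  refine h.congr fun j => ?_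
  have := (N_pos y).ne'
  unfold ss rho uu
  have e : hi b c i y = (4 * b i + 2 * (c - hh b c y) * y i) / (‖y‖ ^ 2 + 4) := rfl
  rw [e]
  generalize hi b c j y = H
  generalize hh b c y = hv
  field_simp
  ring

lemma sum_sq (y : EE m) : ∑ k, y k ^ 2 = ‖y‖ ^ 2 := by
  rw [EuclideanSpace.norm_sq_eq]
  simp

lemma sum_by (b y : EE m) : ∑ k, b k * y k = inner ℝ b y := by
  rw [PiLp.inner_apply]
  refine Finset.sum_congr rfl fun k _ => ?_
  simp [mul_comm]

lemma sum_uu (y : EE m) : ∑ k, uu k y * uu k y = rho y - rho y ^ 2 := by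
  have h : ∀ k, uu k y * uu k y = 4 / (‖y‖ ^ 2 + 4) ^ 2 * y k ^ 2 := by
    intro k
    have := (N_pos y).ne'
    unfold uu
    field_simp
    ring
  simp only [h]
  rw [← Finset.mul_sum, sum_sq]
  have := (N_pos y).ne'
  unfold rho
  field_simp
  ring

lemma sum_uh (b : EE m) (c : ℝ) (y : EE m) :
    ∑ k, uu k y * hi b c k y = -(hh b c y * rho y ^ 2) - ss b c y := by
  have h : ∀ k, uu k y * hi b c k y = -8 / (‖y‖ ^ 2 + 4) ^ 2 * (b k * y k) +
      -4 * (c - hh b c y) / (‖y‖ ^ 2 + 4) ^ 2 * y k ^ 2 := by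
    intro k
    have := (N_pos y).ne'
    unfold uu hi
    field_simp
    ring
  simp only [h]
  rw [Finset.sum_add_distrib, ← Finset.mul_sum, ← Finset.mul_sum, sum_sq, sum_by]
  have h2 : inner ℝ b y = (hh b c y * (‖y‖ ^ 2 + 4) - (‖y‖ ^ 2 - 4) * c) / 4 := by
    unfold hh
    have := (N_pos y).ne'
    field_simp
    ring
  rw [h2]
  have := (N_pos y).ne'
  unfold ss rho
  field_simp
  ring

lemma sum_hh {b : EE m} {c : ℝ} (hb : ‖b‖ ^ 2 + c ^ 2 = 1) (y : EE m) :
    ∑ k, hi b c k y * hi b c k y = rho y ^ 2 * (1 - hh b c y ^ 2) := by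
  have h : ∀ k, hi b c k y * hi b c k y = 16 / (‖y‖ ^ 2 + 4) ^ 2 * b k ^ 2 +
      16 * (c - hh b c y) / (‖y‖ ^ 2 + 4) ^ 2 * (b k * y k) +
      4 * (c - hh b c y) ^ 2 / (‖y‖ ^ 2 + 4) ^ 2 * y k ^ 2 := by
    intro k
    have := (N_pos y).ne'
    unfold hi
    field_simp
    ring
  simp only [h]
  rw [Finset.sum_add_distrib, Finset.sum_add_distrib, ← Finset.mul_sum, ← Finset.mul_sum,
    ← Finset.mul_sum, sum_sq, sum_sq, sum_by]
  have h2 : inner ℝ b y = (hh b c y * (‖y‖ ^ 2 + 4) - (‖y‖ ^ 2 - 4) * c) / 4 := by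
    unfold hh
    have := (N_pos y).ne'
    field_simp
    ring
  have hb2 : ‖b‖ ^ 2 = 1 - c ^ 2 := by linarith only [hb]
  rw [h2, hb2]
  have := (N_pos y).ne'
  unfold rho
  field_simp
  ring

lemma hh_mem {b : EE m} {c : ℝ} (hb : ‖b‖ ^ 2 + c ^ 2 = 1) (y : EE m) :
    hh b c y ∈ Icc (-1 : ℝ) 1 := by
  have h1 := sum_hh hb y
  have h2 : 0 ≤ ∑ k, hi b c k y * hi b c k y := Finset.sum_nonneg fun k _ => mul_self_nonneg _
  rw [h1] at h2
  have h3 : 0 < rho y ^ 2 := by have := rho_pos y; positivity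
  have h4 : 0 ≤ 1 - hh b c y ^ 2 := by
    by_contra hneg
    push Not at hneg
    have := mul_neg_of_pos_of_neg h3 hneg
    linarith only [h2, this]
  constructor <;> nlinarith only [h4]

end base

end Vale.Agent.P244.Geo
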