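import Vale.Agent.P244.GeoRicciA

set_option linter.all false

/-! # P244, block G1, part B: metric, inverse metric, Christoffel symbols. -/

open scoped ContDiff
open Set
open Vale.Agent.P244.Flow (pd christoffel ricci)

namespace Vale.Agent.P244.Geo

/-- Kronecker delta -/
def dl {n : ℕ} (i j : Fin n) : ℝ := if i = j then 1 else 0

section delta

variable {n : ℕ}

lemma dl_comm (i j : Fin n) : dl i j = dl j i := by
  unfold dl
  by_cases h : i = j
  · subst h; rfl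
  · rw [if_neg h, if_neg (Ne.symm h)]

lemma dl_self (i : Fin n) : dl i i = 1 := by simp [dl]

lemma sum_dl (i : Fin n) (f : Fin n → ℝ) : ∑ k, dl i k * f k = f i := by
  simp [dl]

lemma sum_dl' (i : Fin n) (f : Fin n → ℝ) : ∑ k, dl k i * f k = f i := by
  simp [dl]

lemma dl_mul_self (i j : Fin n) : dl i j * dl i j = dl i j := by
  unfold dl; split_ifs <;> simp

lemma dl_subst (i j : Fin n) (f : Fin n → ℝ) : dl i j * f i = dl i j * f j := by
  unfold dl; split_ifs with h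
  · rw [h]
  · simp

end delta

/-- the coordinate frame of `ℝ^m × ℝ^p` -/
noncomputable def frame (m p : ℕ) : Fin (m + p) → EE m × EE p :=
  Fin.addCases (fun i => (EuclideanSpace.single i 1, 0)) (fun j => (0, EuclideanSpace.single j 1))

/-- block diagonal matrix -/
def blk {m p : ℕ} (M1 : Fin m → Fin m → ℝ) (M2 : Fin p → Fin p → ℝ) :
    Matrix (Fin (m + p)) (Fin (m + p)) ℝ :=
  Matrix.of fun I J => Fin.addCases (fun i => Fin.addCases (fun j => M1 i j) (fun _ => 0) J)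
    (fun a => Fin.addCases (fun _ => 0) (fun b => M2 a b) J) I

variable {m p : ℕ}

lemma frame_left (i : Fin m) :
    frame m p (Fin.castAdd p i) = (EuclideanSpace.single i 1, 0) := by simp [frame]

lemma frame_right (a : Fin p) :
    frame m p (Fin.natAdd m a) = (0, EuclideanSpace.single a 1) := by simp [frame]

lemma blk_ll (M1 : Fin m → Fin m → ℝ) (M2 : Fin p → Fin p → ℝ) (i j : Fin m) :
    blk M1 M2 (Fin.castAdd p i) (Fin.castAdd p j) = M1 i j := by simp [blk]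

lemma blk_lr (M1 : Fin m → Fin m → ℝ) (M2 : Fin p → Fin p → ℝ) (i : Fin m)
    (a : Fin p) : blk M1 M2 (Fin.castAdd p i) (Fin.natAdd m a) = 0 := by simp [blk]

lemma blk_rl (M1 : Fin m → Fin m → ℝ) (M2 : Fin p → Fin p → ℝ) (i : Fin m)
    (a : Fin p) : blk M1 M2 (Fin.natAdd m a) (Fin.castAdd p i) = 0 := by simp [blk]

lemma blk_rr (M1 : Fin m → Fin m → ℝ) (M2 : Fin p → Fin p → ℝ) (a a' : Fin p) :
    blk M1 M2 (Fin.natAdd m a) (Fin.natAdd m a') = M2 a a' := by simp [blk]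

lemma blk_one : blk (dl : Fin m → Fin m → ℝ) (dl : Fin p → Fin p → ℝ) = 1 := by
  ext I J
  refine Fin.addCases (fun i => ?_) (fun a => ?_) I <;>
  refine Fin.addCases (fun j => ?_) (fun a' => ?_) J
  · rw [blk_ll, Matrix.one_apply]
    simp [dl]
  · rw [blk_lr, Matrix.one_apply, if_neg]
    intro h
    have := congrArg Fin.val h
    simp at this
    omega
  · rw [blk_rl, Matrix.one_apply, if_neg]
    intro h
    have := congrArg Fin.val h
    simp at this
    omega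
  · rw [blk_rr, Matrix.one_apply]
    simp [dl]

lemma blk_inv {M1 N1 : Fin m → Fin m → ℝ} {M2 N2 : Fin p → Fin p → ℝ}
    (h1 : ∀ i j, ∑ k, M1 i k * N1 k j = dl i j) (h2 : ∀ i j, ∑ k, M2 i k * N2 k j = dl i j) :
    (blk M1 M2)⁻¹ = blk N1 N2 := by
  refine Matrix.inv_eq_right_inv ?_
  rw [← blk_one]
  ext I J
  rw [Matrix.mul_apply, Fin.sum_univ_add]
  refine Fin.addCases (fun i => ?_) (fun a => ?_) I <;>
  refine Fin.addCases (fun j => ?_) (fun a' => ?_) J <;>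
  simp [blk_ll, blk_lr, blk_rl, blk_rr, h1, h2]

/-- `F` is differentiable at `y`, with partial derivatives `f1` (first factor), `f2` (second) -/
def PD (F : EE m × EE p → ℝ) (f1 : Fin m → ℝ) (f2 : Fin p → ℝ) (y : EE m × EE p) : Prop :=
  DifferentiableAt ℝ F y ∧ (∀ i, pd (frame m p) (Fin.castAdd p i) F y = f1 i) ∧
    ∀ a, pd (frame m p) (Fin.natAdd m a) F y = f2 a

namespace PD

variable {F K : EE m × EE p → ℝ} {f1 k1 : Fin m → ℝ} {f2 k2 : Fin p → ℝ} {y : EE m × EE p}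

lemma congr (h : PD F f1 f2 y) (h1 : ∀ j, f1 j = k1 j) (h2 : ∀ j, f2 j = k2 j) : PD F k1 k2 y :=
  ⟨h.1, fun j => (h.2.1 j).trans (h1 j), fun j => (h.2.2 j).trans (h2 j)⟩

lemma fst {f : EE m → ℝ} {f' : Fin m → ℝ} (h : HD f f' y.1) :
    PD (fun z : EE m × EE p => f z.1) f' (fun _ => 0) y := by
  have h1 : HasFDerivAt (fun z : EE m × EE p => f z.1)
      ((fderiv ℝ f y.1).comp (ContinuousLinearMap.fst ℝ (EE m) (EE p))) y :=
    h.1.hasFDerivAt.comp y hasFDerivAt_fst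
  refine ⟨h1.differentiableAt, fun i => ?_, fun a => ?_⟩
  · unfold pd
    rw [h1.fderiv, frame_left]
    simpa using h.2 i
  · unfold pd
    rw [h1.fderiv, frame_right]
    simp

lemma snd {f : EE p → ℝ} {f' : Fin p → ℝ} (h : HD f f' y.2) :
    PD (fun z : EE m × EE p => f z.2) (fun _ => 0) f' y := by
  have h1 : HasFDerivAt (fun z : EE m × EE p => f z.2)
      ((fderiv ℝ f y.2).comp (ContinuousLinearMap.snd ℝ (EE m) (EE p))) y :=
    h.1.hasFDerivAt.comp y hasFDerivAt_snd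
  refine ⟨h1.differentiableAt, fun i => ?_, fun a => ?_⟩
  · unfold pd
    rw [h1.fderiv, frame_left]
    simp
  · unfold pd
    rw [h1.fderiv, frame_right]
    simpa using h.2 a

lemma const (c : ℝ) : PD (fun _ : EE m × EE p => c) (fun _ => 0) (fun _ => 0) y := by
  refine ⟨differentiableAt_const c, fun i => ?_, fun a => ?_⟩ <;> simp [pd]

lemma add (hF : PD F f1 f2 y) (hK : PD K k1 k2 y) :
    PD (fun z => F z + K z) (fun j => f1 j + k1 j) (fun j => f2 j + k2 j) y := by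
  have : fderiv ℝ (fun z => F z + K z) y = fderiv ℝ F y + fderiv ℝ K y := fderiv_add hF.1 hK.1
  refine ⟨hF.1.add hK.1, fun i => ?_, fun a => ?_⟩
  · beta_reduce; rw [← hF.2.1 i, ← hK.2.1 i]; unfold pd; rw [this]; rfl
  · beta_reduce; rw [← hF.2.2 a, ← hK.2.2 a]; unfold pd; rw [this]; rfl

lemma sub (hF : PD F f1 f2 y) (hK : PD K k1 k2 y) :
    PD (fun z => F z - K z) (fun j => f1 j - k1 j) (fun j => f2 j - k2 j) y := by
  have : fderiv ℝ (fun z => F z - K z) y = fderiv ℝ F y - fderiv ℝ K y := fderiv_sub hF.1 hK.1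
  refine ⟨hF.1.sub hK.1, fun i => ?_, fun a => ?_⟩
  · beta_reduce; rw [← hF.2.1 i, ← hK.2.1 i]; unfold pd; rw [this]; rfl
  · beta_reduce; rw [← hF.2.2 a, ← hK.2.2 a]; unfold pd; rw [this]; rfl

lemma neg (hF : PD F f1 f2 y) : PD (fun z => - F z) (fun j => - f1 j) (fun j => - f2 j) y := by
  have : fderiv ℝ (fun z => - F z) y = - fderiv ℝ F y := fderiv_neg
  refine ⟨hF.1.neg, fun i => ?_, fun a => ?_⟩
  · beta_reduce; rw [← hF.2.1 i]; unfold pd; rw [this]; rfl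
  · beta_reduce; rw [← hF.2.2 a]; unfold pd; rw [this]; rfl

lemma mul (hF : PD F f1 f2 y) (hK : PD K k1 k2 y) :
    PD (fun z => F z * K z) (fun j => f1 j * K y + F y * k1 j) (fun j => f2 j * K y + F y * k2 j)
      y := by
  have h : fderiv ℝ (fun z => F z * K z) y = F y • fderiv ℝ K y + K y • fderiv ℝ F y :=
    fderiv_mul hF.1 hK.1
  refine ⟨hF.1.mul hK.1, fun i => ?_, fun a => ?_⟩
  · beta_reduce; rw [← hF.2.1 i, ← hK.2.1 i]; unfold pd
    rw [h, ContinuousLinearMap.add_apply, ContinuousLinearMap.smul_apply,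
      ContinuousLinearMap.smul_apply, smul_eq_mul, smul_eq_mul]
    ring
  · beta_reduce; rw [← hF.2.2 a, ← hK.2.2 a]; unfold pd
    rw [h, ContinuousLinearMap.add_apply, ContinuousLinearMap.smul_apply,
      ContinuousLinearMap.smul_apply, smul_eq_mul, smul_eq_mul]
    ring

lemma of_eq (h : PD F f1 f2 y) (h2 : ∀ z, K z = F z) : PD K f1 f2 y := by
  have : K = F := funext h2
  rw [this]; exact h

end PD

/-- profile functions with their first two derivatives -/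
structure Prof where
  A : ℝ → ℝ
  A1 : ℝ → ℝ
  A2 : ℝ → ℝ
  B : ℝ → ℝ
  B1 : ℝ → ℝ
  B2 : ℝ → ℝ
  C : ℝ → ℝ
  C1 : ℝ → ℝ
  C2 : ℝ → ℝ

namespace Prof

/-- regularity and positivity of the profile functions on `[-1,1]` -/
structure Good (P : Prof) : Prop where
  hA : ∀ x ∈ Icc (-1 : ℝ) 1, HasDerivWithinAt P.A (P.A1 x) (Icc (-1) 1) x
  hA1 : ∀ x ∈ Icc (-1 : ℝ) 1, HasDerivWithinAt P.A1 (P.A2 x) (Icc (-1) 1) x
  hB : ∀ x ∈ Icc (-1 : ℝ) 1, HasDerivWithinAt P.B (P.B1 x) (Icc (-1) 1) x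
  hB1 : ∀ x ∈ Icc (-1 : ℝ) 1, HasDerivWithinAt P.B1 (P.B2 x) (Icc (-1) 1) x
  hC : ∀ x ∈ Icc (-1 : ℝ) 1, HasDerivWithinAt P.C (P.C1 x) (Icc (-1) 1) x
  hC1 : ∀ x ∈ Icc (-1 : ℝ) 1, HasDerivWithinAt P.C1 (P.C2 x) (Icc (-1) 1) x
  posA : ∀ x ∈ Icc (-1 : ℝ) 1, 0 < P.A x
  posAB : ∀ x ∈ Icc (-1 : ℝ) 1, 0 < P.A x + P.B x * (1 - x ^ 2)
  posC : ∀ x ∈ Icc (-1 : ℝ) 1, 0 < P.C x

variable (P : Prof)

/-- `D = 1/(A + B (1 - x^2))` -/
noncomputable def D (x : ℝ) : ℝ := (P.A x + P.B x * (1 - x ^ 2))⁻¹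
/-- derivative of `D` -/
noncomputable def D1 (x : ℝ) : ℝ :=
  -(P.A1 x + P.B1 x * (1 - x ^ 2) - 2 * x * P.B x) * P.D x ^ 2
noncomputable def al (x : ℝ) : ℝ := P.A1 x / (2 * P.A x)
noncomputable def al1 (x : ℝ) : ℝ := P.A2 x / (2 * P.A x) - P.A1 x ^ 2 / (2 * P.A x ^ 2)
noncomputable def ga (x : ℝ) : ℝ := -(P.D x * (P.A1 x / 2 + P.B x * x))
noncomputable def ga1 (x : ℝ) : ℝ := -(P.D1 x * (P.A1 x / 2 + P.B x * x) +
  P.D x * (P.A2 x / 2 + P.B1 x * x + P.B x))
noncomputable def be (x : ℝ) : ℝ := P.D x * (P.B1 x / 2 - 2 * P.al x * P.B x)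
noncomputable def be1 (x : ℝ) : ℝ := P.D1 x * (P.B1 x / 2 - 2 * P.al x * P.B x) +
  P.D x * (P.B2 x / 2 - (2 * P.al1 x * P.B x + 2 * P.al x * P.B1 x))
noncomputable def ka (x : ℝ) : ℝ := P.C1 x / (2 * P.C x)
noncomputable def ka1 (x : ℝ) : ℝ := P.C2 x / (2 * P.C x) - P.C1 x ^ 2 / (2 * P.C x ^ 2)
noncomputable def la (x : ℝ) : ℝ := P.C1 x * P.D x / 2
noncomputable def la1 (x : ℝ) : ℝ := (P.C2 x * P.D x + P.C1 x * P.D1 x) / 2

variable {P} (hP : P.Good) {x : ℝ} (hx : x ∈ Icc (-1 : ℝ) 1)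
include hP hx

lemma Good.der_D : HasDerivWithinAt P.D (P.D1 x) (Icc (-1) 1) x := by
  have h0 := (hP.posAB x hx).ne'
  have hq : HasDerivWithinAt (fun x : ℝ => 1 - x ^ 2) (-(2 * x)) (Icc (-1) 1) x := by
    have := ((hasDerivAt_const x (1 : ℝ)).sub (hasDerivAt_pow 2 x)).hasDerivWithinAt (s := Icc (-1) 1)
    refine this.congr_deriv ?_
    simp
  have h1 := (hP.hA x hx).add ((hP.hB x hx).mul hq)
  have h2 := HasDerivWithinAt.inv h1 h0
  refine h2.congr_deriv ?_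
  unfold D1 D
  simp only [Pi.add_apply, Pi.mul_apply]
  field_simp
  ring

lemma Good.der_al : HasDerivWithinAt P.al (P.al1 x) (Icc (-1) 1) x := by
  have h0 := (hP.posA x hx).ne'
  have h1 := (hP.hA1 x hx).div ((hP.hA x hx).const_mul 2) (by simpa using h0)
  refine h1.congr_deriv ?_
  unfold al1
  field_simp

lemma Good.der_ka : HasDerivWithinAt P.ka (P.ka1 x) (Icc (-1) 1) x := by
  have h0 := (hP.posC x hx).ne'
  have h1 := (hP.hC1 x hx).div ((hP.hC x hx).const_mul 2) (by simpa using h0)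
  refine h1.congr_deriv ?_
  unfold ka1
  field_simp

lemma Good.der_ga : HasDerivWithinAt P.ga (P.ga1 x) (Icc (-1) 1) x := by
  have h1 := ((hP.der_D hx).mul (((hP.hA1 x hx).div_const 2).add
    ((hP.hB x hx).mul (hasDerivWithinAt_id x _)))).neg
  refine h1.congr_deriv ?_
  unfold ga1
  simp only [Pi.add_apply, Pi.mul_apply, id]
  ring

lemma Good.der_be : HasDerivWithinAt P.be (P.be1 x) (Icc (-1) 1) x := by
  have h1 := ((hP.der_D hx).mul (((hP.hB1 x hx).div_const 2).sub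
    (((hP.der_al hx).const_mul 2).mul (hP.hB x hx))))
  refine h1.congr_deriv ?_
  unfold be1
  simp only [Pi.sub_apply, Pi.mul_apply, id]

lemma Good.der_la : HasDerivWithinAt P.la (P.la1 x) (Icc (-1) 1) x := by
  have h1 := ((hP.hC1 x hx).mul (hP.der_D hx)).div_const 2
  exact h1.congr_deriv (by unfold la1; rfl)

end Prof

end Vale.Agent.P244.Geo
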