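import Vale.Agent.P244.GeoRicciB

set_option linter.all false

/-! # P244, block G1, part C: the metric, its inverse and its Christoffel symbols. -/

open scoped ContDiff
open Set
open Vale.Agent.P244.Flow (pd christoffel ricci)

namespace Vale.Agent.P244.Geo

variable {m p : ℕ}

/-- the doubly warped metric in a product of two stereographic charts -/
noncomputable def G (m p : ℕ) (b : EE m) (c : ℝ) (A B C : ℝ → ℝ) (y : EE m × EE p) :
    Matrix (Fin (m + p)) (Fin (m + p)) ℝ :=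
  blk (fun i j => A (hh b c y.1) * (rho y.1 ^ 2 * dl i j) +
      B (hh b c y.1) * (hi b c i y.1 * hi b c j y.1))
    (fun a a' => C (hh b c y.1) * (rho y.2 ^ 2 * dl a a'))

/-! ### algebra -/

lemma contr (h X : Fin m → ℝ) (a e : ℝ) (k : Fin m) :
    ∑ l, (a * (dl k l - e * (h k * h l))) * X l = a * (X k - e * h k * ∑ l, h l * X l) := by
  have h1 : ∀ l, (a * (dl k l - e * (h k * h l))) * X l =
      a * (dl k l * X l) - a * e * h k * (h l * X l) := fun l => by ring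
  simp only [h1]
  rw [Finset.sum_sub_distrib, ← Finset.mul_sum, ← Finset.mul_sum, sum_dl]
  ring

lemma sum_hX (h u : Fin m → ℝ) (c1 c2 c3 c4 : ℝ) (i j : Fin m) :
    ∑ l, h l * (c1 * dl j l + c2 * dl i l + c3 * u l + c4 * h l) =
      c1 * h j + c2 * h i + c3 * ∑ l, u l * h l + c4 * ∑ l, h l * h l := by
  have h1 : ∀ l, h l * (c1 * dl j l + c2 * dl i l + c3 * u l + c4 * h l) =
      c1 * (dl j l * h l) + c2 * (dl i l * h l) + c3 * (u l * h l) + c4 * (h l * h l) :=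
    fun l => by ring
  simp only [h1]
  rw [Finset.sum_add_distrib, Finset.sum_add_distrib, Finset.sum_add_distrib, ← Finset.mul_sum,
    ← Finset.mul_sum, ← Finset.mul_sum, ← Finset.mul_sum, sum_dl, sum_dl]

lemma inv_alg (h : Fin m → ℝ) (a B e : ℝ) (ha : a ≠ 0) (he : B - a * e - B * e * ∑ l, h l * h l = 0)
    (i j : Fin m) :
    ∑ k, (a * dl i k + B * (h i * h k)) * (a⁻¹ * (dl k j - e * (h k * h j))) = dl i j := by
  have h1 : ∀ k, (a * dl i k + B * (h i * h k)) * (a⁻¹ * (dl k j - e * (h k * h j))) =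
      dl i k * (dl k j - e * (h k * h j)) + (B * h i * a⁻¹) * (dl k j * h k) -
      (B * h i * a⁻¹ * e * h j) * (h k * h k) := by
    intro k
    field_simp
    ring
  simp only [h1]
  rw [Finset.sum_sub_distrib, Finset.sum_add_distrib, ← Finset.mul_sum, ← Finset.mul_sum, sum_dl,
    sum_dl']
  have h2 : a⁻¹ * a = 1 := inv_mul_cancel₀ ha
  have h3 : e = a⁻¹ * (a * e) := by rw [← mul_assoc, h2, one_mul]
  linear_combination (a⁻¹ * h i * h j) * he + (-(h i * h j)) * h3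

lemma chr_alg (h u : Fin m → ℝ) (A A1 B B1 D ρ s x : ℝ) (hA : A ≠ 0) (hρ : ρ ≠ 0)
    (hD : D * (A + B * (1 - x ^ 2)) = 1)
    (huh : ∑ l, u l * h l = -(x * ρ ^ 2) - s) (hhh : ∑ l, h l * h l = ρ ^ 2 * (1 - x ^ 2))
    (i j k : Fin m) :
    (1 / 2) * ∑ l, ((A * ρ ^ 2)⁻¹ * (dl k l - (B * D / ρ ^ 2) * (h k * h l))) *
      ((((A1 * h i) * (ρ ^ 2 * dl j l) + A * ((2 * ρ * (ρ * u i)) * dl j l)) + ((B1 * h i) * (h j * h l)
        + B * ((u j * h i + u i * h j + s * dl j i) * h l + h j * (u l * h i + u i * h l +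
          s * dl l i)))) +
       (((A1 * h j) * (ρ ^ 2 * dl i l) + A * ((2 * ρ * (ρ * u j)) * dl i l)) + ((B1 * h j) * (h i * h l)
        + B * ((u i * h j + u j * h i + s * dl i j) * h l + h i * (u l * h j + u j * h l +
          s * dl l j)))) -
       (((A1 * h l) * (ρ ^ 2 * dl i j) + A * ((2 * ρ * (ρ * u l)) * dl i j)) + ((B1 * h l) * (h i * h j)
        + B * ((u i * h l + u l * h i + s * dl i l) * h j + h i * (u j * h l + u l * h j +
          s * dl j l))))) =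
    dl j k * (u i + A1 / (2 * A) * h i) + dl i k * (u j + A1 / (2 * A) * h j) +
      dl i j * (-u k + -(D * (A1 / 2 + B * x)) * h k) +
      D * (B1 / 2 - 2 * (A1 / (2 * A)) * B) / ρ ^ 2 * (h i * h j * h k) := by
  have h1 : ∀ l, ((A * ρ ^ 2)⁻¹ * (dl k l - (B * D / ρ ^ 2) * (h k * h l))) *
      ((((A1 * h i) * (ρ ^ 2 * dl j l) + A * ((2 * ρ * (ρ * u i)) * dl j l)) + ((B1 * h i) * (h j * h l)
        + B * ((u j * h i + u i * h j + s * dl j i) * h l + h j * (u l * h i + u i * h l +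
          s * dl l i)))) +
       (((A1 * h j) * (ρ ^ 2 * dl i l) + A * ((2 * ρ * (ρ * u j)) * dl i l)) + ((B1 * h j) * (h i * h l)
        + B * ((u i * h j + u j * h i + s * dl i j) * h l + h i * (u l * h j + u j * h l +
          s * dl l j)))) -
       (((A1 * h l) * (ρ ^ 2 * dl i j) + A * ((2 * ρ * (ρ * u l)) * dl i j)) + ((B1 * h l) * (h i * h j)
        + B * ((u i * h l + u l * h i + s * dl i l) * h j + h i * (u j * h l + u l * h j +
          s * dl j l))))) =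
      ((A * ρ ^ 2)⁻¹ * (dl k l - (B * D / ρ ^ 2) * (h k * h l))) *
      (((A1 * h i + 2 * A * u i) * ρ ^ 2) * dl j l + ((A1 * h j + 2 * A * u j) * ρ ^ 2) * dl i l +
        (-2 * A * ρ ^ 2 * dl i j) * u l + (-A1 * ρ ^ 2 * dl i j + B1 * h i * h j +
          2 * B * (u j * h i + u i * h j + s * dl i j)) * h l) := by
    intro l
    rw [dl_comm l i, dl_comm l j, dl_comm j i]
    congr 1
    ring
  simp only [h1]
  rw [contr, sum_hX, huh, hhh]
  generalize dl j k = d1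
  generalize dl i k = d2
  generalize dl i j = d3
  have hD0 : A + B * (1 - x ^ 2) ≠ 0 := by
    intro h0; rw [h0] at hD; simp at hD
  have hD1 : D = 1 / (A + B * (1 - x ^ 2)) := by field_simp; linarith only [hD]
  rw [hD1]
  field_simp
  ring

/-! ### base functions on the product -/

section base

variable {P : Prof} {b : EE m} {c : ℝ}

lemma PD_comp {φ : ℝ → ℝ} {φ' : ℝ} (hb : ‖b‖ ^ 2 + c ^ 2 = 1) (y : EE m × EE p)
    (hφ : HasDerivWithinAt φ φ' (Icc (-1) 1) (hh b c y.1)) :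
    PD (fun z : EE m × EE p => φ (hh b c z.1)) (fun k => φ' * hi b c k y.1) (fun _ => 0) y :=
  PD.fst (HD.compW hφ (HD_hh b c y.1) (hh_mem hb))

lemma PD_hi (i : Fin m) (y : EE m × EE p) :
    PD (fun z : EE m × EE p => hi b c i z.1) (fun k => uu i y.1 * hi b c k y.1 +
      uu k y.1 * hi b c i y.1 + ss b c y.1 * dl i k) (fun _ => 0) y :=
  PD.fst (HD_hi b c i y.1)

lemma HD_rho2 (y : EE m) : HD (fun z : EE m => rho z ^ 2) (fun j => 2 * rho y * (rho y * uu j y)) y :=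
  (((HD_rho y).mul (HD_rho y)).congr fun j => by ring).of_eq fun z => by ring

/-- `∂_K g_ij`, first block -/
lemma PD_G_ll (hP : P.Good) (hb : ‖b‖ ^ 2 + c ^ 2 = 1) (i j : Fin m) (y : EE m × EE p) :
    PD (fun z => G m p b c P.A P.B P.C z (Fin.castAdd p i) (Fin.castAdd p j))
      (fun k => ((P.A1 (hh b c y.1) * hi b c k y.1) * (rho y.1 ^ 2 * dl i j) +
        P.A (hh b c y.1) * ((2 * rho y.1 * (rho y.1 * uu k y.1)) * dl i j)) +
        ((P.B1 (hh b c y.1) * hi b c k y.1) * (hi b c i y.1 * hi b c j y.1) +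
        P.B (hh b c y.1) * ((uu i y.1 * hi b c k y.1 + uu k y.1 * hi b c i y.1 +
          ss b c y.1 * dl i k) * hi b c j y.1 + hi b c i y.1 * (uu j y.1 * hi b c k y.1 +
          uu k y.1 * hi b c j y.1 + ss b c y.1 * dl j k)))) (fun _ => 0) y := by
  have hx := hh_mem hb y.1
  have h1 := (PD_comp (p := p) hb y (hP.hA _ hx)).mul ((PD.fst (HD_rho2 y.1)).mul (PD.const (dl i j)))
  have h2 := (PD_comp (p := p) hb y (hP.hB _ hx)).mul
    ((PD_hi (b := b) (c := c) i y).mul (PD_hi (b := b) (c := c) j y))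
  refine ((h1.add h2).of_eq fun z => ?_).congr (fun k => ?_) (fun k => ?_)
  · unfold G; rw [blk_ll]
  · ring
  · ring

/-- `∂_K g_ab`, second block -/
lemma PD_G_rr (hP : P.Good) (hb : ‖b‖ ^ 2 + c ^ 2 = 1) (a a' : Fin p) (y : EE m × EE p) :
    PD (fun z => G m p b c P.A P.B P.C z (Fin.natAdd m a) (Fin.natAdd m a'))
      (fun k => (P.C1 (hh b c y.1) * hi b c k y.1) * (rho y.2 ^ 2 * dl a a'))
      (fun k => P.C (hh b c y.1) * ((2 * rho y.2 * (rho y.2 * uu k y.2)) * dl a a')) y := by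
  have hx := hh_mem hb y.1
  have h1 := (PD_comp (p := p) hb y (hP.hC _ hx)).mul ((PD.snd (HD_rho2 y.2)).mul (PD.const (dl a a')))
  refine (h1.of_eq fun z => ?_).congr (fun k => ?_) (fun k => ?_)
  · unfold G; rw [blk_rr]
  · ring
  · ring

lemma PD_G_lr (i : Fin m) (a : Fin p) (A B C : ℝ → ℝ) (y : EE m × EE p) :
    PD (fun z => G m p b c A B C z (Fin.castAdd p i) (Fin.natAdd m a)) (fun _ => 0) (fun _ => 0) y :=
  (PD.const 0).of_eq fun z => by unfold G; rw [blk_lr]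

lemma PD_G_rl (i : Fin m) (a : Fin p) (A B C : ℝ → ℝ) (y : EE m × EE p) :
    PD (fun z => G m p b c A B C z (Fin.natAdd m a) (Fin.castAdd p i)) (fun _ => 0) (fun _ => 0) y :=
  (PD.const 0).of_eq fun z => by unfold G; rw [blk_rl]

lemma D_mul (hP : P.Good) {x : ℝ} (hx : x ∈ Icc (-1 : ℝ) 1) :
    P.D x * (P.A x + P.B x * (1 - x ^ 2)) = 1 := by
  unfold Prof.D
  exact inv_mul_cancel₀ (hP.posAB x hx).ne'

/-- the inverse metric -/
lemma G_inv (hP : P.Good) (hb : ‖b‖ ^ 2 + c ^ 2 = 1) (y : EE m × EE p) :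
    (G m p b c P.A P.B P.C y)⁻¹ =
      blk (fun i j => (P.A (hh b c y.1) * rho y.1 ^ 2)⁻¹ * (dl i j -
          (P.B (hh b c y.1) * P.D (hh b c y.1) / rho y.1 ^ 2) * (hi b c i y.1 * hi b c j y.1)))
        (fun a a' => (P.C (hh b c y.1) * rho y.2 ^ 2)⁻¹ * dl a a') := by
  have hx := hh_mem hb y.1
  have hA := (hP.posA _ hx).ne'
  have hC := (hP.posC _ hx).ne'
  have hD := D_mul hP hx
  have hr1 := (rho_pos y.1).ne'
  have hr2 := (rho_pos y.2).ne'
  unfold G
  refine blk_inv (fun i j => ?_) (fun i j => ?_)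
  · have h1 := inv_alg (fun k => hi b c k y.1) (P.A (hh b c y.1) * rho y.1 ^ 2) (P.B (hh b c y.1))
      (P.B (hh b c y.1) * P.D (hh b c y.1) / rho y.1 ^ 2) (by positivity) (by
        rw [sum_hh hb]
        have e1 : P.B (hh b c y.1) - P.A (hh b c y.1) * rho y.1 ^ 2 *
          (P.B (hh b c y.1) * P.D (hh b c y.1) / rho y.1 ^ 2) - P.B (hh b c y.1) *
          (P.B (hh b c y.1) * P.D (hh b c y.1) / rho y.1 ^ 2) *
            (rho y.1 ^ 2 * (1 - hh b c y.1 ^ 2)) = P.B (hh b c y.1) * (1 - P.D (hh b c y.1) *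
              (P.A (hh b c y.1) + P.B (hh b c y.1) * (1 - hh b c y.1 ^ 2))) := by
          field_simp
          ring
        rw [e1, hD]
        ring) i j
    refine Eq.trans (Finset.sum_congr rfl fun k _ => ?_) h1
    ring
  · have h1 : ∀ k, P.C (hh b c y.1) * (rho y.2 ^ 2 * dl i k) *
      ((P.C (hh b c y.1) * rho y.2 ^ 2)⁻¹ * dl k j) = dl i k * dl k j := by
      intro k
      field_simp
    simp only [h1]
    rw [sum_dl]

/-! ### Christoffel symbols -/

/-- `p_i` -/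
noncomputable def pp (P : Prof) (b : EE m) (c : ℝ) (i : Fin m) (y : EE m) : ℝ :=
  uu i y + P.al (hh b c y) * hi b c i y

/-- `r_i` -/
noncomputable def rr (P : Prof) (b : EE m) (c : ℝ) (i : Fin m) (y : EE m) : ℝ :=
  -uu i y + P.ga (hh b c y) * hi b c i y

/-- `ω` -/
noncomputable def om (P : Prof) (b : EE m) (c : ℝ) (y : EE m) : ℝ :=
  P.be (hh b c y) / rho y ^ 2

/-- the Christoffel symbols of the first block -/
noncomputable def chF (P : Prof) (b : EE m) (c : ℝ) (k i j : Fin m) (y : EE m) : ℝ :=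
  dl j k * pp P b c i y + dl i k * pp P b c j y + dl i j * rr P b c k y +
    om P b c y * (hi b c i y * hi b c j y * hi b c k y)

/-- the Christoffel symbols of the second block -/
noncomputable def chS (k i j : Fin p) (y : EE p) : ℝ :=
  dl j k * uu i y + dl i k * uu j y - dl i j * uu k y

lemma ch_lll (hP : P.Good) (hb : ‖b‖ ^ 2 + c ^ 2 = 1) (k i j : Fin m) (y : EE m × EE p) :
    christoffel (frame m p) (G m p b c P.A P.B P.C) (Fin.castAdd p k) (Fin.castAdd p i)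
      (Fin.castAdd p j) y = chF P b c k i j y.1 := by
  have hx := hh_mem hb y.1
  have hA := (hP.posA _ hx).ne'
  have hD := D_mul hP hx
  have hr1 := (rho_pos y.1).ne'
  unfold christoffel
  rw [G_inv hP hb, Fin.sum_univ_add]
  simp only [blk_ll, blk_lr, zero_mul, Finset.sum_const_zero, add_zero, (PD_G_ll hP hb _ _ y).2.1]
  exact chr_alg (fun k => hi b c k y.1) (fun k => uu k y.1) _ _ _ _ _ _ _ _ hA hr1 hD
    (sum_uh b c y.1) (sum_hh hb y.1) i j k

lemma ch_llr (hP : P.Good) (hb : ‖b‖ ^ 2 + c ^ 2 = 1) (k i : Fin m) (a : Fin p)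
    (y : EE m × EE p) :
    christoffel (frame m p) (G m p b c P.A P.B P.C) (Fin.castAdd p k) (Fin.castAdd p i)
      (Fin.natAdd m a) y = 0 := by
  unfold christoffel
  rw [G_inv hP hb, Fin.sum_univ_add]
  simp only [blk_ll, blk_lr, zero_mul, Finset.sum_const_zero, add_zero, (PD_G_ll hP hb _ _ y).2.2,
    (PD_G_rl _ _ P.A P.B P.C y).2.1, (PD_G_lr _ _ P.A P.B P.C y).2.1, sub_zero, mul_zero]

lemma ch_lrl (hP : P.Good) (hb : ‖b‖ ^ 2 + c ^ 2 = 1) (k i : Fin m) (a : Fin p)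
    (y : EE m × EE p) :
    christoffel (frame m p) (G m p b c P.A P.B P.C) (Fin.castAdd p k) (Fin.natAdd m a)
      (Fin.castAdd p i) y = 0 := by
  unfold christoffel
  rw [G_inv hP hb, Fin.sum_univ_add]
  simp only [blk_ll, blk_lr, zero_mul, Finset.sum_const_zero, add_zero, (PD_G_ll hP hb _ _ y).2.2,
    (PD_G_rl _ _ P.A P.B P.C y).2.1, (PD_G_lr _ _ P.A P.B P.C y).2.1, sub_zero, mul_zero]

/-- `Γ^k_ab` -/
noncomputable def chM (P : Prof) (b : EE m) (c : ℝ) (k : Fin m) (y : EE m) : ℝ :=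
  -(P.la (hh b c y) / rho y ^ 2 * hi b c k y)

lemma ch_lrr (hP : P.Good) (hb : ‖b‖ ^ 2 + c ^ 2 = 1) (k : Fin m) (a a' : Fin p)
    (y : EE m × EE p) :
    christoffel (frame m p) (G m p b c P.A P.B P.C) (Fin.castAdd p k) (Fin.natAdd m a)
      (Fin.natAdd m a') y = chM P b c k y.1 * (rho y.2 ^ 2 * dl a a') := by
  have hx := hh_mem hb y.1
  have hA := (hP.posA _ hx).ne'
  have hAB := (hP.posAB _ hx).ne'
  have hr1 := (rho_pos y.1).ne'
  unfold christoffel
  rw [G_inv hP hb, Fin.sum_univ_add]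
  simp only [blk_ll, blk_lr, zero_mul, Finset.sum_const_zero, add_zero,
    (PD_G_rr hP hb _ _ y).2.1, (PD_G_rl _ _ P.A P.B P.C y).2.2, sub_zero, mul_zero, zero_sub]
  rw [contr (fun l => hi b c l y.1)
    (fun l => -(P.C1 (hh b c y.1) * hi b c l y.1 * (rho y.2 ^ 2 * dl a a')))]
  have h1 : ∑ l, hi b c l y.1 * -(P.C1 (hh b c y.1) * hi b c l y.1 * (rho y.2 ^ 2 * dl a a')) =
      -(P.C1 (hh b c y.1) * (rho y.2 ^ 2 * dl a a')) * ∑ l, hi b c l y.1 * hi b c l y.1 := by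
    rw [Finset.mul_sum]
    refine Finset.sum_congr rfl fun l _ => ?_
    ring
  rw [h1, sum_hh hb]
  unfold chM Prof.la Prof.D
  generalize dl a a' = d
  field_simp
  ring

lemma ch_rll (hP : P.Good) (hb : ‖b‖ ^ 2 + c ^ 2 = 1) (a : Fin p) (i j : Fin m)
    (y : EE m × EE p) :
    christoffel (frame m p) (G m p b c P.A P.B P.C) (Fin.natAdd m a) (Fin.castAdd p i)
      (Fin.castAdd p j) y = 0 := by
  unfold christoffel
  rw [G_inv hP hb, Fin.sum_univ_add]
  simp only [blk_rl, blk_rr, zero_mul, Finset.sum_const_zero, add_zero, (PD_G_ll hP hb _ _ y).2.2,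
    (PD_G_rl _ _ P.A P.B P.C y).2.1, (PD_G_lr _ _ P.A P.B P.C y).2.1, sub_zero, mul_zero]

lemma ch_rlr (hP : P.Good) (hb : ‖b‖ ^ 2 + c ^ 2 = 1) (a a' : Fin p) (i : Fin m)
    (y : EE m × EE p) :
    christoffel (frame m p) (G m p b c P.A P.B P.C) (Fin.natAdd m a) (Fin.castAdd p i)
      (Fin.natAdd m a') y = P.ka (hh b c y.1) * hi b c i y.1 * dl a a' := by
  have hx := hh_mem hb y.1
  have hC := (hP.posC _ hx).ne'
  have hr2 := (rho_pos y.2).ne'
  unfold christoffel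
  rw [G_inv hP hb, Fin.sum_univ_add]
  simp only [blk_rl, blk_rr, zero_mul, Finset.sum_const_zero, zero_add,
    (PD_G_rr hP hb _ _ y).2.1, (PD_G_lr _ _ P.A P.B P.C y).2.2, sub_zero, mul_zero, add_zero]
  have h1 : ∀ l, (P.C (hh b c y.1) * rho y.2 ^ 2)⁻¹ * dl a l *
      (P.C1 (hh b c y.1) * hi b c i y.1 * (rho y.2 ^ 2 * dl a' l)) =
      P.C1 (hh b c y.1) / P.C (hh b c y.1) * hi b c i y.1 * (dl a l * dl a' l) := by
    intro l
    field_simp
  simp only [h1]
  rw [← Finset.mul_sum, sum_dl, dl_comm a' a]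
  unfold Prof.ka
  field_simp

lemma ch_rrl (hP : P.Good) (hb : ‖b‖ ^ 2 + c ^ 2 = 1) (a a' : Fin p) (i : Fin m)
    (y : EE m × EE p) :
    christoffel (frame m p) (G m p b c P.A P.B P.C) (Fin.natAdd m a) (Fin.natAdd m a')
      (Fin.castAdd p i) y = P.ka (hh b c y.1) * hi b c i y.1 * dl a a' := by
  rw [← ch_rlr hP hb a a' i y]
  unfold christoffel
  congr 1
  refine Finset.sum_congr rfl fun L _ => ?_
  have h1 : (fun z => G m p b c P.A P.B P.C z (Fin.natAdd m a') (Fin.castAdd p i)) =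
      (fun z => G m p b c P.A P.B P.C z (Fin.castAdd p i) (Fin.natAdd m a')) := by
    funext z; unfold G; rw [blk_rl, blk_lr]
  rw [h1, add_comm (pd _ _ _ _)]

lemma ch_rrr (hP : P.Good) (hb : ‖b‖ ^ 2 + c ^ 2 = 1) (k i j : Fin p)
    (y : EE m × EE p) :
    christoffel (frame m p) (G m p b c P.A P.B P.C) (Fin.natAdd m k) (Fin.natAdd m i)
      (Fin.natAdd m j) y = chS k i j y.2 := by
  have hx := hh_mem hb y.1
  have hC := (hP.posC _ hx).ne'
  have hr2 := (rho_pos y.2).ne'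
  unfold christoffel
  rw [G_inv hP hb, Fin.sum_univ_add]
  simp only [blk_rl, blk_rr, zero_mul, Finset.sum_const_zero, zero_add,
    (PD_G_rr hP hb _ _ y).2.2]
  have h1 : ∀ l, (P.C (hh b c y.1) * rho y.2 ^ 2)⁻¹ * dl k l *
      (P.C (hh b c y.1) * (2 * rho y.2 * (rho y.2 * uu i y.2) * dl j l) +
        P.C (hh b c y.1) * (2 * rho y.2 * (rho y.2 * uu j y.2) * dl i l) -
        P.C (hh b c y.1) * (2 * rho y.2 * (rho y.2 * uu l y.2) * dl i j)) =
      dl k l * (2 * uu i y.2 * dl j l + 2 * uu j y.2 * dl i l - 2 * uu l y.2 * dl i j) := by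
    intro l
    field_simp
  simp only [h1]
  rw [sum_dl]
  unfold chS
  ring

end base

end Vale.Agent.P244.Geo
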