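import Vale.Agent.P244.GeoRicciD

set_option linter.all false

/-! # P244, block G1, part E: the Ricci tensor and the scalar curvature of the doubly warped
metric. -/

open scoped ContDiff
open Set
open Vale.Agent.P244.Flow (pd christoffel ricci)

namespace Vale.Agent.P244.Geo

variable {m p : ℕ}

section trace

variable {P : Prof} {b : EE m} {c : ℝ}

/-- the traces of the Christoffel symbols -/
noncomputable def tau (P : Prof) (b : EE m) (c : ℝ) (I : Fin (m + p)) (z : EE m × EE p) : ℝ :=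
  Fin.addCases (fun i => m * uu i z.1 + P.T m p (hh b c z.1) * hi b c i z.1)
    (fun a => p * uu a z.2) I

lemma tau_l (i : Fin m) (z : EE m × EE p) : tau P b c (Fin.castAdd p i) z =
    m * uu i z.1 + P.T m p (hh b c z.1) * hi b c i z.1 := by simp [tau]

lemma tau_r (a : Fin p) (z : EE m × EE p) : tau P b c (Fin.natAdd m a) z = p * uu a z.2 := by
  simp [tau]

lemma sum_chF (hb : ‖b‖ ^ 2 + c ^ 2 = 1) (i : Fin m) (y : EE m) :
    ∑ k, chF P b c k i k y = m * uu i y + ((m + 1) * P.al (hh b c y) + P.ga (hh b c y) +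
      P.be (hh b c y) * (1 - hh b c y ^ 2)) * hi b c i y := by
  have h1 : ∀ k, chF P b c k i k y = dl i k * (pp P b c k y + rr P b c k y) + dl i k * 0 +
      0 * (uu k y * uu k y) + 0 * (uu k y * hi b c k y) +
      (om P b c y * hi b c i y) * (hi b c k y * hi b c k y) + (pp P b c i y) * dl k k := by
    intro k
    unfold chF
    ring
  rw [Finset.sum_congr rfl fun k _ => h1 k,
    sum_gen (fun k => uu k y) (fun k => hi b c k y) _ _ i i, sum_hh hb]
  have hr := (rho_pos y).ne'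
  unfold pp rr om
  field_simp
  ring

lemma sum_tau (hP : P.Good) (hb : ‖b‖ ^ 2 + c ^ 2 = 1) (I : Fin (m + p)) (z : EE m × EE p) :
    ∑ K, christoffel (frame m p) (G m p b c P.A P.B P.C) K I K z = tau P b c I z := by
  rw [Fin.sum_univ_add]
  refine Fin.addCases (fun i => ?_) (fun a => ?_) I
  · rw [tau_l, Finset.sum_congr rfl fun k _ => ch_lll hP hb k i k z,
      Finset.sum_congr rfl fun k _ => ch_rlr hP hb k k i z, sum_chF hb, ← Finset.mul_sum,
      sum_dlkk]
    unfold Prof.T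
    ring
  · rw [tau_r, Finset.sum_congr rfl fun k _ => ch_lrl hP hb k k a z,
      Finset.sum_congr rfl fun k _ => ch_rrr hP hb k a k z, Finset.sum_const_zero, zero_add]
    have h1 : ∀ k, chS k a k z.2 = uu a z.2 * dl k k + dl a k * (uu k z.2 - uu k z.2) := by
      intro k
      unfold chS
      ring
    rw [Finset.sum_congr rfl fun k _ => h1 k, Finset.sum_add_distrib, ← Finset.mul_sum, sum_dlkk,
      sum_dl]
    ring

lemma PD_tau_l (hP : P.Good) (hb : ‖b‖ ^ 2 + c ^ 2 = 1) (i : Fin m) (y : EE m × EE p) :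
    PD (tau P b c (Fin.castAdd p i)) (fun l => m * du i l y.1 +
      (P.T1 m p (hh b c y.1) * hi b c l y.1 * hi b c i y.1 +
        P.T m p (hh b c y.1) * dh b c i l y.1)) (fun _ => 0) y := by
  have hx := hh_mem hb y.1
  have h1 : HD (fun y : EE m => (m : ℝ) * uu i y + P.T m p (hh b c y) * hi b c i y)
    (fun l => m * du i l y.1 + (P.T1 m p (hh b c y.1) * hi b c l y.1 * hi b c i y.1 +
        P.T m p (hh b c y.1) * dh b c i l y.1)) y.1 :=
    ((HD_uu i y.1).const_mul (m : ℝ)).add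
      ((HD.compW (Prof.Good.der_T m p hP hx) (HD_hh b c y.1) (hh_mem hb)).mul (HD_hi b c i y.1))
  exact (PD.fst h1).of_eq (tau_l i)

lemma PD_tau_r (a : Fin p) (y : EE m × EE p) :
    PD (tau P b c (Fin.natAdd m a)) (fun _ => 0) (fun l => p * du a l y.2) y :=
  (PD.snd ((HD_uu a y.2).const_mul (p : ℝ))).of_eq (tau_r a)

lemma ricci_tau (hP : P.Good) (hb : ‖b‖ ^ 2 + c ^ 2 = 1) (I J : Fin (m + p)) (y : EE m × EE p) :
    ricci (frame m p) (G m p b c P.A P.B P.C) I J y =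
      ∑ K, pd (frame m p) K (christoffel (frame m p) (G m p b c P.A P.B P.C) K I J) y -
      pd (frame m p) J (tau P b c I) y +
      ∑ L, tau P b c L y * christoffel (frame m p) (G m p b c P.A P.B P.C) L I J y -
      ∑ K, ∑ L, christoffel (frame m p) (G m p b c P.A P.B P.C) K J L y *
        christoffel (frame m p) (G m p b c P.A P.B P.C) L I K y :=
  ricci_split _ _ I J y (fun K I J => chr_diff hP hb K I J y) (fun K I J => chr_symm hP hb K I J y)
    _ (sum_tau hP hb)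

end trace

/-! ### the four sums, first block -/

section sums

/-- divergence of the Christoffel symbols, abstract form -/
lemma sum_div (u h : Fin m → ℝ) (i j : Fin m) (ρ s al al1 ga ga1 be1 w : ℝ) :
    ∑ k, (dl j k * ((u i * u k - ρ / 2 * dl i k) + (al1 * h k * h i +
        al * (u i * h k + u k * h i + s * dl i k)))
      + dl i k * ((u j * u k - ρ / 2 * dl j k) + (al1 * h k * h j +
        al * (u j * h k + u k * h j + s * dl j k)))
      + dl i j * (-(u k * u k - ρ / 2 * dl k k) + (ga1 * h k * h k +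
        ga * (u k * h k + u k * h k + s * dl k k)))
      + ((be1 * h k / ρ ^ 2 - 2 * w * u k) * (h i * h j * h k) +
        w * (((u i * h k + u k * h i + s * dl i k) * h j +
          h i * (u j * h k + u k * h j + s * dl j k)) * h k +
          h i * h j * (u k * h k + u k * h k + s * dl k k)))) =
    (2 * (u i * u j) - ρ * dl i j + 2 * al1 * (h i * h j) +
      2 * al * (u i * h j + u j * h i + s * dl i j)) +
    dl i j * (-∑ k, u k * u k + m * ρ / 2 + ga1 * ∑ k, h k * h k +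
      ga * (2 * ∑ k, u k * h k + m * s)) +
    (be1 / ρ ^ 2 * (h i * h j) * ∑ k, h k * h k - 2 * w * (h i * h j) * ∑ k, u k * h k +
      w * ((u i * h j + u j * h i) * ∑ k, h k * h k + 4 * (h i * h j) * ∑ k, u k * h k +
        (m + 2) * s * (h i * h j))) := by
  have h1 : ∀ k, (dl j k * ((u i * u k - ρ / 2 * dl i k) + (al1 * h k * h i +
        al * (u i * h k + u k * h i + s * dl i k)))
      + dl i k * ((u j * u k - ρ / 2 * dl j k) + (al1 * h k * h j +
        al * (u j * h k + u k * h j + s * dl j k)))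
      + dl i j * (-(u k * u k - ρ / 2 * dl k k) + (ga1 * h k * h k +
        ga * (u k * h k + u k * h k + s * dl k k)))
      + ((be1 * h k / ρ ^ 2 - 2 * w * u k) * (h i * h j * h k) +
        w * (((u i * h k + u k * h i + s * dl i k) * h j +
          h i * (u j * h k + u k * h j + s * dl j k)) * h k +
          h i * h j * (u k * h k + u k * h k + s * dl k k)))) =
      dl j k * (((u i * u k - ρ / 2 * dl i k) + (al1 * h k * h i +
        al * (u i * h k + u k * h i + s * dl i k))) + w * s * h i * h k) +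
      dl i k * (((u j * u k - ρ / 2 * dl j k) + (al1 * h k * h j +
        al * (u j * h k + u k * h j + s * dl j k))) + w * s * h j * h k) +
      (-dl i j) * (u k * u k) +
      (2 * ga * dl i j - 2 * w * h i * h j + 4 * w * h i * h j) * (u k * h k) +
      (ga1 * dl i j + be1 / ρ ^ 2 * h i * h j + w * (u i * h j + u j * h i)) * (h k * h k) +
      (dl i j * (ρ / 2 + ga * s) + w * s * h i * h j) * dl k k := by
    intro k
    ring
  rw [Finset.sum_congr rfl fun k _ => h1 k, sum_gen u h _ _ i j, dl_comm j i]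
  ring

/-- contraction with the trace, abstract form -/
lemma sum_tG (u h : Fin m → ℝ) (i j : Fin m) (al ga w T μ : ℝ) :
    ∑ l, (μ * u l + T * h l) * (dl j l * (u i + al * h i) + dl i l * (u j + al * h j) +
      dl i j * (-u l + ga * h l) + w * (h i * h j * h l)) =
    (μ * u j + T * h j) * (u i + al * h i) + (μ * u i + T * h i) * (u j + al * h j) +
      dl i j * (-μ * ∑ k, u k * u k + (μ * ga - T) * ∑ k, u k * h k +
        T * ga * ∑ k, h k * h k) +
      w * (h i * h j) * (μ * ∑ k, u k * h k + T * ∑ k, h k * h k) := by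
  have h1 : ∀ l, (μ * u l + T * h l) * (dl j l * (u i + al * h i) + dl i l * (u j + al * h j) +
      dl i j * (-u l + ga * h l) + w * (h i * h j * h l)) =
      dl j l * ((μ * u l + T * h l) * (u i + al * h i)) +
      dl i l * ((μ * u l + T * h l) * (u j + al * h j)) +
      (-μ * dl i j) * (u l * u l) +
      (dl i j * (μ * ga - T) + w * h i * h j * μ) * (u l * h l) +
      (dl i j * T * ga + w * h i * h j * T) * (h l * h l) + 0 * dl l l := by
    intro l
    ring
  rw [Finset.sum_congr rfl fun k _ => h1 k, sum_gen u h _ _ i j]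
  ring

lemma sum_pr (u h : Fin m → ℝ) (al ga : ℝ) :
    ∑ k, (u k + al * h k) * (-u k + ga * h k) = -∑ k, u k * u k + (ga - al) * ∑ k, u k * h k +
      al * ga * ∑ k, h k * h k := by
  rw [Finset.mul_sum, Finset.mul_sum, ← Finset.sum_neg_distrib, ← Finset.sum_add_distrib,
    ← Finset.sum_add_distrib]
  exact Finset.sum_congr rfl fun k _ => by ring

lemma sum_ph (u h : Fin m → ℝ) (al : ℝ) :
    ∑ k, (u k + al * h k) * h k = ∑ k, u k * h k + al * ∑ k, h k * h k := by
  rw [Finset.mul_sum, ← Finset.sum_add_distrib]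
  exact Finset.sum_congr rfl fun k _ => by ring

lemma sum_rh (u h : Fin m → ℝ) (ga : ℝ) :
    ∑ k, (-u k + ga * h k) * h k = -∑ k, u k * h k + ga * ∑ k, h k * h k := by
  rw [Finset.mul_sum, ← Finset.sum_neg_distrib, ← Finset.sum_add_distrib]
  exact Finset.sum_congr rfl fun k _ => by ring

end sums

section blocks

variable {P : Prof} {b : EE m} {c : ℝ}

/-- final algebra of the first block -/
lemma alg_ll (ρ s x al al1 ga ga1 be be1 ka ka1 T T1 M p d ui uj hi' hj : ℝ) (hρ : ρ ≠ 0)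
    (hT : T = (M + 1) * al + ga + be * (1 - x ^ 2) + p * ka)
    (hT1 : T1 = (M + 1) * al1 + ga1 + (be1 * (1 - x ^ 2) - 2 * x * be) + p * ka1) :
    ((2 * (ui * uj) - ρ * d + 2 * al1 * (hi' * hj) + 2 * al * (ui * hj + uj * hi' + s * d)) +
      d * (-(ρ - ρ ^ 2) + M * ρ / 2 + ga1 * (ρ ^ 2 * (1 - x ^ 2)) +
        ga * (2 * (-(x * ρ ^ 2) - s) + M * s)) +
      (be1 / ρ ^ 2 * (hi' * hj) * (ρ ^ 2 * (1 - x ^ 2)) -
        2 * (be / ρ ^ 2) * (hi' * hj) * (-(x * ρ ^ 2) - s) +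
        be / ρ ^ 2 * ((ui * hj + uj * hi') * (ρ ^ 2 * (1 - x ^ 2)) +
          4 * (hi' * hj) * (-(x * ρ ^ 2) - s) + (M + 2) * s * (hi' * hj)))) -
    (M * (ui * uj - ρ / 2 * d) + (T1 * hj * hi' + T * (ui * hj + uj * hi' + s * d))) +
    ((M * uj + T * hj) * (ui + al * hi') + (M * ui + T * hi') * (uj + al * hj) +
      d * (-M * (ρ - ρ ^ 2) + (M * ga - T) * (-(x * ρ ^ 2) - s) +
        T * ga * (ρ ^ 2 * (1 - x ^ 2))) +
      be / ρ ^ 2 * (hi' * hj) * (M * (-(x * ρ ^ 2) - s) + T * (ρ ^ 2 * (1 - x ^ 2)))) -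
    (((M + 3) * ((ui + al * hi') * (uj + al * hj)) +
      2 * d * (-(ρ - ρ ^ 2) + (ga - al) * (-(x * ρ ^ 2) - s) + al * ga * (ρ ^ 2 * (1 - x ^ 2))) +
      2 * (be / ρ ^ 2) * (hi' * hj) * ((-(x * ρ ^ 2) - s) + al * (ρ ^ 2 * (1 - x ^ 2))) +
      be / ρ ^ 2 * ((uj + al * hj) * hi' + (ui + al * hi') * hj) * (ρ ^ 2 * (1 - x ^ 2)) +
      ((uj + al * hj) * (-ui + ga * hi') + (ui + al * hi') * (-uj + ga * hj)) +
      (-ui + ga * hi') * (-uj + ga * hj) +
      2 * (be / ρ ^ 2) * (hi' * hj) * (-(-(x * ρ ^ 2) - s) + ga * (ρ ^ 2 * (1 - x ^ 2))) +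
      (be / ρ ^ 2) ^ 2 * (hi' * hj) * (ρ ^ 2 * (1 - x ^ 2)) ^ 2) + p * (ka * hj * (ka * hi'))) =
    ((M - 1) - 2 * al * x + ga1 * (1 - x ^ 2) - M * ga * x + T * x + T * ga * (1 - x ^ 2) -
      2 * al * ga * (1 - x ^ 2)) * (ρ ^ 2 * d) +
    (-(M - 1) * al1 - ga1 - p * ka1 - M * x * be + (2 * al + be * (1 - x ^ 2)) * T -
      ((M + 3) * al ^ 2 + 2 * al * ga + 4 * al * be * (1 - x ^ 2) + ga ^ 2 +
      2 * ga * be * (1 - x ^ 2) + (be * (1 - x ^ 2)) ^ 2) - p * ka ^ 2) * (hi' * hj) := by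
  rw [hT1, hT]
  field_simp
  ring

lemma sum_dchF (hb : ‖b‖ ^ 2 + c ^ 2 = 1) (i j : Fin m) (y : EE m) :
    ∑ k, dchF P b c k i j k y =
      (2 * (uu i y * uu j y) - rho y * dl i j + 2 * P.al1 (hh b c y) * (hi b c i y * hi b c j y) +
        2 * P.al (hh b c y) * (uu i y * hi b c j y + uu j y * hi b c i y + ss b c y * dl i j)) +
      dl i j * (-(rho y - rho y ^ 2) + m * rho y / 2 +
        P.ga1 (hh b c y) * (rho y ^ 2 * (1 - hh b c y ^ 2)) +
        P.ga (hh b c y) * (2 * (-(hh b c y * rho y ^ 2) - ss b c y) + m * ss b c y)) +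
      (P.be1 (hh b c y) / rho y ^ 2 * (hi b c i y * hi b c j y) *
          (rho y ^ 2 * (1 - hh b c y ^ 2)) -
        2 * (P.be (hh b c y) / rho y ^ 2) * (hi b c i y * hi b c j y) *
          (-(hh b c y * rho y ^ 2) - ss b c y) +
        P.be (hh b c y) / rho y ^ 2 * ((uu i y * hi b c j y + uu j y * hi b c i y) *
          (rho y ^ 2 * (1 - hh b c y ^ 2)) +
          4 * (hi b c i y * hi b c j y) * (-(hh b c y * rho y ^ 2) - ss b c y) +
          (m + 2) * ss b c y * (hi b c i y * hi b c j y))) := by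
  rw [← sum_hh hb y, ← sum_uh b c y, ← sum_uu y]
  exact sum_div (fun k => uu k y) (fun k => hi b c k y) i j _ _ _ _ _ _ _ _

lemma sum_tau_chF (hb : ‖b‖ ^ 2 + c ^ 2 = 1) (T : ℝ) (i j : Fin m) (y : EE m) :
    ∑ l, (m * uu l y + T * hi b c l y) * chF P b c l i j y =
      (m * uu j y + T * hi b c j y) * (uu i y + P.al (hh b c y) * hi b c i y) +
      (m * uu i y + T * hi b c i y) * (uu j y + P.al (hh b c y) * hi b c j y) +
      dl i j * (-m * (rho y - rho y ^ 2) + (m * P.ga (hh b c y) - T) *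
        (-(hh b c y * rho y ^ 2) - ss b c y) +
        T * P.ga (hh b c y) * (rho y ^ 2 * (1 - hh b c y ^ 2))) +
      P.be (hh b c y) / rho y ^ 2 * (hi b c i y * hi b c j y) *
        (m * (-(hh b c y * rho y ^ 2) - ss b c y) + T * (rho y ^ 2 * (1 - hh b c y ^ 2))) := by
  rw [← sum_hh hb y, ← sum_uh b c y, ← sum_uu y]
  exact sum_tG (fun k => uu k y) (fun k => hi b c k y) i j _ _ _ _ _

lemma sum_chF_chF (hb : ‖b‖ ^ 2 + c ^ 2 = 1) (i j : Fin m) (y : EE m) :
    ∑ k, ∑ l, chF P b c k j l y * chF P b c l i k y =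
      (m + 3) * ((uu i y + P.al (hh b c y) * hi b c i y) *
        (uu j y + P.al (hh b c y) * hi b c j y)) +
      2 * dl i j * (-(rho y - rho y ^ 2) + (P.ga (hh b c y) - P.al (hh b c y)) *
        (-(hh b c y * rho y ^ 2) - ss b c y) +
        P.al (hh b c y) * P.ga (hh b c y) * (rho y ^ 2 * (1 - hh b c y ^ 2))) +
      2 * (P.be (hh b c y) / rho y ^ 2) * (hi b c i y * hi b c j y) *
        ((-(hh b c y * rho y ^ 2) - ss b c y) +
          P.al (hh b c y) * (rho y ^ 2 * (1 - hh b c y ^ 2))) +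
      P.be (hh b c y) / rho y ^ 2 * ((uu j y + P.al (hh b c y) * hi b c j y) * hi b c i y +
        (uu i y + P.al (hh b c y) * hi b c i y) * hi b c j y) *
          (rho y ^ 2 * (1 - hh b c y ^ 2)) +
      ((uu j y + P.al (hh b c y) * hi b c j y) * (-uu i y + P.ga (hh b c y) * hi b c i y) +
        (uu i y + P.al (hh b c y) * hi b c i y) * (-uu j y + P.ga (hh b c y) * hi b c j y)) +
      (-uu i y + P.ga (hh b c y) * hi b c i y) * (-uu j y + P.ga (hh b c y) * hi b c j y) +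
      2 * (P.be (hh b c y) / rho y ^ 2) * (hi b c i y * hi b c j y) *
        (-(-(hh b c y * rho y ^ 2) - ss b c y) +
          P.ga (hh b c y) * (rho y ^ 2 * (1 - hh b c y ^ 2))) +
      (P.be (hh b c y) / rho y ^ 2) ^ 2 * (hi b c i y * hi b c j y) *
        (rho y ^ 2 * (1 - hh b c y ^ 2)) ^ 2 := by
  rw [← sum_hh hb y, ← sum_uh b c y, ← sum_uu y]
  rw [← sum_pr (fun k => uu k y) (fun k => hi b c k y),
    ← sum_ph (fun k => uu k y) (fun k => hi b c k y),
    ← sum_rh (fun k => uu k y) (fun k => hi b c k y)]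
  exact sum_GG (fun k => uu k y + P.al (hh b c y) * hi b c k y)
    (fun k => -uu k y + P.ga (hh b c y) * hi b c k y) (fun k => hi b c k y) _ i j

lemma ricci_ll (hP : P.Good) (hb : ‖b‖ ^ 2 + c ^ 2 = 1) (i j : Fin m) (y : EE m × EE p) :
    ricci (frame m p) (G m p b c P.A P.B P.C) (Fin.castAdd p i) (Fin.castAdd p j) y =
      P.F1 m p (hh b c y.1) * (rho y.1 ^ 2 * dl i j) +
          P.F2 m p (hh b c y.1) * (hi b c i y.1 * hi b c j y.1) := by
  rw [ricci_tau hP hb]
  simp only [Fin.sum_univ_add, (PDc_lll hP hb _ _ _ y).2.1, (PDc_rll hP hb _ _ _ y).2.2,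
    (PD_tau_l hP hb _ y).2.1, tau_l, tau_r, ch_lll hP hb, ch_rll hP hb, ch_llr hP hb,
    ch_rlr hP hb, mul_zero, zero_mul, Finset.sum_const_zero, add_zero, zero_add]
  have h1 : ∑ a : Fin p, ∑ a' : Fin p, P.ka (hh b c y.1) * hi b c j y.1 * dl a a' *
      (P.ka (hh b c y.1) * hi b c i y.1 * dl a' a) =
      p * (P.ka (hh b c y.1) * hi b c j y.1 * (P.ka (hh b c y.1) * hi b c i y.1)) := by
    have h2 : ∀ a a' : Fin p, P.ka (hh b c y.1) * hi b c j y.1 * dl a a' *
      (P.ka (hh b c y.1) * hi b c i y.1 * dl a' a) = dl a a' *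
        (P.ka (hh b c y.1) * hi b c j y.1 * (P.ka (hh b c y.1) * hi b c i y.1) * dl a' a) :=
      fun a a' => by ring
    simp only [h2, sum_dl]
    rw [← Finset.mul_sum, sum_dlkk]
    ring
  rw [h1, sum_dchF hb, sum_tau_chF hb, sum_chF_chF hb]
  exact alg_ll _ _ _ _ _ _ _ _ _ _ _ _ _ _ _ _ _ _ _ _ (rho_pos y.1).ne' rfl rfl

lemma sum_chS (a : Fin p) (y : EE p) : ∑ k, chS k a k y = p * uu a y := by
  have h1 : ∀ k, chS k a k y = uu a y * dl k k + dl a k * (uu k y - uu k y) := by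
    intro k
    unfold chS
    ring
  rw [Finset.sum_congr rfl fun k _ => h1 k, Finset.sum_add_distrib, ← Finset.mul_sum, sum_dlkk,
    sum_dl]
  ring

lemma ricci_lr (hP : P.Good) (hb : ‖b‖ ^ 2 + c ^ 2 = 1) (i : Fin m) (a : Fin p)
    (y : EE m × EE p) :
    ricci (frame m p) (G m p b c P.A P.B P.C) (Fin.castAdd p i) (Fin.natAdd m a) y = 0 := by
  rw [ricci_tau hP hb]
  simp only [Fin.sum_univ_add, (PDc_llr hP hb _ _ _ y).2.1, (PDc_rlr hP hb _ _ _ y).2.2,
    (PD_tau_l hP hb _ y).2.2, tau_l, tau_r, ch_llr hP hb, ch_rlr hP hb, ch_lrl hP hb,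
    ch_rll hP hb, ch_rrr hP hb, mul_zero, zero_mul, Finset.sum_const_zero, add_zero, zero_add,
    sub_zero]
  have h1 : ∀ k l : Fin p, chS k a l y.2 * (P.ka (hh b c y.1) * hi b c i y.1 * dl l k) =
      dl l k * (P.ka (hh b c y.1) * hi b c i y.1 * chS k a l y.2) := fun k l => by ring
  have h2 : ∀ l : Fin p, p * uu l y.2 * (P.ka (hh b c y.1) * hi b c i y.1 * dl l a) =
      dl l a * (p * uu l y.2 * (P.ka (hh b c y.1) * hi b c i y.1)) := fun l => by ring
  simp only [h1, h2, sum_dl']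
  rw [← Finset.mul_sum, sum_chS]
  ring

lemma ricci_rl (hP : P.Good) (hb : ‖b‖ ^ 2 + c ^ 2 = 1) (i : Fin m) (a : Fin p)
    (y : EE m × EE p) :
    ricci (frame m p) (G m p b c P.A P.B P.C) (Fin.natAdd m a) (Fin.castAdd p i) y = 0 := by
  rw [ricci_tau hP hb]
  simp only [Fin.sum_univ_add, (PDc_lrl hP hb _ _ _ y).2.1, (PDc_rrl hP hb _ _ _ y).2.2,
    (PD_tau_r _ y).2.1, tau_l, tau_r, ch_llr hP hb, ch_rlr hP hb, ch_lrl hP hb, ch_rrl hP hb,
    ch_rll hP hb, ch_rrr hP hb, mul_zero, zero_mul, Finset.sum_const_zero, add_zero, zero_add,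
    sub_zero]
  have h1 : ∀ k l : Fin p, P.ka (hh b c y.1) * hi b c i y.1 * dl k l * chS l a k y.2 =
      dl k l * (P.ka (hh b c y.1) * hi b c i y.1 * chS l a k y.2) := fun k l => by ring
  have h2 : ∀ l : Fin p, p * uu l y.2 * (P.ka (hh b c y.1) * hi b c i y.1 * dl l a) =
      dl l a * (p * uu l y.2 * (P.ka (hh b c y.1) * hi b c i y.1)) := fun l => by ring
  simp only [h1, h2, sum_dl', sum_dl]
  rw [← Finset.mul_sum, sum_chS]
  ring

lemma sum_dchS (i j : Fin p) (y : EE p) :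
    ∑ k, (dl j k * du i k y + dl i k * du j k y - dl i j * du k k y) =
      2 * (uu i y * uu j y) - rho y * dl i j - dl i j * (rho y - rho y ^ 2 - p * rho y / 2) := by
  have h1 : ∀ k, (dl j k * du i k y + dl i k * du j k y - dl i j * du k k y) =
      dl j k * (du i k y) + dl i k * du j k y + (-dl i j) * (uu k y * uu k y) +
      0 * (uu k y * uu k y) + 0 * (uu k y * uu k y) + (rho y / 2 * dl i j) * dl k k := by
    intro k
    unfold du
    ring
  rw [Finset.sum_congr rfl fun k _ => h1 k, sum_gen (fun k => uu k y) (fun k => uu k y) _ _ i j,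
    sum_uu]
  unfold du
  rw [dl_comm j i]
  ring

lemma sum_tau_chS (i j : Fin p) (y : EE p) :
    ∑ l, p * uu l y * chS l i j y =
      p * (2 * (uu i y * uu j y) - dl i j * (rho y - rho y ^ 2)) := by
  have h1 : ∀ l, p * uu l y * chS l i j y =
      dl j l * (p * uu l y * uu i y) + dl i l * (p * uu l y * uu j y) +
      (-p * dl i j) * (uu l y * uu l y) +
      0 * (uu l y * uu l y) + 0 * (uu l y * uu l y) + 0 * dl l l := by
    intro k
    unfold chS
    ring
  rw [Finset.sum_congr rfl fun k _ => h1 k, sum_gen (fun k => uu k y) (fun k => uu k y) _ _ i j,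
    sum_uu]
  ring

lemma sum_chS_chS (i j : Fin p) (y : EE p) :
    ∑ k, ∑ l, chS k j l y * chS l i k y =
      (p + 2) * (uu i y * uu j y) - 2 * dl i j * (rho y - rho y ^ 2) := by
  have h0 : ∀ k l, chS k j l y * chS l i k y =
      (dl l k * uu j y + dl j k * uu l y + dl j l * (-uu k y) + 0 * (uu j y * uu l y * uu k y)) *
      (dl k l * uu i y + dl i l * uu k y + dl i k * (-uu l y) + 0 * (uu i y * uu k y * uu l y)) := by
    intro k l
    unfold chS
    ring
  have h1 := sum_GG (fun k => uu k y) (fun k => -uu k y) (fun k => uu k y) 0 i j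
  simp only [h0]
  refine h1.trans ?_
  have h2 : ∑ k, uu k y * -uu k y = -∑ k, uu k y * uu k y := by
    rw [← Finset.sum_neg_distrib]
    exact Finset.sum_congr rfl fun k _ => by ring
  simp only [h2, sum_uu]
  ring

lemma ricci_rr (hP : P.Good) (hb : ‖b‖ ^ 2 + c ^ 2 = 1) (i j : Fin p) (y : EE m × EE p) :
    ricci (frame m p) (G m p b c P.A P.B P.C) (Fin.natAdd m i) (Fin.natAdd m j) y =
      P.F3 m p (hh b c y.1) * (rho y.2 ^ 2 * dl i j) := by
  rw [ricci_tau hP hb]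
  simp only [Fin.sum_univ_add, (PDc_lrr hP hb _ _ _ y).2.1, (PDc_rrr hP hb _ _ _ y).2.2,
    (PD_tau_r _ y).2.2, tau_l, tau_r, ch_llr hP hb, ch_rlr hP hb, ch_lrl hP hb, ch_rrl hP hb,
    ch_rll hP hb, ch_rrr hP hb, ch_lrr hP hb, mul_zero, zero_mul, Finset.sum_const_zero, add_zero,
    zero_add, sub_zero, sum_dchS, sum_tau_chS]
  have hr := (rho_pos y.1).ne'
  have e1 : ∑ k, -((P.la1 (hh b c y.1) * hi b c k y.1 / rho y.1 ^ 2 -
      2 * (P.la (hh b c y.1) / rho y.1 ^ 2) * uu k y.1) * hi b c k y.1 +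
      P.la (hh b c y.1) / rho y.1 ^ 2 * dh b c k k y.1) * (rho y.2 ^ 2 * dl i j) =
      -(P.la1 (hh b c y.1) * (1 - hh b c y.1 ^ 2) +
        P.la (hh b c y.1) / rho y.1 ^ 2 * (m * ss b c y.1)) * (rho y.2 ^ 2 * dl i j) := by
    have h1 : ∀ k, -((P.la1 (hh b c y.1) * hi b c k y.1 / rho y.1 ^ 2 -
      2 * (P.la (hh b c y.1) / rho y.1 ^ 2) * uu k y.1) * hi b c k y.1 +
      P.la (hh b c y.1) / rho y.1 ^ 2 * dh b c k k y.1) * (rho y.2 ^ 2 * dl i j) =
        -(P.la1 (hh b c y.1) / rho y.1 ^ 2) * (rho y.2 ^ 2 * dl i j) *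
          (hi b c k y.1 * hi b c k y.1) +
        -(P.la (hh b c y.1) / rho y.1 ^ 2 * ss b c y.1) * (rho y.2 ^ 2 * dl i j) * dl k k := by
      intro k
      unfold dh
      ring
    rw [Finset.sum_congr rfl fun k _ => h1 k, Finset.sum_add_distrib, ← Finset.mul_sum,
      ← Finset.mul_sum, sum_dlkk, sum_hh hb]
    field_simp
    ring
  have e2 : ∑ l, (m * uu l y.1 + P.T m p (hh b c y.1) * hi b c l y.1) *
      (chM P b c l y.1 * (rho y.2 ^ 2 * dl i j)) =
      -(P.la (hh b c y.1) / rho y.1 ^ 2 * (m * (-(hh b c y.1 * rho y.1 ^ 2) - ss b c y.1) +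
        P.T m p (hh b c y.1) * (rho y.1 ^ 2 * (1 - hh b c y.1 ^ 2)))) *
        (rho y.2 ^ 2 * dl i j) := by
    have h1 : ∀ l, (m * uu l y.1 + P.T m p (hh b c y.1) * hi b c l y.1) *
      (chM P b c l y.1 * (rho y.2 ^ 2 * dl i j)) =
        (-(P.la (hh b c y.1) / rho y.1 ^ 2 * m) * (rho y.2 ^ 2 * dl i j)) *
          (uu l y.1 * hi b c l y.1) +
        (-(P.la (hh b c y.1) / rho y.1 ^ 2 * P.T m p (hh b c y.1)) * (rho y.2 ^ 2 * dl i j)) *
          (hi b c l y.1 * hi b c l y.1) := by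
      intro k
      unfold chM
      ring
    rw [Finset.sum_congr rfl fun k _ => h1 k, Finset.sum_add_distrib, ← Finset.mul_sum,
      ← Finset.mul_sum, sum_hh hb, sum_uh]
    ring
  have e3 : ∑ k : Fin m, ∑ a' : Fin p, chM P b c k y.1 * (rho y.2 ^ 2 * dl j a') *
      (P.ka (hh b c y.1) * hi b c k y.1 * dl a' i) =
      -(P.ka (hh b c y.1) * P.la (hh b c y.1) * (1 - hh b c y.1 ^ 2)) *
        (rho y.2 ^ 2 * dl i j) := by
    have h1 : ∀ (k : Fin m) (a' : Fin p), chM P b c k y.1 * (rho y.2 ^ 2 * dl j a') *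
      (P.ka (hh b c y.1) * hi b c k y.1 * dl a' i) = dl j a' * (chM P b c k y.1 * rho y.2 ^ 2 *
      (P.ka (hh b c y.1) * hi b c k y.1 * dl a' i)) := fun k a' => by ring
    simp only [h1, sum_dl]
    have h2 : ∀ k : Fin m, chM P b c k y.1 * rho y.2 ^ 2 *
      (P.ka (hh b c y.1) * hi b c k y.1 * dl j i) =
      (-(P.la (hh b c y.1) / rho y.1 ^ 2) * P.ka (hh b c y.1) * (rho y.2 ^ 2 * dl j i)) *
        (hi b c k y.1 * hi b c k y.1) := by
      intro k
      unfold chM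
      ring
    rw [Finset.sum_congr rfl fun k _ => h2 k, ← Finset.mul_sum, sum_hh hb, dl_comm j i]
    field_simp
  have e4 : ∑ a' : Fin p, ∑ k : Fin m, P.ka (hh b c y.1) * hi b c k y.1 * dl a' j *
      (chM P b c k y.1 * (rho y.2 ^ 2 * dl i a')) =
      -(P.ka (hh b c y.1) * P.la (hh b c y.1) * (1 - hh b c y.1 ^ 2)) *
        (rho y.2 ^ 2 * dl i j) := by
    rw [Finset.sum_comm, ← e3]
    refine Finset.sum_congr rfl fun k _ => ?_
    refine Finset.sum_congr rfl fun a' _ => ?_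
    rw [dl_comm a' j, dl_comm i a']
    ring
  rw [e1, e2, e3, Finset.sum_add_distrib, e4, sum_chS_chS]
  unfold Prof.F3 du
  field_simp
  ring

/-- RESULT 1: the Ricci tensor of the doubly warped metric -/
theorem ricci_G (hP : P.Good) (hb : ‖b‖ ^ 2 + c ^ 2 = 1) (I J : Fin (m + p)) (y : EE m × EE p) :
    ricci (frame m p) (G m p b c P.A P.B P.C) I J y =
      blk (fun i j => P.F1 m p (hh b c y.1) * (rho y.1 ^ 2 * dl i j) +
          P.F2 m p (hh b c y.1) * (hi b c i y.1 * hi b c j y.1))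
        (fun a a' => P.F3 m p (hh b c y.1) * (rho y.2 ^ 2 * dl a a')) I J := by
  refine Fin.addCases (fun i => ?_) (fun i => ?_) I <;>
  refine Fin.addCases (fun j => ?_) (fun j => ?_) J
  · rw [blk_ll, ricci_ll hP hb]
  · rw [blk_lr, ricci_lr hP hb]
  · rw [blk_rl, ricci_rl hP hb]
  · rw [blk_rr, ricci_rr hP hb]

/-- RESULT 2: the scalar curvature of the doubly warped metric -/
theorem scal_G (hP : P.Good) (hb : ‖b‖ ^ 2 + c ^ 2 = 1) (y : EE m × EE p) :
    ∑ I, ∑ J, (G m p b c P.A P.B P.C y)⁻¹ I J * ricci (frame m p) (G m p b c P.A P.B P.C) I J y =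
      (m - 1) * (P.F1 m p (hh b c y.1) / P.A (hh b c y.1)) +
      (P.F1 m p (hh b c y.1) + P.F2 m p (hh b c y.1) * (1 - hh b c y.1 ^ 2)) /
        (P.A (hh b c y.1) + P.B (hh b c y.1) * (1 - hh b c y.1 ^ 2)) +
      p * (P.F3 m p (hh b c y.1) / P.C (hh b c y.1)) := by
  have hx := hh_mem hb y.1
  have hA := (hP.posA _ hx).ne'
  have hAB := (hP.posAB _ hx).ne'
  have hC := (hP.posC _ hx).ne'
  have hr1 := (rho_pos y.1).ne'
  have hr2 := (rho_pos y.2).ne'
  simp only [ricci_G hP hb, G_inv hP hb, Fin.sum_univ_add, blk_ll, blk_lr, blk_rl, blk_rr,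
    mul_zero, Finset.sum_const_zero, add_zero, zero_add]
  have h1 : ∀ i, ∑ j, (P.A (hh b c y.1) * rho y.1 ^ 2)⁻¹ * (dl i j - P.B (hh b c y.1) *
      P.D (hh b c y.1) / rho y.1 ^ 2 * (hi b c i y.1 * hi b c j y.1)) *
      (P.F1 m p (hh b c y.1) * (rho y.1 ^ 2 * dl i j) + P.F2 m p (hh b c y.1) *
        (hi b c i y.1 * hi b c j y.1)) =
      (P.A (hh b c y.1) * rho y.1 ^ 2)⁻¹ * (P.F1 m p (hh b c y.1) * rho y.1 ^ 2) * dl i i +
      (P.A (hh b c y.1) * rho y.1 ^ 2)⁻¹ * (P.F2 m p (hh b c y.1) - P.B (hh b c y.1) *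
        P.D (hh b c y.1) / rho y.1 ^ 2 * (P.F1 m p (hh b c y.1) * rho y.1 ^ 2 +
        P.F2 m p (hh b c y.1) * (rho y.1 ^ 2 * (1 - hh b c y.1 ^ 2)))) *
          (hi b c i y.1 * hi b c i y.1) := by
    intro i
    rw [contr (fun l => hi b c l y.1) (fun j => P.F1 m p (hh b c y.1) * (rho y.1 ^ 2 * dl i j) +
      P.F2 m p (hh b c y.1) * (hi b c i y.1 * hi b c j y.1))]
    have h2 : ∀ l, hi b c l y.1 * (P.F1 m p (hh b c y.1) * (rho y.1 ^ 2 * dl i l) +
      P.F2 m p (hh b c y.1) * (hi b c i y.1 * hi b c l y.1)) =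
      dl i l * (P.F1 m p (hh b c y.1) * rho y.1 ^ 2 * hi b c l y.1) +
      (P.F2 m p (hh b c y.1) * hi b c i y.1) * (hi b c l y.1 * hi b c l y.1) := fun l => by ring
    simp only [h2]
    rw [Finset.sum_add_distrib, sum_dl, ← Finset.mul_sum, sum_hh hb]
    ring
  have h3 : ∀ i : Fin p, ∑ j, (P.C (hh b c y.1) * rho y.2 ^ 2)⁻¹ * dl i j *
      (P.F3 m p (hh b c y.1) * (rho y.2 ^ 2 * dl i j)) =
      (P.C (hh b c y.1) * rho y.2 ^ 2)⁻¹ * (P.F3 m p (hh b c y.1) * rho y.2 ^ 2) * dl i i := by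
    intro i
    have h4 : ∀ j : Fin p, (P.C (hh b c y.1) * rho y.2 ^ 2)⁻¹ * dl i j *
      (P.F3 m p (hh b c y.1) * (rho y.2 ^ 2 * dl i j)) = dl i j *
      ((P.C (hh b c y.1) * rho y.2 ^ 2)⁻¹ * (P.F3 m p (hh b c y.1) * rho y.2 ^ 2) * dl i j) :=
      fun j => by ring
    simp only [h4, sum_dl]
  simp only [h1, h3]
  rw [Finset.sum_add_distrib, ← Finset.mul_sum, ← Finset.mul_sum, ← Finset.mul_sum, sum_dlkk,
    sum_dlkk, sum_hh hb]
  unfold Prof.D
  generalize P.F1 m p (hh b c y.1) = f1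
  generalize P.F2 m p (hh b c y.1) = f2
  generalize P.F3 m p (hh b c y.1) = f3
  field_simp
  ring

end blocks

end Vale.Agent.P244.Geo
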