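import Mathlib

/-!
# P244-G3 : calculus on the space-time strip `[0,T) × [-1,1]`
-/

open Set Filter Topology MeasureTheory
open scoped ContDiff

namespace Vale.Agent.P244.Geo

/-- The space-time strip `[0,T) × [-1,1]`. -/
abbrev strip (T : ℝ) : Set (ℝ × ℝ) := Ico 0 T ×ˢ Icc (-1) 1

theorem uniqueDiffOn_II : UniqueDiffOn ℝ (Icc (-1 : ℝ) 1) := uniqueDiffOn_Icc (by norm_num)

theorem uniqueDiffOn_strip (T : ℝ) : UniqueDiffOn ℝ (strip T) :=
  (uniqueDiffOn_Ico 0 T).prod uniqueDiffOn_II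

/-- A function with partial derivatives on the strip, the `x`-derivative being continuous,
is differentiable. -/
theorem hasFDerivWithinAt_strip {T : ℝ} {G Gt Gx : ℝ → ℝ → ℝ}
    (ht : ∀ t ∈ Ico 0 T, ∀ x ∈ Icc (-1 : ℝ) 1,
      HasDerivWithinAt (fun s => G s x) (Gt t x) (Ico 0 T) t)
    (hx : ∀ t ∈ Ico 0 T, ∀ x ∈ Icc (-1 : ℝ) 1, HasDerivWithinAt (G t) (Gx t x) (Icc (-1) 1) x)
    (hGx : ContinuousOn (fun z : ℝ × ℝ => Gx z.1 z.2) (strip T)) {t x : ℝ} (htm : t ∈ Ico 0 T)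
    (hxm : x ∈ Icc (-1 : ℝ) 1) :
    HasFDerivWithinAt (fun z : ℝ × ℝ => G z.1 z.2)
      ((Gt t x) • ContinuousLinearMap.fst ℝ ℝ ℝ + (Gx t x) • ContinuousLinearMap.snd ℝ ℝ ℝ)
      (strip T) (t, x) := by
  rw [hasFDerivWithinAt_iff_isLittleO, Asymptotics.isLittleO_iff]
  intro c hc
  have h1 := (hasDerivWithinAt_iff_isLittleO.mp (ht t htm x hxm))
  rw [Asymptotics.isLittleO_iff] at h1
  have h1' := h1 (half_pos hc)
  have hfst : Tendsto (fun z : ℝ × ℝ => z.1) (𝓝[strip T] (t, x)) (𝓝[Ico 0 T] t) := by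
    refine tendsto_nhdsWithin_iff.mpr ⟨?_, ?_⟩
    · exact (continuous_fst.tendsto (t, x)).mono_left nhdsWithin_le_nhds
    · filter_upwards [self_mem_nhdsWithin] with z hz using hz.1
  have h2 := hfst.eventually h1'
  have h3 := (hGx (t, x) ⟨htm, hxm⟩)
  rw [Metric.continuousWithinAt_iff] at h3
  obtain ⟨δ, hδ, h3⟩ := h3 (c / 2) (half_pos hc)
  have h4 : ∀ᶠ z in 𝓝[strip T] (t, x), dist z (t, x) < δ :=
    nhdsWithin_le_nhds (Metric.ball_mem_nhds _ hδ)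
  filter_upwards [h2, h4, self_mem_nhdsWithin] with z hz2 hz4 hz
  obtain ⟨s, y⟩ := z
  simp only at hz2 hz4 hz ⊢
  have hsub : uIcc x y ⊆ Icc (-1 : ℝ) 1 := by
    intro ξ hξ
    exact (convex_Icc (-1 : ℝ) 1).ordConnected.uIcc_subset hxm hz.2 hξ
  have hmv : ‖(G s y - Gx t x * y) - (G s x - Gx t x * x)‖ ≤ c / 2 * ‖y - x‖ := by
    refine (convex_uIcc x y).norm_image_sub_le_of_norm_hasDerivWithin_le
      (f := fun ξ => G s ξ - Gx t x * ξ) (f' := fun ξ => Gx s ξ - Gx t x) ?_ ?_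
      left_mem_uIcc right_mem_uIcc
    · intro ξ hξ
      have e1 := (hx s hz.1 ξ (hsub hξ)).mono hsub
      have e2 : HasDerivWithinAt (fun ξ : ℝ => Gx t x * ξ) (Gx t x) (uIcc x y) ξ := by
        simpa using (hasDerivWithinAt_id ξ (uIcc x y)).const_mul (Gx t x)
      exact e1.sub e2
    · intro ξ hξ
      have hd : dist ((s, ξ) : ℝ × ℝ) (t, x) < δ := by
        refine lt_of_le_of_lt ?_ hz4
        rw [Prod.dist_eq, Prod.dist_eq]
        refine max_le_max le_rfl ?_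
        simp only [Real.dist_eq]
        exact abs_sub_left_of_mem_uIcc hξ
      have := h3 (x := (s, ξ)) ⟨hz.1, hsub hξ⟩ hd
      rw [Real.dist_eq] at this
      exact this.le
  have e : G s y - G t x - ((Gt t x) • ContinuousLinearMap.fst ℝ ℝ ℝ +
      (Gx t x) • ContinuousLinearMap.snd ℝ ℝ ℝ) ((s, y) - (t, x)) =
      ((G s y - Gx t x * y) - (G s x - Gx t x * x)) +
      (G s x - G t x - (s - t) • Gt t x) := by
    simp
    ring
  rw [e]
  have n1 : ‖s - t‖ ≤ ‖((s, y) : ℝ × ℝ) - (t, x)‖ := norm_fst_le (((s, y) : ℝ × ℝ) - (t, x))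
  have n2 : ‖y - x‖ ≤ ‖((s, y) : ℝ × ℝ) - (t, x)‖ := norm_snd_le (((s, y) : ℝ × ℝ) - (t, x))
  calc _ ≤ ‖(G s y - Gx t x * y) - (G s x - Gx t x * x)‖ + ‖G s x - G t x - (s - t) • Gt t x‖ :=
        norm_add_le _ _
    _ ≤ c / 2 * ‖y - x‖ + c / 2 * ‖s - t‖ := add_le_add hmv hz2
    _ ≤ c / 2 * ‖((s, y) : ℝ × ℝ) - (t, x)‖ + c / 2 * ‖((s, y) : ℝ × ℝ) - (t, x)‖ := by gcongr
    _ = c * ‖((s, y) : ℝ × ℝ) - (t, x)‖ := by ring

/-- (D) continuous partial derivatives of class `C^n` give class `C^(n+1)` on the strip. -/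
theorem contDiffOn_strip_succ {T : ℝ} {G Gt Gx : ℝ → ℝ → ℝ} (n : ℕ)
    (ht : ∀ t ∈ Ico 0 T, ∀ x ∈ Icc (-1 : ℝ) 1,
      HasDerivWithinAt (fun s => G s x) (Gt t x) (Ico 0 T) t)
    (hx : ∀ t ∈ Ico 0 T, ∀ x ∈ Icc (-1 : ℝ) 1, HasDerivWithinAt (G t) (Gx t x) (Icc (-1) 1) x)
    (hGt : ContDiffOn ℝ n (fun z : ℝ × ℝ => Gt z.1 z.2) (strip T))
    (hGx : ContDiffOn ℝ n (fun z : ℝ × ℝ => Gx z.1 z.2) (strip T)) :
    ContDiffOn ℝ (n + 1) (fun z : ℝ × ℝ => G z.1 z.2) (strip T) := by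
  have hF : ∀ z ∈ strip T, HasFDerivWithinAt (fun z : ℝ × ℝ => G z.1 z.2)
      ((Gt z.1 z.2) • ContinuousLinearMap.fst ℝ ℝ ℝ + (Gx z.1 z.2) • ContinuousLinearMap.snd ℝ ℝ ℝ)
      (strip T) z := fun z hz => hasFDerivWithinAt_strip ht hx hGx.continuousOn hz.1 hz.2
  rw [contDiffOn_succ_iff_fderivWithin (uniqueDiffOn_strip T)]
  refine ⟨fun z hz => (hF z hz).differentiableWithinAt, by simp, ?_⟩
  refine ContDiffOn.congr (f := fun z : ℝ × ℝ => (Gt z.1 z.2) • ContinuousLinearMap.fst ℝ ℝ ℝ +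
    (Gx z.1 z.2) • ContinuousLinearMap.snd ℝ ℝ ℝ) ?_ ?_
  · exact (hGt.smul contDiffOn_const).add (hGx.smul contDiffOn_const)
  · intro z hz
    exact (hF z hz).fderivWithin (uniqueDiffOn_strip T z hz)

/-! ### Partial derivatives -/

theorem strip_hasDeriv_x {T : ℝ} {U : ℝ × ℝ → ℝ} (h : DifferentiableOn ℝ U (strip T)) {t x : ℝ}
    (ht : t ∈ Ico 0 T) (hx : x ∈ Icc (-1 : ℝ) 1) :
    HasDerivWithinAt (fun y => U (t, y)) (fderivWithin ℝ U (strip T) (t, x) (0, 1))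
      (Icc (-1) 1) x := by
  have h1 : HasFDerivWithinAt U (fderivWithin ℝ U (strip T) (t, x)) (strip T) (t, x) :=
    (h (t, x) ⟨ht, hx⟩).hasFDerivWithinAt
  have h2 : HasDerivWithinAt (fun y : ℝ => ((t, y) : ℝ × ℝ)) ((0, 1) : ℝ × ℝ) (Icc (-1) 1) x :=
    (hasDerivWithinAt_const x _ t).prodMk (hasDerivWithinAt_id x _)
  exact h1.comp_hasDerivWithinAt x h2 (fun y hy => ⟨ht, hy⟩)

theorem strip_hasDeriv_t {T : ℝ} {U : ℝ × ℝ → ℝ} (h : DifferentiableOn ℝ U (strip T)) {t x : ℝ}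
    (ht : t ∈ Ico 0 T) (hx : x ∈ Icc (-1 : ℝ) 1) :
    HasDerivWithinAt (fun s => U (s, x)) (fderivWithin ℝ U (strip T) (t, x) (1, 0))
      (Ico 0 T) t := by
  have h1 : HasFDerivWithinAt U (fderivWithin ℝ U (strip T) (t, x)) (strip T) (t, x) :=
    (h (t, x) ⟨ht, hx⟩).hasFDerivWithinAt
  have h2 : HasDerivWithinAt (fun s : ℝ => ((s, x) : ℝ × ℝ)) ((1, 0) : ℝ × ℝ) (Ico 0 T) t :=
    (hasDerivWithinAt_id t _).prodMk (hasDerivWithinAt_const t _ x)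
  exact h1.comp_hasDerivWithinAt t h2 (fun s hs => (⟨hs, hx⟩ : ((s, x) : ℝ × ℝ) ∈ strip T))

/-- (P1) for finite smoothness -/
theorem strip_dx_nat {T : ℝ} {F : ℝ → ℝ → ℝ} {n m : WithTop ℕ∞} (hmn : m + 1 ≤ n)
    (hF : ContDiffOn ℝ n (fun z : ℝ × ℝ => F z.1 z.2) (strip T)) :
    ContDiffOn ℝ m (fun z : ℝ × ℝ => derivWithin (F z.1) (Icc (-1) 1) z.2) (strip T) ∧
    ∀ t ∈ Ico 0 T, ∀ x ∈ Icc (-1 : ℝ) 1,
      HasDerivWithinAt (F t) (derivWithin (F t) (Icc (-1) 1) x) (Icc (-1) 1) x := by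
  have hn : n ≠ 0 := by
    rintro rfl
    simp at hmn
  have hd : DifferentiableOn ℝ (fun z : ℝ × ℝ => F z.1 z.2) (strip T) :=
    hF.differentiableOn hn
  have key : ∀ t ∈ Ico 0 T, ∀ x ∈ Icc (-1 : ℝ) 1, HasDerivWithinAt (F t)
      (fderivWithin ℝ (fun z : ℝ × ℝ => F z.1 z.2) (strip T) (t, x) (0, 1)) (Icc (-1) 1) x :=
    fun t ht x hx => strip_hasDeriv_x hd ht hx
  refine ⟨?_, fun t ht x hx => (key t ht x hx).differentiableWithinAt.hasDerivWithinAt⟩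
  have h1 : ContDiffOn ℝ m (fderivWithin ℝ (fun z : ℝ × ℝ => F z.1 z.2) (strip T)) (strip T) :=
    ContDiffOn.fderivWithin hF (uniqueDiffOn_strip T) hmn
  have h2 := h1.clm_apply (contDiffOn_const (c := ((0, 1) : ℝ × ℝ)))
  refine ContDiffOn.congr h2 ?_
  rintro ⟨t, x⟩ ⟨ht, hx⟩
  exact (key t ht x hx).derivWithin (uniqueDiffOn_II x hx)

/-- (P2) for finite smoothness -/
theorem strip_dt_nat {T : ℝ} {F : ℝ → ℝ → ℝ} {n m : WithTop ℕ∞} (hmn : m + 1 ≤ n)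
    (hF : ContDiffOn ℝ n (fun z : ℝ × ℝ => F z.1 z.2) (strip T)) :
    ContDiffOn ℝ m (fun z : ℝ × ℝ => derivWithin (fun s => F s z.2) (Ico 0 T) z.1) (strip T) ∧
    ∀ t ∈ Ico 0 T, ∀ x ∈ Icc (-1 : ℝ) 1,
      HasDerivWithinAt (fun s => F s x) (derivWithin (fun s => F s x) (Ico 0 T) t) (Ico 0 T) t := by
  have hn : n ≠ 0 := by
    rintro rfl
    simp at hmn
  have hd : DifferentiableOn ℝ (fun z : ℝ × ℝ => F z.1 z.2) (strip T) :=
    hF.differentiableOn hn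
  have key : ∀ t ∈ Ico 0 T, ∀ x ∈ Icc (-1 : ℝ) 1, HasDerivWithinAt (fun s => F s x)
      (fderivWithin ℝ (fun z : ℝ × ℝ => F z.1 z.2) (strip T) (t, x) (1, 0)) (Ico 0 T) t :=
    fun t ht x hx => strip_hasDeriv_t (U := fun z : ℝ × ℝ => F z.1 z.2) hd ht hx
  refine ⟨?_, fun t ht x hx => (key t ht x hx).differentiableWithinAt.hasDerivWithinAt⟩
  have h1 : ContDiffOn ℝ m (fderivWithin ℝ (fun z : ℝ × ℝ => F z.1 z.2) (strip T)) (strip T) :=
    ContDiffOn.fderivWithin hF (uniqueDiffOn_strip T) hmn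
  have h2 := h1.clm_apply (contDiffOn_const (c := ((1, 0) : ℝ × ℝ)))
  refine ContDiffOn.congr h2 ?_
  rintro ⟨t, x⟩ ⟨ht, hx⟩
  exact (key t ht x hx).derivWithin (uniqueDiffOn_Ico 0 T t ht)

/-- (P1) space derivatives of a smooth function on the strip -/
theorem strip_dx {T : ℝ} {F : ℝ → ℝ → ℝ}
    (hF : ContDiffOn ℝ ∞ (fun z : ℝ × ℝ => F z.1 z.2) (strip T)) :
    ContDiffOn ℝ ∞ (fun z : ℝ × ℝ => derivWithin (F z.1) (Icc (-1) 1) z.2) (strip T) ∧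
    ∀ t ∈ Ico 0 T, ∀ x ∈ Icc (-1 : ℝ) 1,
      HasDerivWithinAt (F t) (derivWithin (F t) (Icc (-1) 1) x) (Icc (-1) 1) x :=
  strip_dx_nat (by simp) hF

/-- (P2) time derivatives of a smooth function on the strip -/
theorem strip_dt {T : ℝ} {F : ℝ → ℝ → ℝ}
    (hF : ContDiffOn ℝ ∞ (fun z : ℝ × ℝ => F z.1 z.2) (strip T)) :
    ContDiffOn ℝ ∞ (fun z : ℝ × ℝ => derivWithin (fun s => F s z.2) (Ico 0 T) z.1) (strip T) ∧
    ∀ t ∈ Ico 0 T, ∀ x ∈ Icc (-1 : ℝ) 1,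
      HasDerivWithinAt (fun s => F s x) (derivWithin (fun s => F s x) (Ico 0 T) t) (Ico 0 T) t :=
  strip_dt_nat (by simp) hF

/-! ### Clamping -/

/-- The retraction of the line on `[a,b]`. -/
def cl (a b x : ℝ) : ℝ := max a (min b x)

theorem cl_mem {a b : ℝ} (h : a ≤ b) (x : ℝ) : cl a b x ∈ Icc a b :=
  ⟨le_max_left _ _, max_le h (min_le_left _ _)⟩

theorem cl_of_mem {a b x : ℝ} (h : x ∈ Icc a b) : cl a b x = x := by
  rw [cl, min_eq_right h.2, max_eq_right h.1]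

theorem continuous_cl (a b : ℝ) : Continuous (cl a b) :=
  continuous_const.max (continuous_const.min continuous_id)

theorem cl_mem_strip {T T' : ℝ} (h0 : 0 ≤ T') (h : T' < T) (z : ℝ × ℝ) :
    ((cl 0 T' z.1, cl (-1) 1 z.2) : ℝ × ℝ) ∈ strip T :=
  ⟨⟨(cl_mem h0 _).1, (cl_mem h0 _).2.trans_lt h⟩, cl_mem (by norm_num) _⟩

theorem continuous_clamp {T T' : ℝ} (h0 : 0 ≤ T') (h : T' < T) {F : ℝ × ℝ → ℝ}
    (hF : ContinuousOn F (strip T)) :
    Continuous (fun z : ℝ × ℝ => F (cl 0 T' z.1, cl (-1) 1 z.2)) := by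
  refine hF.comp_continuous ?_ (fun z => cl_mem_strip h0 h z)
  exact ((continuous_cl _ _).comp continuous_fst).prodMk ((continuous_cl _ _).comp continuous_snd)

theorem continuous_clamp1 {T T' : ℝ} (h0 : 0 ≤ T') (h : T' < T) {c : ℝ → ℝ}
    (hc : ContinuousOn c (Ico 0 T)) : Continuous (fun s => c (cl 0 T' s)) :=
  hc.comp_continuous (continuous_cl _ _) fun _ => ⟨(cl_mem h0 _).1, (cl_mem h0 _).2.trans_lt h⟩

/-- choice of an intermediate time -/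
theorem exists_mid {T t : ℝ} (ht : t ∈ Ico 0 T) : ∃ T', 0 ≤ T' ∧ T' < T ∧ t < T' :=
  ⟨(t + T) / 2, by linarith only [ht, ht.1, ht.2], by linarith only [ht, ht.2], by linarith only [ht, ht.2]⟩

theorem Ico_mem_nhdsWithin {T T' t : ℝ} (h1 : t < T') :
    Iio T' ∩ Ico 0 T ∈ 𝓝[Ico 0 T] t :=
  inter_mem (nhdsWithin_le_nhds (Iio_mem_nhds h1)) self_mem_nhdsWithin

theorem integral_cl_congr {a b t : ℝ} {c : ℝ → ℝ} (h : uIcc 0 t ⊆ Icc a b) :
    ∫ s in (0 : ℝ)..t, c (cl a b s) = ∫ s in (0 : ℝ)..t, c s :=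
  intervalIntegral.integral_congr fun s hs => by simp only [cl_of_mem (h hs)]

theorem uIcc_sub_time {T' t : ℝ} (h0 : 0 ≤ t) (h : t ≤ T') : uIcc 0 t ⊆ Icc 0 T' := by
  rw [uIcc_of_le h0]
  exact Icc_subset_Icc le_rfl h

theorem uIcc_sub_space {x : ℝ} (h : x ∈ Icc (-1 : ℝ) 1) : uIcc 0 x ⊆ Icc (-1) 1 :=
  (convex_Icc (-1 : ℝ) 1).ordConnected.uIcc_subset ⟨by norm_num, by norm_num⟩ h

/-- Fundamental theorem of calculus in time. -/
theorem hasDerivWithinAt_integral_t {T : ℝ} {c : ℝ → ℝ} (hc : ContinuousOn c (Ico 0 T)) {t : ℝ}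
    (ht : t ∈ Ico 0 T) :
    HasDerivWithinAt (fun t => ∫ s in (0 : ℝ)..t, c s) (c t) (Ico 0 T) t := by
  obtain ⟨T', h0, h1, h2⟩ := exists_mid ht
  have hcc := continuous_clamp1 h0 h1 hc
  have e := (intervalIntegral.integral_hasDerivAt_right (hcc.intervalIntegrable 0 t)
    (hcc.stronglyMeasurableAtFilter _ _) hcc.continuousAt).hasDerivWithinAt (s := Ico 0 T)
  rw [cl_of_mem ⟨ht.1, h2.le⟩] at e
  refine e.congr_of_eventuallyEq ?_ ?_
  · filter_upwards [Ico_mem_nhdsWithin (T := T) h2] with s hs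
    exact (integral_cl_congr (uIcc_sub_time hs.2.1 (le_of_lt hs.1))).symm
  · exact (integral_cl_congr (uIcc_sub_time ht.1 h2.le)).symm

/-- Fundamental theorem of calculus in space. -/
theorem hasDerivWithinAt_integral_x {c : ℝ → ℝ} (hc : ContinuousOn c (Icc (-1) 1)) {x : ℝ}
    (hx : x ∈ Icc (-1 : ℝ) 1) :
    HasDerivWithinAt (fun x => ∫ s in (0 : ℝ)..x, c s) (c x) (Icc (-1) 1) x := by
  have hcc : Continuous (fun s => c (cl (-1) 1 s)) :=
    hc.comp_continuous (continuous_cl _ _) fun _ => cl_mem (by norm_num) _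
  have e := (intervalIntegral.integral_hasDerivAt_right (hcc.intervalIntegrable 0 x)
    (hcc.stronglyMeasurableAtFilter _ _) hcc.continuousAt).hasDerivWithinAt (s := Icc (-1) 1)
  rw [cl_of_mem hx] at e
  refine e.congr (fun s hs => ?_) ?_
  · exact (integral_cl_congr (uIcc_sub_space hs)).symm
  · exact (integral_cl_congr (uIcc_sub_space hx)).symm

/-- Continuity of the space primitive. -/
theorem continuousOn_integral_x {T : ℝ} {F : ℝ → ℝ → ℝ}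
    (hF : ContinuousOn (fun z : ℝ × ℝ => F z.1 z.2) (strip T)) :
    ContinuousOn (fun z : ℝ × ℝ => ∫ y in (0 : ℝ)..z.2, F z.1 y) (strip T) := by
  intro z hz
  obtain ⟨T', h0, h1, h2⟩ := exists_mid hz.1
  have hc := continuous_clamp h0 h1 hF
  have hc2 : Continuous fun z : ℝ × ℝ => ∫ y in (0 : ℝ)..z.2, F (cl 0 T' z.1) (cl (-1) 1 y) := by
    refine intervalIntegral.continuous_parametric_intervalIntegral_of_continuous
      (f := fun (z : ℝ × ℝ) (y : ℝ) => F (cl 0 T' z.1) (cl (-1) 1 y)) ?_ continuous_snd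
    exact hc.comp ((continuous_fst.comp continuous_fst).prodMk continuous_snd)
  refine hc2.continuousWithinAt.congr_of_eventuallyEq ?_ ?_
  · have : ∀ᶠ w in 𝓝[strip T] z, w.1 < T' :=
      nhdsWithin_le_nhds (continuous_fst.continuousAt (Iio_mem_nhds h2))
    filter_upwards [this, self_mem_nhdsWithin] with w hw1 hw2
    rw [cl_of_mem ⟨hw2.1.1, hw1.le⟩]
    exact (integral_cl_congr (c := F w.1) (uIcc_sub_space hw2.2)).symm
  · rw [cl_of_mem ⟨hz.1.1, h2.le⟩]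
    exact (integral_cl_congr (c := F z.1) (uIcc_sub_space hz.2)).symm

/-- Continuity of the time primitive. -/
theorem continuousOn_integral_t {T : ℝ} {F : ℝ → ℝ → ℝ}
    (hF : ContinuousOn (fun z : ℝ × ℝ => F z.1 z.2) (strip T)) :
    ContinuousOn (fun z : ℝ × ℝ => ∫ s in (0 : ℝ)..z.1, F s z.2) (strip T) := by
  intro z hz
  obtain ⟨T', h0, h1, h2⟩ := exists_mid hz.1
  have hc := continuous_clamp h0 h1 hF
  have hc2 : Continuous fun z : ℝ × ℝ => ∫ s in (0 : ℝ)..z.1, F (cl 0 T' s) (cl (-1) 1 z.2) := by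
    refine intervalIntegral.continuous_parametric_intervalIntegral_of_continuous
      (f := fun (z : ℝ × ℝ) (s : ℝ) => F (cl 0 T' s) (cl (-1) 1 z.2)) ?_ continuous_fst
    exact hc.comp (continuous_snd.prodMk (continuous_snd.comp continuous_fst))
  refine hc2.continuousWithinAt.congr_of_eventuallyEq ?_ ?_
  · have : ∀ᶠ w in 𝓝[strip T] z, w.1 < T' :=
      nhdsWithin_le_nhds (continuous_fst.continuousAt (Iio_mem_nhds h2))
    filter_upwards [this, self_mem_nhdsWithin] with w hw1 hw2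
    rw [cl_of_mem hw2.2]
    exact (integral_cl_congr (c := fun s => F s w.2) (uIcc_sub_time hw2.1.1 hw1.le)).symm
  · rw [cl_of_mem hz.2]
    exact (integral_cl_congr (c := fun s => F s z.2) (uIcc_sub_time hz.1.1 h2.le)).symm

theorem slice_x {T : ℝ} {F : ℝ → ℝ → ℝ}
    (hF : ContinuousOn (fun z : ℝ × ℝ => F z.1 z.2) (strip T)) {t : ℝ} (ht : t ∈ Ico 0 T) :
    ContinuousOn (F t) (Icc (-1) 1) :=
  hF.comp (f := fun x : ℝ => ((t, x) : ℝ × ℝ)) (by fun_prop) fun x hx => ⟨ht, hx⟩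

theorem slice_t {T : ℝ} {F : ℝ → ℝ → ℝ}
    (hF : ContinuousOn (fun z : ℝ × ℝ => F z.1 z.2) (strip T)) {x : ℝ} (hx : x ∈ Icc (-1 : ℝ) 1) :
    ContinuousOn (fun t => F t x) (Ico 0 T) :=
  hF.comp (f := fun t : ℝ => ((t, x) : ℝ × ℝ)) (by fun_prop)
    fun t ht => (⟨ht, hx⟩ : ((t, x) : ℝ × ℝ) ∈ strip T)

/-! ### Integration of partial derivatives -/

/-- A function with zero derivative on `[0,T)` is constant. -/
theorem const_of_deriv_zero {T : ℝ} {u : ℝ → ℝ}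
    (hu : ∀ t ∈ Ico 0 T, HasDerivWithinAt u 0 (Ico 0 T) t) {t : ℝ} (ht : t ∈ Ico 0 T) :
    u t = u 0 := by
  have h := (convex_Ico (0 : ℝ) T).norm_image_sub_le_of_norm_hasDerivWithin_le
    (f := u) (f' := fun _ => 0) (C := 0) (fun s hs => hu s hs) (fun s _ => by simp)
    (x := 0) (y := t) ⟨le_rfl, ht.1.trans_lt ht.2⟩ ht
  rw [zero_mul] at h
  exact sub_eq_zero.mp (norm_le_zero_iff.mp h)

theorem const_of_deriv_zero_x {u : ℝ → ℝ}
    (hu : ∀ x ∈ Icc (-1 : ℝ) 1, HasDerivWithinAt u 0 (Icc (-1) 1) x) {x : ℝ}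
    (hx : x ∈ Icc (-1 : ℝ) 1) : u x = u 0 := by
  have h := (convex_Icc (-1 : ℝ) 1).norm_image_sub_le_of_norm_hasDerivWithin_le
    (f := u) (f' := fun _ => 0) (C := 0) (fun s hs => hu s hs) (fun s _ => by simp)
    (x := 0) (y := x) ⟨by norm_num, by norm_num⟩ hx
  rw [zero_mul] at h
  exact sub_eq_zero.mp (norm_le_zero_iff.mp h)

theorem ftc_t {T : ℝ} {u c : ℝ → ℝ} (hc : ContinuousOn c (Ico 0 T))
    (hu : ∀ t ∈ Ico 0 T, HasDerivWithinAt u (c t) (Ico 0 T) t) {t : ℝ} (ht : t ∈ Ico 0 T) :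
    u t = u 0 + ∫ s in (0 : ℝ)..t, c s := by
  have h := const_of_deriv_zero (u := fun t => u t - ∫ s in (0 : ℝ)..t, c s)
    (fun t ht => by
      have := (hu t ht).sub (hasDerivWithinAt_integral_t hc ht)
      rw [sub_self] at this
      exact this) ht
  simp only [intervalIntegral.integral_same, sub_zero] at h
  linarith only [h]

theorem ftc_x {u c : ℝ → ℝ} (hc : ContinuousOn c (Icc (-1) 1))
    (hu : ∀ x ∈ Icc (-1 : ℝ) 1, HasDerivWithinAt u (c x) (Icc (-1) 1) x) {x : ℝ}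
    (hx : x ∈ Icc (-1 : ℝ) 1) : u x = u 0 + ∫ y in (0 : ℝ)..x, c y := by
  have h := const_of_deriv_zero_x (u := fun x => u x - ∫ s in (0 : ℝ)..x, c s)
    (fun x hx => by
      have := (hu x hx).sub (hasDerivWithinAt_integral_x hc hx)
      rw [sub_self] at this
      exact this) hx
  simp only [intervalIntegral.integral_same, sub_zero] at h
  linarith only [h]

theorem uIcc_sub_Ico {T t : ℝ} (ht : t ∈ Ico 0 T) : uIcc 0 t ⊆ Ico 0 T := by
  rw [uIcc_of_le ht.1]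
  exact fun s hs => ⟨hs.1, hs.2.trans_lt ht.2⟩

theorem swap_strip {T : ℝ} {F : ℝ → ℝ → ℝ}
    (hF : ContinuousOn (fun z : ℝ × ℝ => F z.1 z.2) (strip T)) {t x : ℝ} (ht : t ∈ Ico 0 T)
    (hx : x ∈ Icc (-1 : ℝ) 1) :
    ∫ s in (0 : ℝ)..t, ∫ y in (0 : ℝ)..x, F s y = ∫ y in (0 : ℝ)..x, ∫ s in (0 : ℝ)..t, F s y := by
  refine intervalIntegral_intervalIntegral_swap ?_
  have hsub : uIcc 0 t ×ˢ uIcc 0 x ⊆ strip T := prod_mono (uIcc_sub_Ico ht) (uIcc_sub_space hx)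
  have h1 : IntegrableOn (fun z : ℝ × ℝ => F z.1 z.2) (uIcc 0 t ×ˢ uIcc 0 x) :=
    (hF.mono hsub).integrableOn_compact (isCompact_uIcc.prod isCompact_uIcc)
  exact h1.mono_set (prod_mono uIoc_subset_uIcc uIoc_subset_uIcc)

theorem intble_t {T : ℝ} {c : ℝ → ℝ} (hc : ContinuousOn c (Ico 0 T)) {t : ℝ} (ht : t ∈ Ico 0 T) :
    IntervalIntegrable c volume 0 t := (hc.mono (uIcc_sub_Ico ht)).intervalIntegrable

theorem intble_x {c : ℝ → ℝ} (hc : ContinuousOn c (Icc (-1) 1)) {x : ℝ}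
    (hx : x ∈ Icc (-1 : ℝ) 1) :
    IntervalIntegrable c volume 0 x := (hc.mono (uIcc_sub_space hx)).intervalIntegrable

theorem zero_mem_time {T t : ℝ} (ht : t ∈ Ico 0 T) : (0 : ℝ) ∈ Ico 0 T :=
  ⟨le_rfl, ht.1.trans_lt ht.2⟩

theorem zero_mem_space : (0 : ℝ) ∈ Icc (-1 : ℝ) 1 := ⟨by norm_num, by norm_num⟩

/-- Time derivative of the space primitive. -/
theorem hasDeriv_t_integral_x {T : ℝ} {F Ft : ℝ → ℝ → ℝ}
    (hF : ContinuousOn (fun z : ℝ × ℝ => F z.1 z.2) (strip T))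
    (hFt : ContinuousOn (fun z : ℝ × ℝ => Ft z.1 z.2) (strip T))
    (h : ∀ t ∈ Ico 0 T, ∀ x ∈ Icc (-1 : ℝ) 1,
      HasDerivWithinAt (fun s => F s x) (Ft t x) (Ico 0 T) t) {t x : ℝ} (ht : t ∈ Ico 0 T)
    (hx : x ∈ Icc (-1 : ℝ) 1) :
    HasDerivWithinAt (fun t => ∫ y in (0 : ℝ)..x, F t y) (∫ y in (0 : ℝ)..x, Ft t y)
      (Ico 0 T) t := by
  have key : ∀ t ∈ Ico 0 T, ∫ y in (0 : ℝ)..x, F t y =
      (∫ y in (0 : ℝ)..x, F 0 y) + ∫ s in (0 : ℝ)..t, ∫ y in (0 : ℝ)..x, Ft s y := by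
    intro t ht
    rw [swap_strip hFt ht hx, ← intervalIntegral.integral_add
      (intble_x (slice_x hF (zero_mem_time ht)) hx)]
    · refine intervalIntegral.integral_congr fun y hy => ?_
      exact ftc_t (slice_t hFt (uIcc_sub_space hx hy))
        (fun t ht => h t ht y (uIcc_sub_space hx hy)) ht
    · exact intble_x (slice_x (F := fun t y => ∫ s in (0 : ℝ)..t, Ft s y)
        (continuousOn_integral_t hFt) ht) hx
  have hcont : ContinuousOn (fun s => ∫ y in (0 : ℝ)..x, Ft s y) (Ico 0 T) :=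
    slice_t (F := fun s x => ∫ y in (0 : ℝ)..x, Ft s y) (continuousOn_integral_x hFt) hx
  have := (hasDerivWithinAt_integral_t hcont ht).const_add (∫ y in (0 : ℝ)..x, F 0 y)
  exact this.congr key (key t ht)

/-- Space derivative of the time primitive. -/
theorem hasDeriv_x_integral_t {T : ℝ} {F Fx : ℝ → ℝ → ℝ}
    (hF : ContinuousOn (fun z : ℝ × ℝ => F z.1 z.2) (strip T))
    (hFx : ContinuousOn (fun z : ℝ × ℝ => Fx z.1 z.2) (strip T))
    (h : ∀ t ∈ Ico 0 T, ∀ x ∈ Icc (-1 : ℝ) 1,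
      HasDerivWithinAt (F t) (Fx t x) (Icc (-1) 1) x) {t x : ℝ} (ht : t ∈ Ico 0 T)
    (hx : x ∈ Icc (-1 : ℝ) 1) :
    HasDerivWithinAt (fun x => ∫ s in (0 : ℝ)..t, F s x) (∫ s in (0 : ℝ)..t, Fx s x)
      (Icc (-1) 1) x := by
  have key : ∀ x ∈ Icc (-1 : ℝ) 1, ∫ s in (0 : ℝ)..t, F s x =
      (∫ s in (0 : ℝ)..t, F s 0) + ∫ y in (0 : ℝ)..x, ∫ s in (0 : ℝ)..t, Fx s y := by
    intro x hx
    rw [← swap_strip hFx ht hx, ← intervalIntegral.integral_add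
      (intble_t (slice_t hF zero_mem_space) ht)]
    · refine intervalIntegral.integral_congr fun s hs => ?_
      exact ftc_x (slice_x hFx (uIcc_sub_Ico ht hs))
        (fun x hx => h s (uIcc_sub_Ico ht hs) x hx) hx
    · exact intble_t (slice_t (F := fun s x => ∫ y in (0 : ℝ)..x, Fx s y)
        (continuousOn_integral_x hFx) hx) ht
  have hcont : ContinuousOn (fun y => ∫ s in (0 : ℝ)..t, Fx s y) (Icc (-1) 1) :=
    slice_x (F := fun t y => ∫ s in (0 : ℝ)..t, Fx s y) (continuousOn_integral_t hFx) ht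
  have := (hasDerivWithinAt_integral_x hcont hx).const_add (∫ s in (0 : ℝ)..t, F s 0)
  exact this.congr key (key x hx)

/-- (K1), finite smoothness -/
theorem strip_integral_x_nat {T : ℝ} (n : ℕ) : ∀ {F : ℝ → ℝ → ℝ},
    ContDiffOn ℝ n (fun z : ℝ × ℝ => F z.1 z.2) (strip T) →
    ContDiffOn ℝ n (fun z : ℝ × ℝ => ∫ y in (0 : ℝ)..z.2, F z.1 y) (strip T) := by
  induction n with
  | zero =>
    intro F hF
    simp only [CharP.cast_eq_zero, contDiffOn_zero] at hF ⊢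
    exact continuousOn_integral_x hF
  | succ n ih =>
    intro F hF
    have h2 := strip_dt_nat (n := ((n + 1 : ℕ) : WithTop ℕ∞)) (m := n) (by simp) hF
    have h3 : ContDiffOn ℝ n (fun z : ℝ × ℝ => F z.1 z.2) (strip T) := hF.of_le (by simp)
    have := contDiffOn_strip_succ (G := fun t x => ∫ y in (0 : ℝ)..x, F t y)
      (Gt := fun t x => ∫ y in (0 : ℝ)..x, derivWithin (fun s => F s y) (Ico 0 T) t)
      (Gx := fun t x => F t x) n
      (fun t ht x hx => hasDeriv_t_integral_x hF.continuousOn h2.1.continuousOn h2.2 ht hx)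
      (fun t ht x hx => hasDerivWithinAt_integral_x (slice_x hF.continuousOn ht) hx)
      (ih (F := fun t y => derivWithin (fun s => F s y) (Ico 0 T) t) h2.1) h3
    exact_mod_cast this

/-- (K2), finite smoothness -/
theorem strip_integral_t_nat {T : ℝ} (n : ℕ) : ∀ {F : ℝ → ℝ → ℝ},
    ContDiffOn ℝ n (fun z : ℝ × ℝ => F z.1 z.2) (strip T) →
    ContDiffOn ℝ n (fun z : ℝ × ℝ => ∫ s in (0 : ℝ)..z.1, F s z.2) (strip T) := by
  induction n with
  | zero =>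
    intro F hF
    simp only [CharP.cast_eq_zero, contDiffOn_zero] at hF ⊢
    exact continuousOn_integral_t hF
  | succ n ih =>
    intro F hF
    have h2 := strip_dx_nat (n := ((n + 1 : ℕ) : WithTop ℕ∞)) (m := n) (by simp) hF
    have h3 : ContDiffOn ℝ n (fun z : ℝ × ℝ => F z.1 z.2) (strip T) := hF.of_le (by simp)
    have := contDiffOn_strip_succ (G := fun t x => ∫ s in (0 : ℝ)..t, F s x)
      (Gt := fun t x => F t x)
      (Gx := fun t x => ∫ s in (0 : ℝ)..t, derivWithin (F s) (Icc (-1) 1) x) n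
      (fun t ht x hx => hasDerivWithinAt_integral_t (slice_t hF.continuousOn hx) ht)
      (fun t ht x hx => hasDeriv_x_integral_t hF.continuousOn h2.1.continuousOn h2.2 ht hx)
      h3 (ih (F := fun s x => derivWithin (F s) (Icc (-1) 1) x) h2.1)
    exact_mod_cast this

/-- (K1) -/
theorem strip_integral_x {T : ℝ} {F : ℝ → ℝ → ℝ}
    (hF : ContDiffOn ℝ ∞ (fun z : ℝ × ℝ => F z.1 z.2) (strip T)) :
    ContDiffOn ℝ ∞ (fun z : ℝ × ℝ => ∫ y in (0 : ℝ)..z.2, F z.1 y) (strip T) := by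
  rw [contDiffOn_infty] at hF ⊢
  exact fun n => strip_integral_x_nat n (hF n)

/-- (K2) -/
theorem strip_integral_t {T : ℝ} {F : ℝ → ℝ → ℝ}
    (hF : ContDiffOn ℝ ∞ (fun z : ℝ × ℝ => F z.1 z.2) (strip T)) :
    ContDiffOn ℝ ∞ (fun z : ℝ × ℝ => ∫ s in (0 : ℝ)..z.1, F s z.2) (strip T) := by
  rw [contDiffOn_infty] at hF ⊢
  exact fun n => strip_integral_t_nat n (hF n)

end Vale.Agent.P244.Geo
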